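import Crest.Agent.R101.Defs

/-!
Row 101: calculus of `db = 2 ∂̄` and integration by parts on the unit disc.
-/

set_option autoImplicit false
open Complex MeasureTheory Metric Set Filter Topology
open scoped ComplexConjugate

namespace Crest.Agent.R101

theorem db_of_hasFDerivAt {a : ℂ → ℂ} {L : ℂ →L[ℝ] ℂ} {z : ℂ} (h : HasFDerivAt a L z) :
    db a z = L 1 + I * L I := by
  simp [db, h.fderiv]

theorem db_congr {a b : ℂ → ℂ} {z : ℂ} (h : a =ᶠ[𝓝 z] b) : db a z = db b z := by
  simp [db, h.fderiv_eq]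

theorem gr_congr {a b : ℂ → ℝ} {z : ℂ} (h : a =ᶠ[𝓝 z] b) : gr a z = gr b z :=
  db_congr (h.mono fun x hx => by simp [hx])

@[simp] theorem db_const (c z : ℂ) : db (fun _ => c) z = 0 := by simp [db]

@[simp] theorem gr_const (c : ℝ) (z : ℂ) : gr (fun _ => c) z = 0 := by simp [gr]

theorem db_add {a b : ℂ → ℂ} {z : ℂ} (ha : DifferentiableAt ℝ a z) (hb : DifferentiableAt ℝ b z) :
    db (fun x => a x + b x) z = db a z + db b z := by
  rw [db_of_hasFDerivAt (ha.hasFDerivAt.fun_add hb.hasFDerivAt)]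
  simp [db]; ring

theorem db_sub {a b : ℂ → ℂ} {z : ℂ} (ha : DifferentiableAt ℝ a z) (hb : DifferentiableAt ℝ b z) :
    db (fun x => a x - b x) z = db a z - db b z := by
  rw [db_of_hasFDerivAt (ha.hasFDerivAt.fun_sub hb.hasFDerivAt)]
  simp [db]; ring

theorem db_mul {a b : ℂ → ℂ} {z : ℂ} (ha : DifferentiableAt ℝ a z) (hb : DifferentiableAt ℝ b z) :
    db (fun x => a x * b x) z = a z * db b z + b z * db a z := by
  rw [db_of_hasFDerivAt (ha.hasFDerivAt.fun_mul hb.hasFDerivAt)]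
  simp [db]; ring

theorem db_const_mul {a : ℂ → ℂ} {z : ℂ} (c : ℂ) (ha : DifferentiableAt ℝ a z) :
    db (fun x => c * a x) z = c * db a z := by
  rw [db_mul (differentiableAt_const c) ha]; simp

theorem db_holo {h : ℂ → ℂ} {z : ℂ} (hh : DifferentiableAt ℂ h z) : db h z = 0 := by
  rw [db_of_hasFDerivAt (hh.hasDerivAt.hasFDerivAt.restrictScalars ℝ)]
  simp [← mul_assoc]

theorem db_conj_holo {h : ℂ → ℂ} {h' z : ℂ} (hh : HasDerivAt h h' z) :
    db (fun x => conj (h x)) z = 2 * conj h' := by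
  have h1 := (conjCLE.toContinuousLinearMap.hasFDerivAt (x := h z)).comp z
    (hh.hasFDerivAt.restrictScalars ℝ)
  rw [db_of_hasFDerivAt (a := fun x => conj (h x)) h1]
  simp [← mul_assoc]; ring

theorem db_conj_id (z : ℂ) : db (fun x => conj x) z = 2 := by
  simpa using db_conj_holo (hasDerivAt_id z)

/-- Chain rule with a holomorphic inner map. -/
theorem db_comp_holo {a h : ℂ → ℂ} {h' z : ℂ} (ha : DifferentiableAt ℝ a (h z))
    (hh : HasDerivAt h h' z) : db (fun x => a (h x)) z = conj h' * db a (h z) := by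
  have h1 := ha.hasFDerivAt.comp z (hh.hasFDerivAt.restrictScalars ℝ)
  rw [db_of_hasFDerivAt (a := fun x => a (h x)) h1]
  set L := fderiv ℝ a (h z) with hL
  have e1 : L h' = h'.re * L 1 + h'.im * L I := by
    conv_lhs => rw [show h' = h'.re • (1 : ℂ) + h'.im • I by simp]
    rw [map_add, map_smul, map_smul]; simp
  have e2 : L (I * h') = -h'.im * L 1 + h'.re * L I := by
    conv_lhs => rw [show I * h' = (-h'.im) • (1 : ℂ) + h'.re • I by
      apply Complex.ext <;> simp]
    rw [map_add, map_smul, map_smul]; simp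
  have e3 : conj h' = (h'.re : ℂ) - h'.im * I := by apply Complex.ext <;> simp
  simp only [db, ← hL, ContinuousLinearMap.comp_apply,
    ContinuousLinearMap.coe_restrictScalars', ContinuousLinearMap.toSpanSingleton_apply,
    smul_eq_mul, one_mul]
  rw [e1, e2, e3]
  linear_combination (h'.im * L I) * I_mul_I

theorem gr_comp_holo {V : ℂ → ℝ} {h : ℂ → ℂ} {h' z : ℂ} (hV : DifferentiableAt ℝ V (h z))
    (hh : HasDerivAt h h' z) : gr (fun x => V (h x)) z = conj h' * gr V (h z) :=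
  db_comp_holo (a := fun x => (V x : ℂ)) (ofRealCLM.differentiableAt.comp _ hV) hh

theorem differentiableAt_ofReal {V : ℂ → ℝ} {z : ℂ} (hV : DifferentiableAt ℝ V z) :
    DifferentiableAt ℝ (fun x => (V x : ℂ)) z := ofRealCLM.differentiableAt.comp _ hV

theorem gr_of_hasFDerivAt {V : ℂ → ℝ} {L : ℂ →L[ℝ] ℝ} {z : ℂ} (h : HasFDerivAt V L z) :
    gr V z = (L 1 : ℂ) + I * (L I : ℂ) := by
  have h1 := (ofRealCLM.hasFDerivAt (x := V z)).comp z h
  rw [gr, db_of_hasFDerivAt (a := fun x => (V x : ℂ)) h1]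
  simp

theorem gr_eq {V : ℂ → ℝ} {z : ℂ} (h : DifferentiableAt ℝ V z) :
    gr V z = (fderiv ℝ V z 1 : ℂ) + I * (fderiv ℝ V z I : ℂ) := gr_of_hasFDerivAt h.hasFDerivAt

theorem gr_add {a b : ℂ → ℝ} {z : ℂ} (ha : DifferentiableAt ℝ a z) (hb : DifferentiableAt ℝ b z) :
    gr (fun x => a x + b x) z = gr a z + gr b z := by
  rw [gr, gr, gr, ← db_add (differentiableAt_ofReal ha) (differentiableAt_ofReal hb)]
  simp

theorem gr_sub {a b : ℂ → ℝ} {z : ℂ} (ha : DifferentiableAt ℝ a z) (hb : DifferentiableAt ℝ b z) :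
    gr (fun x => a x - b x) z = gr a z - gr b z := by
  rw [gr, gr, gr, ← db_sub (differentiableAt_ofReal ha) (differentiableAt_ofReal hb)]
  simp

theorem gr_mul {a b : ℂ → ℝ} {z : ℂ} (ha : DifferentiableAt ℝ a z) (hb : DifferentiableAt ℝ b z) :
    gr (fun x => a x * b x) z = a z * gr b z + b z * gr a z := by
  rw [gr, gr, gr, ← db_mul (differentiableAt_ofReal ha) (differentiableAt_ofReal hb)]
  simp

theorem gr_const_mul {a : ℂ → ℝ} {z : ℂ} (c : ℝ) (ha : DifferentiableAt ℝ a z) :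
    gr (fun x => c * a x) z = c * gr a z := by
  rw [gr_mul (differentiableAt_const c) ha]; simp

/-- Chain rule with a real outer function. -/
theorem gr_comp_real {V : ℂ → ℝ} {ψ : ℝ → ℝ} {ψ' : ℝ} {z : ℂ} (hψ : HasDerivAt ψ ψ' (V z))
    (hV : DifferentiableAt ℝ V z) : gr (fun x => ψ (V x)) z = ψ' * gr V z := by
  have h1 := hψ.comp_hasFDerivAt z hV.hasFDerivAt
  rw [gr_of_hasFDerivAt (V := fun x => ψ (V x)) h1, gr_eq hV]
  simp; ring

theorem gr_re (z : ℂ) : gr (fun x => x.re) z = 1 := by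
  rw [gr_of_hasFDerivAt (V := fun x : ℂ => x.re) (reCLM.hasFDerivAt (x := z))]; simp

theorem gr_im (z : ℂ) : gr (fun x => x.im) z = I := by
  rw [gr_of_hasFDerivAt (V := fun x : ℂ => x.im) (imCLM.hasFDerivAt (x := z))]; simp

theorem contDiff_normSq {n : WithTop ℕ∞} : ContDiff ℝ n (fun z : ℂ => ‖z‖ ^ 2) := contDiff_norm_sq ℝ

theorem gr_normSq (z : ℂ) : gr (fun x => ‖x‖ ^ 2) z = 2 * z := by
  have e : (fun x : ℂ => ‖x‖ ^ 2) = fun x => x.re * x.re + x.im * x.im := by
    funext x; rw [Complex.sq_norm, normSq_apply]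
  have hr : DifferentiableAt ℝ (fun x : ℂ => x.re) z := reCLM.differentiableAt
  have hi : DifferentiableAt ℝ (fun x : ℂ => x.im) z := imCLM.differentiableAt
  rw [e, gr_add (hr.fun_mul hr) (hi.fun_mul hi), gr_mul hr hr, gr_mul hi hi, gr_re, gr_im]
  conv_rhs => rw [← re_add_im z]
  ring

/-- Gradient of a radial function. -/
theorem gr_radial {Γ : ℝ → ℝ} {Γ' : ℝ} {z : ℂ} (h : HasDerivAt Γ Γ' (‖z‖ ^ 2)) :
    gr (fun x => Γ (‖x‖ ^ 2)) z = 2 * Γ' * z := by
  rw [gr_comp_real (V := fun x : ℂ => ‖x‖ ^ 2) h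
    (contDiff_normSq (n := 1)).contDiffAt.differentiableAt_one, gr_normSq]
  ring

/-- Splitting a complex function into real and imaginary parts. -/
theorem db_eq_gr_re_im {a : ℂ → ℂ} {z : ℂ} (ha : DifferentiableAt ℝ a z) :
    db a z = gr (fun x => (a x).re) z + I * gr (fun x => (a x).im) z := by
  have hr : DifferentiableAt ℝ (fun x => (a x).re) z := reCLM.differentiableAt.comp z ha
  have hi : DifferentiableAt ℝ (fun x => (a x).im) z := imCLM.differentiableAt.comp z ha
  have e : a = fun x => (((a x).re : ℝ) : ℂ) + I * (((a x).im : ℝ) : ℂ) := by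
    funext x; rw [mul_comm, re_add_im]
  conv_lhs => rw [e]
  rw [db_add (differentiableAt_ofReal hr) ((differentiableAt_ofReal hi).const_mul I),
    db_const_mul I (differentiableAt_ofReal hi)]
  rfl

theorem norm_db_le (a : ℂ → ℂ) (z : ℂ) : ‖db a z‖ ≤ 2 * ‖fderiv ℝ a z‖ := by
  have h1 := (fderiv ℝ a z).le_opNorm 1
  have h2 := (fderiv ℝ a z).le_opNorm I
  simp only [norm_one, norm_I, mul_one] at h1 h2
  calc ‖db a z‖ ≤ ‖fderiv ℝ a z 1‖ + ‖I * fderiv ℝ a z I‖ := norm_add_le _ _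
    _ ≤ _ := by rw [norm_mul, norm_I, one_mul]; linarith

/-- The derivative of a real function in terms of its complex gradient. -/
theorem fderiv_apply_eq {V : ℂ → ℝ} {z : ℂ} (h : DifferentiableAt ℝ V z) (v : ℂ) :
    fderiv ℝ V z v = (conj (gr V z) * v).re := by
  rw [gr_eq h]
  conv_lhs => rw [show v = v.re • (1 : ℂ) + v.im • I by simp]
  rw [map_add, map_smul, map_smul]; simp; ring

theorem norm_fderiv_le_gr {V : ℂ → ℝ} {z : ℂ} (h : DifferentiableAt ℝ V z) :
    ‖fderiv ℝ V z‖ ≤ ‖gr V z‖ := by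
  refine ContinuousLinearMap.opNorm_le_bound _ (norm_nonneg _) fun v => ?_
  rw [fderiv_apply_eq h]
  refine (Complex.abs_re_le_norm _).trans ?_
  rw [norm_mul, Complex.norm_conj]

theorem continuousOn_db {a : ℂ → ℂ} {s : Set ℂ} (hs : IsOpen s) (ha : ContDiffOn ℝ 1 a s) :
    ContinuousOn (db a) s := by
  have h := ha.continuousOn_fderiv_of_isOpen hs le_rfl
  exact (h.clm_apply continuousOn_const).add
    (continuousOn_const.mul (h.clm_apply continuousOn_const))

theorem contDiffOn_ofReal {V : ℂ → ℝ} {s : Set ℂ} {n : WithTop ℕ∞} (hV : ContDiffOn ℝ n V s) :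
    ContDiffOn ℝ n (fun x => (V x : ℂ)) s := ofRealCLM.contDiff.comp_contDiffOn hV

theorem contDiff_ofReal {V : ℂ → ℝ} {n : WithTop ℕ∞} (hV : ContDiff ℝ n V) :
    ContDiff ℝ n (fun x => (V x : ℂ)) := ofRealCLM.contDiff.comp hV

theorem continuousOn_gr {V : ℂ → ℝ} {s : Set ℂ} (hs : IsOpen s) (hV : ContDiffOn ℝ 1 V s) :
    ContinuousOn (gr V) s := continuousOn_db hs (contDiffOn_ofReal hV)

theorem continuous_db {a : ℂ → ℂ} (ha : ContDiff ℝ 1 a) : Continuous (db a) :=
  continuousOn_univ.1 (continuousOn_db isOpen_univ ha.contDiffOn)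

theorem continuous_gr {V : ℂ → ℝ} (hV : ContDiff ℝ 1 V) : Continuous (gr V) :=
  continuous_db (contDiff_ofReal hV)

theorem contDiff_db {a : ℂ → ℂ} (ha : ContDiff ℝ 2 a) : ContDiff ℝ 1 (db a) := by
  have h : ContDiff ℝ 1 (fderiv ℝ a) := ha.fderiv_right (by norm_num)
  exact (h.clm_apply contDiff_const).add (contDiff_const.mul (h.clm_apply contDiff_const))

theorem measurable_db (a : ℂ → ℂ) : Measurable (db a) :=
  (measurable_fderiv_apply_const ℝ a 1).add
    (measurable_const.mul (measurable_fderiv_apply_const ℝ a I))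

theorem measurable_gr (V : ℂ → ℝ) : Measurable (gr V) := measurable_db _

theorem diffAt_of_contDiffOn {F : Type*} [NormedAddCommGroup F] [NormedSpace ℝ F] {a : ℂ → F}
    (ha : ContDiffOn ℝ 1 a D) {z : ℂ} (hz : z ∈ D) : DifferentiableAt ℝ a z :=
  (ha.contDiffAt (isOpen_ball.mem_nhds hz)).differentiableAt_one

theorem mem_D {z : ℂ} : z ∈ D ↔ ‖z‖ < 1 := mem_ball_zero_iff

/-- A function which is `Cⁿ` on the disc and vanishes outside a smaller disc is `Cⁿ`. -/
theorem contDiff_of_supp {F : Type*} [NormedAddCommGroup F] [NormedSpace ℝ F] {a : ℂ → F}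
    {n : WithTop ℕ∞} (ha : ContDiffOn ℝ n a D) {R : ℝ} (hR : R < 1)
    (h0 : ∀ z, R ≤ ‖z‖ → a z = 0) : ContDiff ℝ n a := by
  rw [contDiff_iff_contDiffAt]
  intro z
  by_cases hz : ‖z‖ < 1
  · exact ha.contDiffAt (isOpen_ball.mem_nhds (mem_D.2 hz))
  · have : a =ᶠ[𝓝 z] fun _ => 0 := by
      have ho : IsOpen {x : ℂ | R < ‖x‖} := isOpen_lt continuous_const continuous_norm
      filter_upwards [ho.mem_nhds (show R < ‖z‖ by linarith [not_lt.1 hz])] with x hx
      exact h0 x (le_of_lt hx)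
    exact contDiffAt_const.congr_of_eventuallyEq this

theorem hasCompactSupport_of_supp {F : Type*} [Zero F] {a : ℂ → F} {R : ℝ}
    (h0 : ∀ z, R ≤ ‖z‖ → a z = 0) : HasCompactSupport a := by
  refine HasCompactSupport.intro (isCompact_closedBall (0 : ℂ) R) fun z hz => h0 z ?_
  simp only [mem_closedBall, dist_zero_right, not_le] at hz
  exact hz.le

theorem db_eq_zero_of_supp {a : ℂ → ℂ} {R : ℝ} (h0 : ∀ z, R ≤ ‖z‖ → a z = 0) {z : ℂ}
    (hz : R < ‖z‖) : db a z = 0 := by
  have : a =ᶠ[𝓝 z] fun _ => 0 := by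
    have ho : IsOpen {x : ℂ | R < ‖x‖} := isOpen_lt continuous_const continuous_norm
    filter_upwards [ho.mem_nhds hz] with x hx
    exact h0 x (le_of_lt hx)
  rw [db_congr this, db_const]

/-- A function continuous on the disc and vanishing outside a smaller disc is integrable. -/
theorem integrableOn_of_supp {F : Type*} [NormedAddCommGroup F] {a : ℂ → F}
    (ha : ContinuousOn a D) {R : ℝ} (hR : R < 1) (h0 : ∀ z, R < ‖z‖ → a z = 0) :
    IntegrableOn a D := by
  have h1 : IntegrableOn a (closedBall (0 : ℂ) R) :=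
    (ha.mono (closedBall_subset_ball hR)).integrableOn_compact (isCompact_closedBall _ _)
  refine h1.of_forall_sdiff_eq_zero measurableSet_ball fun z hz => h0 z ?_
  simpa using hz.2

/-- A continuous function is integrable on the disc. -/
theorem integrableOn_D_of_continuous {F : Type*} [NormedAddCommGroup F] {a : ℂ → F}
    (ha : Continuous a) : IntegrableOn a D :=
  (ha.continuousOn.integrableOn_compact (isCompact_closedBall (0 : ℂ) 1)).mono_set
    ball_subset_closedBall

theorem integral_fderiv_apply_eq_zero {a : ℂ → ℂ} (ha : ContDiff ℝ 1 a)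
    (hc : HasCompactSupport a) (v : ℂ) : ∫ z, fderiv ℝ a z v = 0 := by
  have hint : Integrable (fun z => fderiv ℝ a z v) :=
    ((ha.continuous_fderiv (by norm_num)).clm_apply continuous_const).integrable_of_hasCompactSupport
      (hc.fderiv_apply ℝ v)
  have := integral_mul_fderiv_eq_neg_fderiv_mul_of_integrable (μ := (volume : Measure ℂ))
    (f := fun _ : ℂ => (1 : ℂ)) (g := a) (v := v) (by simp) (by simpa using hint)
    (by simpa using ha.continuous.integrable_of_hasCompactSupport hc)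
    (fun _ _ => differentiableAt_const _) (fun x _ => ha.differentiable (by norm_num) x)
  simpa using this

/-- **Integration by parts**, basic form. -/
theorem integral_db_eq_zero {a : ℂ → ℂ} (ha : ContDiffOn ℝ 1 a D) {R : ℝ} (hR : R < 1)
    (h0 : ∀ z, R ≤ ‖z‖ → a z = 0) : ∫ z in D, db a z = 0 := by
  have ha' := contDiff_of_supp ha hR h0
  have hc := hasCompactSupport_of_supp h0
  have hint : ∀ v, Integrable (fun z => fderiv ℝ a z v) := fun v =>
    ((ha'.continuous_fderiv (by norm_num)).clm_apply continuous_const).integrable_of_hasCompactSupport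
      (hc.fderiv_apply ℝ v)
  rw [setIntegral_eq_integral_of_forall_compl_eq_zero
    (fun z hz => db_eq_zero_of_supp h0 (by rw [mem_D] at hz; linarith [not_lt.1 hz]))]
  simp only [db]
  rw [integral_add (hint 1) ((hint I).const_mul I), integral_const_mul,
    integral_fderiv_apply_eq_zero ha' hc, integral_fderiv_apply_eq_zero ha' hc]
  simp

/-- **Integration by parts**: `∫ a · db b = - ∫ b · db a` if `b` has support in a smaller disc. -/
theorem integral_mul_db {a b : ℂ → ℂ} (ha : ContDiffOn ℝ 1 a D) (hb : ContDiffOn ℝ 1 b D)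
    {R : ℝ} (hR : R < 1) (h0 : ∀ z, R ≤ ‖z‖ → b z = 0) :
    ∫ z in D, a z * db b z = -∫ z in D, b z * db a z := by
  have h1 := integral_db_eq_zero (a := fun x => a x * b x) (ha.mul hb) hR
    (fun z hz => by simp [h0 z hz])
  have i1 : IntegrableOn (fun z => a z * db b z) D :=
    integrableOn_of_supp (ha.continuousOn.mul (continuousOn_db isOpen_ball hb)) hR
      fun z hz => by simp [db_eq_zero_of_supp h0 hz]
  have i2 : IntegrableOn (fun z => b z * db a z) D :=
    integrableOn_of_supp (hb.continuousOn.mul (continuousOn_db isOpen_ball ha)) hR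
      fun z hz => by simp [h0 z hz.le]
  rw [setIntegral_congr_fun measurableSet_ball (g := fun z => a z * db b z + b z * db a z)
    (fun z hz => db_mul (diffAt_of_contDiffOn ha hz) (diffAt_of_contDiffOn hb hz)),
    integral_add i1 i2] at h1
  linear_combination h1

/-- `db (conj (gr g)) = Δ g` is real. -/
theorem im_db_conj_gr {g : ℂ → ℝ} (hg : ContDiff ℝ 2 g) (z : ℂ) :
    (db (fun x => conj (gr g x)) z).im = 0 := by
  have hd : ∀ x, DifferentiableAt ℝ g x := fun x => hg.differentiable (by norm_num) x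
  have h1 : ContDiff ℝ 1 (fderiv ℝ g) := hg.fderiv_right (by norm_num)
  have hp : ∀ v, DifferentiableAt ℝ (fun x => fderiv ℝ g x v) z := fun v =>
    (h1.clm_apply contDiff_const).differentiable (by norm_num) z
  have e : (fun x => conj (gr g x)) =
      fun x => ((fderiv ℝ g x 1 : ℝ) : ℂ) + (-I) * ((fderiv ℝ g x I : ℝ) : ℂ) := by
    funext x; rw [gr_eq (hd x)]; simp
  have hs : ∀ v w, fderiv ℝ (fun x => fderiv ℝ g x v) z w = fderiv ℝ (fderiv ℝ g) z w v := by
    intro v w
    rw [fderiv_clm_apply (h1.differentiable (by norm_num) z) (differentiableAt_const v)]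
    simp
  have hsym := (hg.contDiffAt (x := z)).isSymmSndFDerivAt (by simp)
  rw [e, db_add (differentiableAt_ofReal (hp 1)) ((differentiableAt_ofReal (hp I)).const_mul _),
    db_const_mul _ (differentiableAt_ofReal (hp I))]
  change (gr (fun x => fderiv ℝ g x 1) z + -I * gr (fun x => fderiv ℝ g x I) z).im = 0
  rw [gr_eq (hp 1), gr_eq (hp I), hs, hs, hs, hs]
  simp [hsym.eq I 1]

/-- Gradients are weakly curl free (compactly supported test function). -/
theorem curl_supp {V g : ℂ → ℝ} (hV : ContDiffOn ℝ 1 V D) (hg : ContDiff ℝ 2 g) {R : ℝ}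
    (hR : R < 1) (h0 : ∀ z, R ≤ ‖z‖ → g z = 0) :
    (∫ z in D, conj (gr V z) * gr g z).im = 0 := by
  obtain ⟨R', hR1, hR2⟩ := exists_between hR
  have hb : ContDiff ℝ 1 (fun x => conj (gr g x)) :=
    conjCLE.contDiff.comp (contDiff_db (contDiff_ofReal hg))
  have h0' : ∀ z, R' ≤ ‖z‖ → conj (gr g z) = 0 := fun z hz => by
    rw [gr, db_eq_zero_of_supp (R := R) (fun x hx => by simp [h0 x hx]) (by linarith)]; simp
  have h1 := integral_mul_db (contDiffOn_ofReal hV) hb.contDiffOn hR2 h0'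
  have i1 : IntegrableOn (fun z => (V z : ℂ) * db (fun x => conj (gr g x)) z) D :=
    integrableOn_of_supp (R := R') ((contDiffOn_ofReal hV).continuousOn.mul
      (continuous_db hb).continuousOn) hR2 fun z hz => by simp [db_eq_zero_of_supp h0' hz]
  have h2 : (∫ z in D, (V z : ℂ) * db (fun x => conj (gr g x)) z).im = 0 := by
    have := integral_im (𝕜 := ℂ) i1
    simp only [RCLike.im_to_complex] at this
    rw [← this]
    simp [im_db_conj_gr hg]
  have h3 : ∫ z in D, conj (gr V z) * gr g z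
      = conj (∫ z in D, conj (gr g z) * db (fun x => (V x : ℂ)) z) := by
    rw [← integral_conj]
    simp [gr, mul_comm]
  rw [h1] at h2
  rw [h3]; simpa using h2

/-- Radial vector fields `2 λ(‖z‖²) z`: integration by parts. -/
theorem rad {E : ℂ → ℝ} (hE : ContDiffOn ℝ 1 E D) {l : ℝ → ℝ} (hl : ContDiff ℝ 1 l) {b : ℝ}
    (hb : b < 1) (h0 : ∀ t, b ≤ t → l t = 0) :
    ∫ z in D, (conj (gr E z) * (2 * (l (‖z‖ ^ 2) : ℝ) * z)).re
      = -∫ z in D, E z * (4 * (‖z‖ ^ 2 * deriv l (‖z‖ ^ 2) + l (‖z‖ ^ 2))) := by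
  set R : ℝ := Real.sqrt (max b 0) with hRdef
  have hR : R < 1 := by
    rw [hRdef, Real.sqrt_lt' one_pos]; simpa using hb
  have hl' : ContDiff ℝ 1 (fun x : ℂ => l (‖x‖ ^ 2)) := hl.comp contDiff_normSq
  have hY : ContDiff ℝ 1 (fun x : ℂ => 2 * ((l (‖x‖ ^ 2) : ℝ) : ℂ) * conj x) :=
    (contDiff_const.mul (contDiff_ofReal hl')).mul conjCLE.contDiff
  have h0' : ∀ z : ℂ, R ≤ ‖z‖ → 2 * ((l (‖z‖ ^ 2) : ℝ) : ℂ) * conj z = 0 := fun z hz => by
    have : b ≤ ‖z‖ ^ 2 := by
      have := Real.sqrt_le_iff.1 hz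
      exact (le_max_left _ _).trans this.2
    simp [h0 _ this]
  have hdb : ∀ z : ℂ, db (fun x : ℂ => 2 * ((l (‖x‖ ^ 2) : ℝ) : ℂ) * conj x) z
      = ((4 * (‖z‖ ^ 2 * deriv l (‖z‖ ^ 2) + l (‖z‖ ^ 2)) : ℝ) : ℂ) := by
    intro z
    have d1 : DifferentiableAt ℝ (fun x : ℂ => ((l (‖x‖ ^ 2) : ℝ) : ℂ)) z :=
      (contDiff_ofReal hl').differentiable (by norm_num) z
    have d2 : DifferentiableAt ℝ (fun x : ℂ => conj x) z := conjCLE.differentiableAt
    rw [db_mul (d1.const_mul 2) d2, db_const_mul 2 d1, db_conj_id]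
    change _ + conj z * (2 * gr (fun x : ℂ => l (‖x‖ ^ 2)) z) = _
    rw [gr_radial (hl.differentiable (by norm_num) _).hasDerivAt]
    have : conj z * z = ((‖z‖ ^ 2 : ℝ) : ℂ) := by rw [conj_mul']; simp
    push_cast at this ⊢
    linear_combination (4 * ((deriv l (‖z‖ ^ 2) : ℝ) : ℂ)) * this
  have h1 := integral_mul_db (contDiffOn_ofReal hE) hY.contDiffOn hR h0'
  simp only [hdb] at h1
  have i2 : IntegrableOn (fun z => 2 * ((l (‖z‖ ^ 2) : ℝ) : ℂ) * conj z
      * db (fun x => (E x : ℂ)) z) D :=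
    integrableOn_of_supp (R := R) (hY.continuous.continuousOn.mul (continuousOn_gr isOpen_ball hE))
      hR fun z hz => by rw [h0' z hz.le, zero_mul]
  have h2 := congrArg Complex.re h1
  have h3 := integral_re (𝕜 := ℂ) i2
  simp only [RCLike.re_to_complex] at h3
  rw [neg_re, ← h3] at h2
  have h4 : (∫ z in D, (E z : ℂ) * ((4 * (‖z‖ ^ 2 * deriv l (‖z‖ ^ 2) + l (‖z‖ ^ 2)) : ℝ) : ℂ)).re
      = ∫ z in D, E z * (4 * (‖z‖ ^ 2 * deriv l (‖z‖ ^ 2) + l (‖z‖ ^ 2))) := by
    simp only [← ofReal_mul]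
    rw [integral_complex_ofReal, ofReal_re]
  rw [← h4, h2, neg_neg]
  refine integral_congr_ae (Eventually.of_forall fun z => ?_)
  simp [gr]; ring

end Crest.Agent.R101
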