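import Crest.Agent.R101.Cut

/-!
Row 101: density of `db (test functions)` in `L²(D)` and the Hodge type inequality.
-/

set_option autoImplicit false
open Complex MeasureTheory Metric Set Filter Topology
open scoped ComplexConjugate

namespace Crest.Agent.R101

namespace DenseAux

theorem tst_add {a b : ℂ → ℂ} (ha : Tst a) (hb : Tst b) : Tst fun z => a z + b z :=
  ⟨ha.1.add hb.1, fun z hz => by rw [add_im, ha.2 z hz, hb.2 z hz, add_zero]⟩

theorem Tst.diff {a : ℂ → ℂ} (ha : Tst a) (z : ℂ) : DifferentiableAt ℝ a z :=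
  ha.1.differentiable (by norm_num) z

theorem exists_monomial (m n : ℕ) (c : ℂ) :
    ∃ a : ℂ → ℂ, Tst a ∧ ∀ z, db a z = c * z ^ m * conj z ^ n := by
  have key : ∀ (k' : ℂ) (d : ℕ), (∀ z : ℂ, z * conj z = 1 →
      (c / (2 * (n + 1)) * z ^ m * conj (z ^ (n + 1)) + k' * z ^ d).im = 0) →
      ∃ a : ℂ → ℂ, Tst a ∧ ∀ z, db a z = c * z ^ m * conj z ^ n := by
    intro k' d h
    have h1 : ContDiff ℝ 2 fun z : ℂ => c / (2 * (n + 1)) * z ^ m := by fun_prop
    have h2 : ContDiff ℝ 2 fun z : ℂ => conj (z ^ (n + 1)) :=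
      conjCLE.contDiff.comp (contDiff_id.pow (n + 1))
    have h3 : ContDiff ℝ 2 fun z : ℂ => k' * z ^ d := by fun_prop
    refine ⟨fun z => c / (2 * (n + 1)) * z ^ m * conj (z ^ (n + 1)) + k' * z ^ d,
      ⟨(h1.mul h2).add h3, fun z hz => h z (by rw [mul_conj, normSq_eq_norm_sq, hz]; simp)⟩,
      fun z => ?_⟩
    have h4 : ((n : ℂ) + 1) ≠ 0 := by exact_mod_cast n.succ_ne_zero
    rw [db_add ((h1.mul h2).differentiable (by norm_num) z) (h3.differentiable (by norm_num) z),
      db_mul (h1.differentiable (by norm_num) z) (h2.differentiable (by norm_num) z),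
      db_conj_holo (hasDerivAt_pow (n + 1) z), db_holo (by fun_prop), db_holo (by fun_prop)]
    simp only [map_mul, map_pow, map_natCast, Nat.add_sub_cancel]
    push_cast
    field_simp
    ring
  rcases le_total (n + 1) m with h | h
  · obtain ⟨d, rfl⟩ := Nat.exists_eq_add_of_le h
    refine key (-(c / (2 * (n + 1)))) d fun z hz => ?_
    rw [show c / (2 * (n + 1)) * z ^ (n + 1 + d) * conj (z ^ (n + 1)) =
      c / (2 * (n + 1)) * z ^ d * (z * conj z) ^ (n + 1) by rw [map_pow]; ring, hz]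
    simp
  · obtain ⟨d, hd⟩ := Nat.exists_eq_add_of_le h
    refine key (conj (c / (2 * (n + 1)))) d fun z hz => ?_
    generalize c / (2 * (n + 1)) = k
    rw [hd, show k * z ^ m * conj (z ^ (m + d)) = conj (conj k * z ^ d) * (z * conj z) ^ m by
      simp only [map_mul, map_pow, conj_conj]; ring, hz, one_pow, mul_one, add_im, conj_im,
      neg_add_cancel]

/-- All monomial multiples of `p` are of the form `db a` with a test function `a`. -/
def G (p : ℂ → ℂ) : Prop :=
  ∀ (m n : ℕ) (c : ℂ), ∃ a : ℂ → ℂ, Tst a ∧ ∀ z, db a z = c * z ^ m * conj z ^ n * p z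

theorem G.add {p q : ℂ → ℂ} (hp : G p) (hq : G q) : G fun z => p z + q z := fun m n c => by
  obtain ⟨a, ha, ha'⟩ := hp m n c
  obtain ⟨b, hb, hb'⟩ := hq m n c
  exact ⟨_, tst_add ha hb, fun z => by
    rw [db_add (Tst.diff ha z) (Tst.diff hb z), ha', hb', mul_add]⟩

theorem G.mono {p : ℂ → ℂ} (hp : G p) (k : ℂ) (i j : ℕ) :
    G fun z => k * z ^ i * conj z ^ j * p z := fun m n c => by
  obtain ⟨a, ha, ha'⟩ := hp (m + i) (n + j) (c * k)
  exact ⟨a, ha, fun z => by rw [ha']; ring⟩

theorem G.congr {p q : ℂ → ℂ} (hp : G p) (h : ∀ z, q z = p z) : G q := funext h ▸ hp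

/-- The real multipliers of the class `G`. -/
def alg : Subalgebra ℝ C(ℂ, ℝ) where
  carrier := {q | ∀ p, G p → G fun z => q z * p z}
  mul_mem' := fun ha hb p hp => (ha _ (hb p hp)).congr fun z => by simp [mul_assoc]
  add_mem' := fun ha hb p hp => ((ha p hp).add (hb p hp)).congr fun z => by simp [add_mul]
  algebraMap_mem' := fun r p hp => (hp.mono r 0 0).congr fun z => by simp

theorem alg_sep : alg.SeparatesPoints := by
  intro x y hxy
  by_cases h : x.re = y.re
  · refine ⟨_, ⟨⟨im, continuous_im⟩, fun p hp =>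
      ((hp.mono (-I / 2) 1 0).add (hp.mono (I / 2) 0 1)).congr fun z => ?_, rfl⟩,
      fun h' => hxy (Complex.ext h h')⟩
    rw [ContinuousMap.coe_mk, im_eq_sub_conj, div_mul_eq_div_div, div_I]
    ring
  · refine ⟨_, ⟨⟨re, continuous_re⟩, fun p hp =>
      ((hp.mono (1 / 2) 1 0).add (hp.mono (1 / 2) 0 1)).congr fun z => ?_, rfl⟩, h⟩
    rw [ContinuousMap.coe_mk, re_eq_add_conj]
    ring

theorem exists_tst_unif {g : ℂ → ℂ} (hg : Continuous g) {δ : ℝ} (hδ : 0 < δ) :
    ∃ a : ℂ → ℂ, Tst a ∧ ∀ z ∈ D, ‖g z - db a z‖ ≤ δ := by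
  obtain ⟨p, hp, hp'⟩ :=
    ContinuousMap.exists_mem_subalgebra_near_continuous_of_isCompact_of_separatesPoints alg_sep
      ⟨_, continuous_re.comp hg⟩ (isCompact_closedBall (0 : ℂ) 1) (half_pos hδ)
  obtain ⟨q, hq, hq'⟩ :=
    ContinuousMap.exists_mem_subalgebra_near_continuous_of_isCompact_of_separatesPoints alg_sep
      ⟨_, continuous_im.comp hg⟩ (isCompact_closedBall (0 : ℂ) 1) (half_pos hδ)
  have h1 : G fun _ => 1 := fun m n c => by simpa using exists_monomial m n c
  obtain ⟨a, ha, ha'⟩ := ((hp _ h1).add ((hq _ h1).mono I 0 0)) 0 0 1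
  refine ⟨a, ha, fun z hz => (norm_le_abs_re_add_abs_im _).trans ?_⟩
  have h2 := hp' z (ball_subset_closedBall hz)
  have h3 := hq' z (ball_subset_closedBall hz)
  rw [Real.norm_eq_abs, abs_sub_comm] at h2 h3
  rw [ha']
  simp at h2 h3 ⊢
  linarith

theorem memLp_of_continuous {a : ℂ → ℂ} (ha : Continuous a) : MemLp a 2 (volume.restrict D) :=
  (memLp_two_iff_integrable_sq_norm ha.aestronglyMeasurable).2
    (integrableOn_D_of_continuous (ha.norm.pow 2))

theorem sq_int {W : ℂ → ℂ} (hW : MemLp W 2 (volume.restrict D)) :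
    Integrable (fun z => ‖W z‖ ^ 2) (volume.restrict D) :=
  (memLp_two_iff_integrable_sq_norm hW.1).1 hW

theorem rho_mul_int {f : ℂ → ℂ} (hf : Geo f) {b : ℂ → ℝ} (hb : Continuous b) :
    Integrable (fun z => rho f z * b z) (volume.restrict D) := by
  obtain ⟨M, -, hM⟩ := exists_bound_D hb
  exact Integrable.mul_bdd hf.area hb.aestronglyMeasurable
    ((ae_restrict_iff' measurableSet_ball).2 (Eventually.of_forall hM))

end DenseAux

open DenseAux

theorem exists_tst_near {W : ℂ → ℂ} (hW : MemLp W 2 (volume.restrict D)) {ε : ℝ} (hε : 0 < ε) :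
    ∃ a : ℂ → ℂ, Tst a ∧ ∫ z in D, ‖W z - db a z‖ ^ 2 ≤ ε := by
  have : IsFiniteMeasure (volume.restrict D) := isFiniteMeasure_restrict.2 volume_D_lt_top.ne
  obtain ⟨g, hg, -⟩ := MemLp.exists_boundedContinuous_integral_rpow_sub_le (p := 2) two_pos
    (f := W) (by simpa using hW) (show 0 < ε / 4 by positivity)
  simp only [Real.rpow_two] at hg
  have hV : 0 ≤ volume.real D := measureReal_nonneg
  obtain ⟨a, ha, ha'⟩ := exists_tst_unif g.continuous
    (Real.sqrt_pos.2 (show 0 < ε / (4 * (volume.real D + 1)) by positivity))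
  have h1 := sq_int (hW.sub (memLp_of_continuous g.continuous))
  refine ⟨a, ha, (integral_mono_of_nonneg (Eventually.of_forall fun z => sq_nonneg _)
    ((h1.const_mul 2).add (integrable_const (2 * (ε / (4 * (volume.real D + 1))))))
    ((ae_restrict_iff' measurableSet_ball).2 (Eventually.of_forall fun z hz => ?_))).trans ?_⟩
  · have h2 := pow_le_pow_left₀ (norm_nonneg _) (ha' z hz) 2
    rw [Real.sq_sqrt (by positivity)] at h2
    have h3 := pow_le_pow_left₀ (norm_nonneg _) (norm_sub_le_norm_sub_add_norm_sub (W z) (g z)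
      (db a z)) 2
    simp only [Pi.add_apply, Pi.sub_apply]
    nlinarith [sq_nonneg (‖W z - g z‖ - ‖g z - db a z‖)]
  · simp only [Pi.add_apply]
    rw [integral_add (h1.const_mul 2) (integrable_const _), integral_const_mul, setIntegral_const,
      smul_eq_mul]
    have h2 : volume.real D * (2 * (ε / (4 * (volume.real D + 1)))) ≤ ε / 2 := by
      rw [← mul_div_assoc, ← mul_div_assoc, div_le_div_iff₀ (by positivity) two_pos]
      nlinarith
    simp only [Pi.sub_apply]
    linarith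

theorem hodge {f : ℂ → ℂ} {μ : ℝ} (hf : Geo f) (hμ : 0 < μ) (hP : TstPoin f μ) {W A : ℂ → ℂ}
    (hW : MemLp W 2 (volume.restrict D)) (hAm : AEStronglyMeasurable A (volume.restrict D))
    (hA : IntegrableOn (fun z => rho f z * ‖A z‖ ^ 2) D)
    (hid : ∀ a : ℂ → ℂ, Tst a → ∫ z in D, (conj (W z) * db a z).re
      = -∫ z in D, rho f z * (conj (A z) * a z).re) :
    μ * ∫ z in D, ‖W z‖ ^ 2 ≤ ∫ z in D, rho f z * ‖A z‖ ^ 2 := by
  have hρ : ∀ z, 0 ≤ rho f z := fun z => sq_nonneg _
  have hpos : 0 < ∫ z in D, rho f z := by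
    rw [setIntegral_pos_iff_support_of_nonneg_ae (Eventually.of_forall hρ) hf.area,
      inter_eq_right.2 (show D ⊆ Function.support (rho f) from fun z hz =>
        pow_ne_zero 2 (norm_ne_zero_iff.2 (hf.ne z hz)))]
    exact measure_ball_pos _ _ one_pos
  refine le_of_forall_pos_le_add fun ε hε => ?_
  obtain ⟨a₀, ha₀, h₀⟩ := exists_tst_near hW (div_pos hε hμ)
  obtain ⟨a, ha, h1, h2⟩ : ∃ a : ℂ → ℂ, Tst a ∧ ∫ z in D, ‖W z - db a z‖ ^ 2 ≤ ε / μ ∧
      ∫ z in D, rho f z * (a z).re = 0 := by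
    set c := (∫ z in D, rho f z * (a₀ z).re) / ∫ z in D, rho f z with hc
    refine ⟨fun z => a₀ z - c, ⟨ha₀.1.sub contDiff_const, fun z hz => by simp [ha₀.2 z hz]⟩, ?_, ?_⟩
    · have h3 : ∀ z, db (fun z => a₀ z - c) z = db a₀ z := fun z => by
        rw [db_sub (Tst.diff ha₀ z) (differentiableAt_const _),
          db_holo (differentiableAt_const _), sub_zero]
      simpa only [h3] using h₀
    · simp only [sub_re, ofReal_re, mul_sub]
      rw [integral_sub (rho_mul_int hf (b := fun z => (a₀ z).re)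
        (continuous_re.comp ha₀.1.continuous))
        (Integrable.mul_const hf.area c), integral_mul_const, hc, mul_div_cancel₀ _ hpos.ne',
        sub_self]
  have hdb := memLp_of_continuous (continuous_db (ha.1.of_le (by norm_num)))
  have i1 := sq_int hW
  have i2 := sq_int hdb
  have i3 : Integrable (fun z => ‖W z - db a z‖ ^ 2) (volume.restrict D) := sq_int (hW.sub hdb)
  have i4 : Integrable (fun z => rho f z * ‖a z‖ ^ 2) (volume.restrict D) :=
    rho_mul_int hf (ha.1.continuous.norm.pow 2)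
  have h3 : ∀ z, 2 * (conj (W z) * db a z).re =
      ‖W z‖ ^ 2 + ‖db a z‖ ^ 2 - ‖W z - db a z‖ ^ 2 := fun z => by
    simp only [← normSq_eq_norm_sq, normSq_apply, mul_re, conj_re, conj_im, sub_re, sub_im]
    ring
  have h4 : 2 * ∫ z in D, (conj (W z) * db a z).re =
      (∫ z in D, ‖W z‖ ^ 2) + (∫ z in D, ‖db a z‖ ^ 2) - ∫ z in D, ‖W z - db a z‖ ^ 2 := by
    have i0 : Integrable (fun z => ‖W z‖ ^ 2 + ‖db a z‖ ^ 2) (volume.restrict D) := i1.add i2
    rw [← integral_const_mul, ← integral_add i1 i2, ← integral_sub i0 i3]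
    simp only [h3]
  have h5 : ∀ (t : ℝ) (z : ℂ), 2 * t * |(conj (A z) * a z).re| ≤
      ‖A z‖ ^ 2 + t ^ 2 * ‖a z‖ ^ 2 := fun t z => by
    have h6 := abs_re_le_norm (conj (A z) * a z)
    rw [norm_mul, norm_conj] at h6
    rcases le_total 0 t with ht | ht
    · nlinarith [sq_nonneg (‖A z‖ - t * ‖a z‖), mul_le_mul_of_nonneg_left h6 ht]
    · nlinarith [mul_nonneg (neg_nonneg.2 ht) (abs_nonneg (conj (A z) * a z).re),
        sq_nonneg ‖A z‖, sq_nonneg (t * ‖a z‖)]
  have i5 : Integrable (fun z => rho f z * (conj (A z) * a z).re) (volume.restrict D) := by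
    refine (Integrable.add hA i4).mono' (hf.area.1.mul (continuous_re.comp_aestronglyMeasurable
      ((continuous_conj.comp_aestronglyMeasurable hAm).mul ha.1.continuous.aestronglyMeasurable)))
      (Eventually.of_forall fun z => ?_)
    rw [Real.norm_eq_abs, abs_mul, abs_of_nonneg (hρ z), Pi.add_apply, ← mul_add]
    exact mul_le_mul_of_nonneg_left (by linarith [h5 1 z, abs_nonneg (conj (A z) * a z).re]) (hρ z)
  have h6 : -(2 * μ) * ∫ z in D, rho f z * (conj (A z) * a z).re ≤
      (∫ z in D, rho f z * ‖A z‖ ^ 2) + μ ^ 2 * ∫ z in D, rho f z * ‖a z‖ ^ 2 := by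
    rw [← integral_const_mul, ← integral_const_mul, ← integral_add hA (i4.const_mul _)]
    refine integral_mono (i5.const_mul _) (Integrable.add hA (i4.const_mul _)) fun z => ?_
    have h7 := mul_le_mul_of_nonneg_left (neg_le_abs (conj (A z) * a z).re) hμ.le
    nlinarith [mul_le_mul_of_nonneg_left (h5 μ z) (hρ z), mul_le_mul_of_nonneg_left h7 (hρ z)]
  have h7 := mul_le_mul_of_nonneg_left (hP a ha h2) hμ.le
  have h8 := (le_div_iff₀ hμ).1 h1
  rw [hid a ha] at h4
  have h9 := congrArg (μ * ·) h4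
  nlinarith

end Crest.Agent.R101
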