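import Crest.Agent.R101.Cut

/-!
Row 101: a `C¹` weak solution of the Helmholtz equation vanishing to first order at the origin
vanishes to second order (Cauchy–Pompeiu).
-/

set_option autoImplicit false
open Complex MeasureTheory Metric Set Filter Topology
open scoped ComplexConjugate

namespace Crest.Agent.R101

namespace Reg

/-- The regularised Cauchy kernel. -/
noncomputable def ker (ε : ℝ) (y : ℂ) : ℂ := (((‖y‖ ^ 2 + ε)⁻¹ : ℝ) : ℂ) * conj y

/-- Its `db`. -/
noncomputable def pk (ε : ℝ) (y : ℂ) : ℝ := 2 * ε / (‖y‖ ^ 2 + ε) ^ 2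

theorem inv_contDiff {ε : ℝ} (hε : 0 < ε) : ContDiff ℝ 2 fun y : ℂ => (‖y‖ ^ 2 + ε)⁻¹ :=
  (contDiff_normSq.add contDiff_const).inv fun y => by positivity

theorem ker_contDiff {ε : ℝ} (hε : 0 < ε) : ContDiff ℝ 2 (ker ε) :=
  (contDiff_ofReal (inv_contDiff hε)).mul conjCLE.contDiff

theorem db_ker {ε : ℝ} (hε : 0 < ε) (y : ℂ) : db (ker ε) y = pk ε y := by
  have h0 : ‖y‖ ^ 2 + ε ≠ 0 := by positivity
  have h1 : HasDerivAt (fun t : ℝ => (t + ε)⁻¹) (-1 / (‖y‖ ^ 2 + ε) ^ 2) (‖y‖ ^ 2) :=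
    ((hasDerivAt_id' _).add_const ε).fun_inv h0
  have h2 := db_real_mul (a := fun x => conj x) (z := y)
    ((inv_contDiff hε).differentiable (by simp) y) conjCLE.differentiableAt
  rw [gr_radial h1, db_conj_id] at h2
  refine h2.trans ?_
  have h3 : conj y * y = ((‖y‖ ^ 2 : ℝ) : ℂ) := by rw [conj_mul']; simp
  have h4 : pk ε y = (‖y‖ ^ 2 + ε)⁻¹ * 2 + ‖y‖ ^ 2 * (2 * (-1 / (‖y‖ ^ 2 + ε) ^ 2)) := by
    rw [pk]; field_simp; ring
  rw [h4, ofReal_add, ofReal_mul, ofReal_mul, ofReal_mul, ← h3, ofReal_ofNat]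
  ring

theorem norm_ker_sub {ε : ℝ} (hε : 0 < ε) (y y' : ℂ) :
    ‖ker ε y - ker ε y'‖ ≤ ‖y - y'‖ / (‖y‖ * ‖y'‖ + ε) := by
  have h3 : ∀ y : ℂ, conj y * y = ((‖y‖ ^ 2 : ℝ) : ℂ) := fun y => by rw [conj_mul']; simp
  have h0 : ∀ y : ℂ, ((‖y‖ ^ 2 + ε : ℝ) : ℂ) ≠ 0 := fun y => ofReal_ne_zero.2 (by positivity)
  have e : ker ε y - ker ε y' = (conj y * conj y' * (y' - y) + ε * conj (y - y')) /
      (((‖y‖ ^ 2 + ε : ℝ) : ℂ) * ((‖y'‖ ^ 2 + ε : ℝ) : ℂ)) := by
    rw [eq_div_iff (mul_ne_zero (h0 y) (h0 y')), ker, ker, ofReal_inv, ofReal_inv]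
    have a1 := inv_mul_cancel₀ (h0 y)
    have a2 := inv_mul_cancel₀ (h0 y')
    have a3 : ((‖y‖ ^ 2 + ε : ℝ) : ℂ) = conj y * y + ε := by rw [ofReal_add, h3]
    have a4 : ((‖y'‖ ^ 2 + ε : ℝ) : ℂ) = conj y' * y' + ε := by rw [ofReal_add, h3]
    rw [map_sub]
    linear_combination (conj y * ((‖y'‖ ^ 2 + ε : ℝ) : ℂ)) * a1 -
      (conj y' * ((‖y‖ ^ 2 + ε : ℝ) : ℂ)) * a2 + conj y * a4 - conj y' * a3
  have h1 : ‖conj y * conj y' * (y' - y) + ε * conj (y - y')‖ ≤ (‖y‖ * ‖y'‖ + ε) * ‖y - y'‖ := by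
    refine (norm_add_le _ _).trans (le_of_eq ?_)
    rw [norm_mul, norm_mul, norm_mul, norm_conj, norm_conj, norm_conj, norm_sub_rev y',
      norm_real, Real.norm_of_nonneg hε.le]
    ring
  rw [e, norm_div, norm_mul, norm_real, norm_real, Real.norm_of_nonneg (by positivity),
    Real.norm_of_nonneg (by positivity), div_le_div_iff₀ (by positivity) (by positivity)]
  have h2 : (‖y‖ * ‖y'‖ + ε) * (‖y‖ * ‖y'‖ + ε) ≤ (‖y‖ ^ 2 + ε) * (‖y'‖ ^ 2 + ε) := by
    nlinarith [mul_nonneg hε.le (sq_nonneg (‖y‖ - ‖y'‖))]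
  calc _ ≤ (‖y‖ * ‖y'‖ + ε) * ‖y - y'‖ * (‖y‖ * ‖y'‖ + ε) := by gcongr
    _ = ‖y - y'‖ * ((‖y‖ * ‖y'‖ + ε) * (‖y‖ * ‖y'‖ + ε)) := by ring
    _ ≤ _ := by gcongr

theorem continuous_pk {ε : ℝ} (hε : 0 < ε) : Continuous (pk ε) :=
  continuous_const.div (by fun_prop) fun y => by positivity

theorem integrable_pk : Integrable (pk 1) := by
  have h := (integrable_rpow_neg_one_add_norm_sq (E := ℂ) (μ := volume) (r := 4)
    (by rw [finrank_real_complex]; norm_num)).const_mul 2
  refine h.congr (Eventually.of_forall fun y => ?_)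
  simp only [pk]
  rw [show (-4 / 2 : ℝ) = -((2 : ℕ) : ℝ) by norm_num, Real.rpow_neg (by positivity),
    Real.rpow_natCast, add_comm, mul_one, div_eq_mul_inv]

theorem integral_pk_pos : 0 < ∫ y, pk 1 y :=
  integral_pos_of_integrable_nonneg_nonzero (x := 0) (continuous_pk one_pos) integrable_pk
    (fun y => by unfold pk; positivity) (by simp [pk])

theorem integral_scale (F : ℂ → ℂ) (z : ℂ) {t : ℝ} (ht : 0 < t) :
    ∫ x, F x * pk (t ^ 2) (x - z) = ∫ y, F (z + t • y) * pk 1 y := by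
  rw [← integral_add_left_eq_self _ z]
  have h := Measure.integral_comp_smul volume (fun y => F (z + y) * pk (t ^ 2) (z + y - z)) t
  rw [finrank_real_complex, abs_of_pos (by positivity), eq_inv_smul_iff₀ (by positivity),
    ← integral_smul] at h
  rw [← h]
  refine integral_congr_ae (Eventually.of_forall fun y => ?_)
  have e : pk 1 y = t ^ 2 * pk (t ^ 2) (t • y) := by
    simp only [pk, norm_smul, Real.norm_of_nonneg ht.le]
    field_simp
  simp only [add_sub_cancel_left]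
  rw [e, real_smul (x := t ^ 2), ofReal_mul]
  ring

theorem continuous_avg {F : ℂ → ℂ} (hF : Continuous F) {M : ℝ} (hM : ∀ x, ‖F x‖ ≤ M) (z : ℂ) :
    Continuous fun t : ℝ => ∫ y, F (z + t • y) * pk 1 y := by
  have hp := continuous_pk one_pos
  refine continuous_of_dominated (bound := fun y => M * ‖pk 1 y‖)
    (fun t => Continuous.aestronglyMeasurable (by fun_prop))
    (fun t => Eventually.of_forall fun y => ?_) (integrable_pk.norm.const_mul M)
    (Eventually.of_forall fun y => by fun_prop)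
  rw [norm_mul, norm_real]
  exact mul_le_mul_of_nonneg_right (hM _) (norm_nonneg _)

/-- The Cauchy transform of an `O(|x|)` function is Lipschitz at the origin. -/
theorem exists_cauchy_bound : ∃ J : ℝ, 0 ≤ J ∧ ∀ (g : ℂ → ℂ) (C ε : ℝ), 0 ≤ C → 0 < ε →
    (∀ x ∈ D, ‖g x‖ ≤ C * ‖x‖) → ∀ z ∈ D,
      ‖∫ x in D, g x * (ker ε (x - z) - ker ε x)‖ ≤ C * J * ‖z‖ := by
  let h : ℂ → ℝ := (ball 0 2).indicator fun y => ‖y‖⁻¹
  have h0 : ∀ y, 0 ≤ h y := fun y => indicator_nonneg (fun _ _ => by positivity) y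
  have hi : Integrable h := (integrableOn_inv_norm 2).integrable_indicator measurableSet_ball
  refine ⟨∫ y, h y, integral_nonneg h0, fun g C ε hC hε hg z hz => ?_⟩
  have hi' : Integrable fun x => C * ‖z‖ * h (x - z) := (hi.comp_sub_right z).const_mul _
  refine (norm_integral_le_of_norm_le hi'.integrableOn ?_).trans
    ((setIntegral_le_integral hi' (Eventually.of_forall fun x => by
      have := h0 (x - z); positivity)).trans (le_of_eq ?_))
  · filter_upwards [ae_restrict_mem measurableSet_ball, ae_restrict_of_ae (volume.ae_ne z)]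
      with x hx hxz
    have h1 : 0 < ‖x - z‖ := norm_sub_pos_iff.2 hxz
    have h2 : x - z ∈ ball (0 : ℂ) 2 := mem_ball_zero_iff.2
      ((norm_sub_le _ _).trans_lt (by linarith [mem_D.1 hx, mem_D.1 hz]))
    have h3 := norm_ker_sub hε (x - z) x
    rw [sub_sub_cancel_left, norm_neg] at h3
    simp only [h, indicator_of_mem h2]
    rw [norm_mul]
    calc _ ≤ C * ‖x‖ * (‖z‖ / (‖x - z‖ * ‖x‖ + ε)) := by gcongr; exact hg x hx
      _ = C * ‖z‖ * (‖x‖ / (‖x - z‖ * ‖x‖ + ε)) := by ring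
      _ ≤ _ := by
        gcongr
        rw [div_le_iff₀ (by positivity), mul_add, inv_mul_cancel_left₀ h1.ne']
        exact le_add_of_nonneg_right (by positivity)
  · rw [integral_const_mul, integral_sub_right_eq_self h z]
    ring

theorem oc_far {z : ℂ} (hz : 9 / 10 ≤ ‖z‖) : oc 3 z = 0 ∧ gr (oc 3) z = 0 := by
  have h : ((3 : ℕ) + 1 : ℝ) * (1 - ‖z‖ ^ 2) < 1 := by push_cast; nlinarith
  exact ⟨sig_zero h.le, by rw [gr_oc, deriv_sig_zero (Or.inl h)]; simp⟩

theorem oc_near {z : ℂ} (hz : ‖z‖ ≤ 1 / 2) : oc 3 z = 1 :=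
  sig_one (by push_cast; nlinarith [norm_nonneg z])

theorem exists_gr_oc : ∃ C : ℝ, 0 ≤ C ∧ ∀ z, ‖gr (oc 3) z‖ ≤ C * ‖z‖ := by
  obtain ⟨C, hC, h⟩ := exists_sig_bound
  refine ⟨2 * (4 * C), by positivity, fun z => ?_⟩
  rw [gr_oc, norm_mul, norm_mul, norm_real, Real.norm_eq_abs, abs_mul, Complex.norm_ofNat]
  gcongr
  · norm_num
  · exact (h _).1

theorem abs_le_of_gr {w : ℂ → ℝ} (hw : ContDiffOn ℝ 1 w D) (h0 : w 0 = 0) {r L : ℝ} (hr : r < 1)
    (hL : ∀ x, ‖x‖ ≤ r → ‖gr w x‖ ≤ L) {z : ℂ} (hz : ‖z‖ ≤ r) : |w z| ≤ L * ‖z‖ := by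
  have hd : ∀ x ∈ closedBall (0 : ℂ) r, DifferentiableAt ℝ w x := fun x hx =>
    diffAt_of_contDiffOn hw (closedBall_subset_ball hr hx)
  have := (convex_closedBall (0 : ℂ) r).norm_image_sub_le_of_norm_fderiv_le hd
    (fun x hx => (norm_fderiv_le_gr (hd x hx)).trans (hL x (mem_closedBall_zero_iff.1 hx)))
    (mem_closedBall_self ((norm_nonneg _).trans hz)) (mem_closedBall_zero_iff.2 hz)
  simpa [h0] using this

end Reg

open Reg in
theorem flat_of_helmC {f : ℂ → ℂ} {μ : ℝ} (hf : Geo f) {w : ℂ → ℝ} (hw : ContDiffOn ℝ 1 w D)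
    (h : HelmC f μ w) (h0 : w 0 = 0) (h1 : gr w 0 = 0) : Flat w := by
  have cκ : Continuous fun x => (oc 3 x : ℂ) :=
    continuous_ofReal.comp (oc_contDiff 3 (m := 0)).continuous
  have cκ' : Continuous (gr (oc 3)) := continuous_gr (oc_contDiff 3 (m := 1))
  have cψ : ContinuousOn (fun x => conj (gr w x)) D :=
    continuous_conj.comp_continuousOn (continuousOn_gr isOpen_ball hw)
  have cρ : ContinuousOn (fun x => μ * rho f x) D :=
    continuousOn_const.mul ((hf.holo.deriv isOpen_ball).continuousOn.norm.pow 2)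
  have cs : ContinuousOn (fun x => ((μ * rho f x * w x : ℝ) : ℂ)) D :=
    continuous_ofReal.comp_continuousOn (cρ.mul hw.continuousOn)
  have hK : closedBall (0 : ℂ) (9 / 10) ⊆ D := closedBall_subset_ball (by norm_num)
  obtain ⟨L, hL⟩ := (isCompact_closedBall _ _).exists_bound_of_continuousOn (cψ.mono hK)
  obtain ⟨M, hM⟩ := (isCompact_closedBall _ _).exists_bound_of_continuousOn (cρ.mono hK)
  have hL0 : 0 ≤ L := (norm_nonneg _).trans (hL 0 (mem_closedBall_self (by norm_num)))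
  have hM0 : 0 ≤ M := (norm_nonneg _).trans (hM 0 (mem_closedBall_self (by norm_num)))
  obtain ⟨A, hA0, hA⟩ := exists_gr_oc
  obtain ⟨J, hJ0, hJ⟩ := exists_cauchy_bound
  let F : ℂ → ℂ := fun x => conj (gr w x) * oc 3 x
  let g : ℂ → ℂ := fun x => ((μ * rho f x * w x : ℝ) : ℂ) * oc 3 x - conj (gr w x) * gr (oc 3) x
  have hF0 : ∀ x, 9 / 10 ≤ ‖x‖ → F x = 0 := fun x hx => by simp [F, (oc_far hx).1]
  have hg0 : ∀ x, 9 / 10 ≤ ‖x‖ → g x = 0 := fun x hx => by simp [g, oc_far hx]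
  have cF : Continuous F := (contDiff_of_supp (n := 0)
    (contDiffOn_zero.2 (cψ.mul cκ.continuousOn)) (by norm_num) hF0).continuous
  have cg : ContinuousOn g D := (cs.mul cκ.continuousOn).sub (cψ.mul cκ'.continuousOn)
  obtain ⟨B, hB⟩ := cF.bounded_above_of_compact_support (hasCompactSupport_of_supp hF0)
  have hg : ∀ x ∈ D, ‖g x‖ ≤ (M * L + L * A) * ‖x‖ := fun x _ => by
    rcases le_total (9 / 10) ‖x‖ with hx | hx
    · rw [hg0 x hx, norm_zero]; positivity
    have a1 := abs_le_of_gr hw h0 (by norm_num)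
      (fun y hy => by simpa using hL y (mem_closedBall_zero_iff.2 hy)) hx
    have a2 := hM x (mem_closedBall_zero_iff.2 hx)
    have a3 := hL x (mem_closedBall_zero_iff.2 hx)
    refine (norm_sub_le _ _).trans ?_
    rw [norm_mul, norm_mul, norm_real, norm_real, norm_mul, Real.norm_of_nonneg (oc_nonneg 3 x)]
    calc _ ≤ M * (L * ‖x‖) * 1 + L * (A * ‖x‖) := by
          gcongr
          · exact oc_nonneg 3 x
          · exact a1
          · exact oc_le_one 3 x
          · exact hA x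
      _ = _ := by ring
  have ig : ∀ {ε : ℝ}, 0 < ε → ∀ z, IntegrableOn (fun x => g x * ker ε (x - z)) D :=
    fun hε z => integrableOn_of_supp (R := 9 / 10) (cg.mul
      ((ker_contDiff hε).continuous.comp (continuous_sub_right z)).continuousOn) (by norm_num)
      fun x hx => by rw [hg0 x hx.le, zero_mul]
  have key : ∀ {ε : ℝ}, 0 < ε → ∀ z, ∫ x, F x * pk ε (x - z) = ∫ x in D, g x * ker ε (x - z) := by
    intro ε hε z
    have ck : ContDiff ℝ 2 fun x => ker ε (x - z) :=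
      (ker_contDiff hε).comp (contDiff_id.sub contDiff_const)
    have cp : Continuous fun x => (pk ε (x - z) : ℂ) :=
      continuous_ofReal.comp ((continuous_pk hε).comp (continuous_sub_right z))
    have h2 := h (fun x => (oc 3 x : ℂ) * ker ε (x - z))
      ((contDiff_ofReal (oc_contDiff 3 (m := 2))).mul ck)
      fun x hx => by simp [(oc_far (z := x) (by rw [hx]; norm_num)).1]
    have h3 : ∀ x, db (fun x => (oc 3 x : ℂ) * ker ε (x - z)) x =
        oc 3 x * pk ε (x - z) + ker ε (x - z) * gr (oc 3) x := fun x => by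
      rw [db_real_mul ((oc_contDiff 3 (m := 1)).differentiable (by simp) x)
        (ck.differentiable (by simp) x), db_comp_holo (h := fun x => x - z)
        ((ker_contDiff hε).differentiable (by simp) _) ((hasDerivAt_id' x).sub_const z),
        db_ker hε, map_one, one_mul]
    have i1 : IntegrableOn (fun x => conj (gr w x) * db (fun x => (oc 3 x : ℂ) * ker ε (x - z)) x)
        D := by
      simp only [h3]
      exact integrableOn_of_supp (R := 9 / 10)
        (cψ.mul ((cκ.mul cp).add (ck.continuous.mul cκ')).continuousOn) (by norm_num)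
        fun x hx => by simp [oc_far hx.le]
    have i2 : IntegrableOn (fun x => ((μ * rho f x * w x : ℝ) : ℂ) *
        ((oc 3 x : ℂ) * ker ε (x - z))) D :=
      integrableOn_of_supp (R := 9 / 10) (cs.mul (cκ.mul ck.continuous).continuousOn)
        (by norm_num) fun x hx => by simp [oc_far hx.le]
    have i3 : IntegrableOn (fun x => F x * pk ε (x - z)) D :=
      integrableOn_D_of_continuous (cF.mul cp)
    rw [← sub_eq_zero, ← integral_sub i1 i2] at h2
    rw [← setIntegral_eq_integral_of_forall_compl_eq_zero (s := D) fun x hx => by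
      rw [hF0 x (by rw [mem_D, not_lt] at hx; linarith), zero_mul], ← sub_eq_zero,
      ← integral_sub i3 (ig hε z), ← h2]
    refine integral_congr_ae (Eventually.of_forall fun x => ?_)
    simp only [h3, F, g]
    ring
  set c := ∫ y, pk 1 y with hc
  have hc0 : 0 < c := integral_pk_pos
  have h2 : ∀ z : ℂ, ‖z‖ ≤ 1 / 2 → ‖gr w z‖ ≤ (M * L + L * A) * J / c * ‖z‖ := fun z hz => by
    have t1 := (((continuous_avg cF hB z).sub (continuous_avg cF hB 0)).norm.tendsto 0).mono_left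
      (nhdsWithin_le_nhds (s := Ioi 0))
    have t2 := le_of_tendsto t1 (b := (M * L + L * A) * J * ‖z‖) (by
      filter_upwards [self_mem_nhdsWithin] with t (ht : 0 < t)
      have hε : 0 < t ^ 2 := by positivity
      rw [Pi.sub_apply, ← integral_scale F z ht, ← integral_scale F 0 ht, key hε, key hε,
        ← integral_sub (ig hε z) (ig hε 0)]
      simpa only [mul_sub, sub_zero] using
        hJ g _ _ (by positivity) hε hg z (mem_D.2 (by linarith)))
    simp only [Pi.sub_apply, zero_smul, add_zero, integral_const_mul, integral_complex_ofReal, F,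
      h1, oc_near hz, map_zero, zero_mul, integral_zero, sub_zero, ofReal_one, mul_one, norm_mul,
      norm_conj, norm_real] at t2
    rw [div_mul_eq_mul_div, le_div_iff₀ hc0]
    rwa [← hc, Real.norm_of_nonneg hc0.le] at t2
  refine ⟨(M * L + L * A) * J / c, 1 / 2, by norm_num, by norm_num, fun z hz => ⟨h2 z hz, ?_⟩⟩
  rw [sq, ← mul_assoc]
  exact abs_le_of_gr hw h0 (r := ‖z‖) (by linarith) (fun x hx => (h2 x (hx.trans hz)).trans
    (mul_le_mul_of_nonneg_left hx (by positivity))) le_rfl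

end Crest.Agent.R101
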