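import Crest.Agent.R101.Sign
import Crest.Agent.R101.Dense
import Crest.Agent.R101.Reg

/-!
Row 101: the hot spots theorem on the disc with a conformally flat metric `‖f'‖² |dz|²`.
-/

set_option autoImplicit false
open Complex MeasureTheory Metric Set Filter Topology
open scoped ComplexConjugate

namespace Crest.Agent.R101

theorem core {f : ℂ → ℂ} {k : ℝ} {U : ℂ → ℝ} (hf : Geo f) (hk : 0 < k) (hP : Poin f (k ^ 2))
    (hU : Adm f U) (hm : ∫ z in D, rho f z * U z = 0) (hQ : Q f (k ^ 2) U U = 0)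
    (hnz : ∃ z ∈ D, U z ≠ 0) : gr U 0 ≠ 0 := by
  intro hc
  have hN := neu_of_min hf hP hU hm hQ
  have h0D : (0 : ℂ) ∈ D := by simp
  have hb := adm_bt hf k (U 0)
  have hw := hU.sub hf hb
  have hH := (hN.helm hf).sub hf hU hb (helm_bt hf k (U 0))
  have hfl : Flat (fun x => U x - bt f k (U 0) x) := by
    refine flat_of_helmC hf hw.c1 (hH.helmC hf hw) (by simp [bt, beta, hf.zero]) ?_
    rw [gr_sub (diffAt_of_contDiffOn hU.c1 h0D) (diffAt_of_contDiffOn hb.c1 h0D), hc,
      gr_bt hf k (U 0) h0D]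
    simp [bg, hf.zero]
  have key : ∀ α : ℂ, k ^ 2 * ∫ z in D, ‖Wf f k U α z‖ ^ 2
      ≤ ∫ z in D, rho f z * ‖Af f k U α z‖ ^ 2 := fun α =>
    hodge hf (by positivity) (tstPoin hf hk hP) (memLp_Wf hf hU hfl α)
      (aestronglyMeasurable_Af hf hU α) (integrableOn_Af hf hU hfl α)
      (field_identity hf hU hN hfl α)
  have := trace_neg hf hk hU hN hfl hnz
  linarith [key (1 / 2), key (I / 2)]

end Crest.Agent.R101
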