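import Crest.Agent.R101.Basic

/-!
Row 101: cut-off functions near the circle and near the origin.
-/

set_option autoImplicit false
open Complex MeasureTheory Metric Set Filter Topology
open scoped ComplexConjugate

namespace Crest.Agent.R101

/-- Smooth monotone step: `0` on `(-∞,1]`, `1` on `[2,∞)`. -/
noncomputable def sig (s : ℝ) : ℝ := Real.smoothTransition (s - 1)

theorem sig_contDiff {n : ℕ∞} : ContDiff ℝ n sig :=
  Real.smoothTransition.contDiff.comp (contDiff_id.sub contDiff_const)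

theorem sig_zero {s : ℝ} (h : s ≤ 1) : sig s = 0 :=
  Real.smoothTransition.zero_of_nonpos (by linarith)

theorem sig_one {s : ℝ} (h : 2 ≤ s) : sig s = 1 :=
  Real.smoothTransition.one_of_one_le (by linarith)

theorem sig_nonneg (s : ℝ) : 0 ≤ sig s := Real.smoothTransition.nonneg _

theorem sig_le_one (s : ℝ) : sig s ≤ 1 := Real.smoothTransition.le_one _

theorem sig_mono : Monotone sig := fun _ _ h =>
  Real.smoothTransition.monotone (by linarith)

theorem sig_hasDerivAt (s : ℝ) : HasDerivAt sig (deriv sig s) s :=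
  ((sig_contDiff (n := 1)).differentiable (by simp) s).hasDerivAt

theorem deriv_sig_contDiff {n : ℕ∞} : ContDiff ℝ n (deriv sig) := by
  have : ContDiff ℝ (n + 1) sig := sig_contDiff (n := n + 1)
  exact this.deriv'

theorem deriv_sig_hasDerivAt (s : ℝ) : HasDerivAt (deriv sig) (deriv (deriv sig) s) s :=
  ((deriv_sig_contDiff (n := 1)).differentiable (by simp) s).hasDerivAt

theorem deriv_sig_nonneg (s : ℝ) : 0 ≤ deriv sig s := sig_mono.deriv_nonneg

theorem deriv_sig_eventually {s : ℝ} (h : s < 1 ∨ 2 < s) : deriv sig =ᶠ[𝓝 s] fun _ => 0 := by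
  rcases h with h | h
  · have : sig =ᶠ[𝓝 s] fun _ => 0 := by
      filter_upwards [Iio_mem_nhds h] with x hx using sig_zero (le_of_lt hx)
    filter_upwards [this.deriv] with x hx using by simpa using hx
  · have : sig =ᶠ[𝓝 s] fun _ => 1 := by
      filter_upwards [Ioi_mem_nhds h] with x hx using sig_one (le_of_lt hx)
    filter_upwards [this.deriv] with x hx using by simpa using hx

theorem deriv_sig_zero {s : ℝ} (h : s < 1 ∨ 2 < s) : deriv sig s = 0 :=
  (deriv_sig_eventually h).eq_of_nhds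

theorem deriv2_sig_zero {s : ℝ} (h : s < 1 ∨ 2 < s) : deriv (deriv sig) s = 0 := by
  rw [(deriv_sig_eventually h).deriv_eq]; simp

theorem exists_sig_bound :
    ∃ C : ℝ, 0 < C ∧ ∀ s, |deriv sig s| ≤ C ∧ |deriv (deriv sig) s| ≤ C := by
  have c1 : Continuous (deriv sig) := (deriv_sig_contDiff (n := 0)).continuous
  have c2 : Continuous (deriv (deriv sig)) :=
    (deriv_sig_contDiff (n := 1)).continuous_deriv (by simp)
  obtain ⟨C1, h1⟩ := (isCompact_Icc (a := (1 : ℝ)) (b := 2)).exists_bound_of_continuousOn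
    c1.continuousOn
  obtain ⟨C2, h2⟩ := (isCompact_Icc (a := (1 : ℝ)) (b := 2)).exists_bound_of_continuousOn
    c2.continuousOn
  refine ⟨max 1 (max C1 C2), by positivity, fun s => ?_⟩
  by_cases hs : s ∈ Icc (1 : ℝ) 2
  · exact ⟨(h1 s hs).trans ((le_max_left _ _).trans (le_max_right _ _)),
      (h2 s hs).trans ((le_max_right _ _).trans (le_max_right _ _))⟩
  · have : s < 1 ∨ 2 < s := by
      simp only [mem_Icc, not_and_or, not_le] at hs; exact hs
    rw [deriv_sig_zero this, deriv2_sig_zero this, abs_zero]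
    exact ⟨by positivity, by positivity⟩

/-- Outer cut-off: vanishes near the unit circle. -/
noncomputable def oc (n : ℕ) (z : ℂ) : ℝ := sig ((n + 1) * (1 - ‖z‖ ^ 2))

/-- Inner cut-off: vanishes near the origin. -/
noncomputable def ic (n : ℕ) (z : ℂ) : ℝ := sig ((n + 1) * ‖z‖ ^ 2)

theorem oc_contDiff (n : ℕ) {m : ℕ∞} : ContDiff ℝ m (oc n) :=
  sig_contDiff.comp (contDiff_const.mul (contDiff_const.sub contDiff_normSq))

theorem ic_contDiff (n : ℕ) {m : ℕ∞} : ContDiff ℝ m (ic n) :=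
  sig_contDiff.comp (contDiff_const.mul contDiff_normSq)

theorem oc_nonneg (n : ℕ) (z : ℂ) : 0 ≤ oc n z := sig_nonneg _

theorem oc_le_one (n : ℕ) (z : ℂ) : oc n z ≤ 1 := sig_le_one _

theorem ic_nonneg (n : ℕ) (z : ℂ) : 0 ≤ ic n z := sig_nonneg _

theorem ic_le_one (n : ℕ) (z : ℂ) : ic n z ≤ 1 := sig_le_one _

theorem ic_zero {n : ℕ} {z : ℂ} (h : ((n : ℝ) + 1) * ‖z‖ ^ 2 ≤ 1) : ic n z = 0 := sig_zero h

theorem oc_supp (n : ℕ) : ∃ R : ℝ, R < 1 ∧ ∀ z : ℂ, R ≤ ‖z‖ → oc n z = 0 := by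
  have hn : (0 : ℝ) < n + 1 := by positivity
  refine ⟨Real.sqrt (1 - 1 / (n + 1)), ?_, fun z hz => sig_zero ?_⟩
  · rw [Real.sqrt_lt' one_pos]
    have : (0 : ℝ) < 1 / (n + 1) := by positivity
    linarith
  · have h := (Real.sqrt_le_iff.1 hz).2
    have : (n + 1 : ℝ) * (1 / (n + 1)) = 1 := by field_simp
    nlinarith

theorem gr_oc (n : ℕ) (z : ℂ) :
    gr (oc n) z = 2 * ((-(n + 1) * deriv sig ((n + 1) * (1 - ‖z‖ ^ 2)) : ℝ) : ℂ) * z := by
  have h : HasDerivAt (fun t : ℝ => sig ((n + 1) * (1 - t)))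
      (-(n + 1) * deriv sig ((n + 1) * (1 - ‖z‖ ^ 2))) (‖z‖ ^ 2) := by
    have h1 : HasDerivAt (fun t : ℝ => ((n : ℝ) + 1) * (1 - t)) (-(n + 1)) (‖z‖ ^ 2) := by
      simpa using ((hasDerivAt_id (‖z‖ ^ 2)).const_sub 1).const_mul ((n : ℝ) + 1)
    have := (sig_hasDerivAt _).comp (‖z‖ ^ 2) h1
    rw [mul_comm] at this
    exact this
  exact gr_radial h

theorem gr_ic (n : ℕ) (z : ℂ) :
    gr (ic n) z = 2 * (((n + 1) * deriv sig ((n + 1) * ‖z‖ ^ 2) : ℝ) : ℂ) * z := by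
  have h : HasDerivAt (fun t : ℝ => sig ((n + 1) * t))
      ((n + 1) * deriv sig ((n + 1) * ‖z‖ ^ 2)) (‖z‖ ^ 2) := by
    have h1 : HasDerivAt (fun t : ℝ => ((n : ℝ) + 1) * t) (n + 1) (‖z‖ ^ 2) := by
      simpa using (hasDerivAt_id (‖z‖ ^ 2)).const_mul ((n : ℝ) + 1)
    have := (sig_hasDerivAt _).comp (‖z‖ ^ 2) h1
    rw [mul_comm] at this
    exact this
  exact gr_radial h

theorem eventually_two_lt {t : ℝ} (ht : 0 < t) : ∀ᶠ n : ℕ in atTop, 2 < ((n : ℝ) + 1) * t := by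
  have h : Tendsto (fun n : ℕ => ((n : ℝ) + 1) * t) atTop atTop :=
    (tendsto_natCast_atTop_atTop.atTop_add tendsto_const_nhds).atTop_mul_const ht
  exact h.eventually_gt_atTop 2

theorem one_sub_normSq_pos {z : ℂ} (hz : z ∈ D) : 0 < 1 - ‖z‖ ^ 2 := by
  have := mem_D.1 hz
  nlinarith [norm_nonneg z]

theorem eventually_oc {z : ℂ} (hz : z ∈ D) : ∀ᶠ n : ℕ in atTop, oc n z = 1 ∧ gr (oc n) z = 0 := by
  filter_upwards [eventually_two_lt (one_sub_normSq_pos hz)] with n hn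
  exact ⟨sig_one hn.le, by rw [gr_oc, deriv_sig_zero (Or.inr hn)]; simp⟩

theorem eventually_ic {z : ℂ} (hz : z ≠ 0) : ∀ᶠ n : ℕ in atTop, ic n z = 1 ∧ gr (ic n) z = 0 := by
  filter_upwards [eventually_two_lt (show 0 < ‖z‖ ^ 2 by positivity)] with n hn
  exact ⟨sig_one hn.le, by rw [gr_ic, deriv_sig_zero (Or.inr hn)]; simp⟩

theorem exists_gr_oc_bound : ∃ C : ℝ, 0 < C ∧ ∀ (n : ℕ), ∀ z ∈ D,
    (1 - ‖z‖ ^ 2) * ‖gr (oc n) z‖ ≤ C := by
  obtain ⟨C, hC, h⟩ := exists_sig_bound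
  refine ⟨4 * C, by positivity, fun n z hz => ?_⟩
  have hp := one_sub_normSq_pos hz
  have hz1 := (mem_D.1 hz).le
  rw [gr_oc]
  by_cases h2 : 2 < ((n : ℝ) + 1) * (1 - ‖z‖ ^ 2)
  · rw [deriv_sig_zero (Or.inr h2)]; simp; positivity
  · have hb := (h (((n : ℝ) + 1) * (1 - ‖z‖ ^ 2))).1
    have hn : (0 : ℝ) < n + 1 := by positivity
    rw [norm_mul, norm_mul, Complex.norm_real, Real.norm_eq_abs, abs_mul, abs_neg, abs_of_pos hn]
    simp only [Complex.norm_ofNat]
    have e : (1 - ‖z‖ ^ 2) * (2 * ((n + 1) * |deriv sig ((n + 1) * (1 - ‖z‖ ^ 2))|) * ‖z‖)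
        = 2 * ((n + 1) * (1 - ‖z‖ ^ 2)) * (|deriv sig ((n + 1) * (1 - ‖z‖ ^ 2))| * ‖z‖) := by ring
    rw [e]
    have h3 : |deriv sig ((n + 1) * (1 - ‖z‖ ^ 2))| * ‖z‖ ≤ C * 1 :=
      mul_le_mul hb hz1 (norm_nonneg _) hC.le
    have h4 : 0 ≤ |deriv sig ((n + 1) * (1 - ‖z‖ ^ 2))| * ‖z‖ := by positivity
    nlinarith [not_lt.1 h2]

theorem exists_gr_ic_bound : ∃ C : ℝ, 0 < C ∧ ∀ (n : ℕ) (z : ℂ),
    ‖z‖ * ‖gr (ic n) z‖ ≤ C := by
  obtain ⟨C, hC, h⟩ := exists_sig_bound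
  refine ⟨4 * C, by positivity, fun n z => ?_⟩
  rw [gr_ic]
  by_cases h2 : 2 < ((n : ℝ) + 1) * ‖z‖ ^ 2
  · rw [deriv_sig_zero (Or.inr h2)]; simp; positivity
  · have hb := (h (((n : ℝ) + 1) * ‖z‖ ^ 2)).1
    have hn : (0 : ℝ) < n + 1 := by positivity
    rw [norm_mul, norm_mul, Complex.norm_real, Real.norm_eq_abs, abs_mul, abs_of_pos hn]
    simp only [Complex.norm_ofNat]
    have e : ‖z‖ * (2 * ((n + 1) * |deriv sig ((n + 1) * ‖z‖ ^ 2)|) * ‖z‖)
        = 2 * ((n + 1) * ‖z‖ ^ 2) * |deriv sig ((n + 1) * ‖z‖ ^ 2)| := by ring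
    rw [e]
    have h4 : 0 ≤ |deriv sig ((n + 1) * ‖z‖ ^ 2)| := abs_nonneg _
    nlinarith [not_lt.1 h2]

/-- A `C¹` function vanishing on the circle is `O(1 - ‖z‖²)`. -/
theorem exists_bound_of_circle {a : ℂ → ℂ} (ha : ContDiff ℝ 1 a) (h0 : ∀ z, ‖z‖ = 1 → a z = 0) :
    ∃ L : ℝ, 0 ≤ L ∧ ∀ z ∈ D, ‖a z‖ ≤ L * (1 - ‖z‖ ^ 2) := by
  obtain ⟨L, hL⟩ := (isCompact_closedBall (0 : ℂ) 1).exists_bound_of_continuousOn
    (ha.continuous_fderiv (by simp)).continuousOn
  have hL0 : 0 ≤ L := (norm_nonneg _).trans (hL 0 (by simp))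
  have key : ∀ x ∈ closedBall (0 : ℂ) 1, ∀ y ∈ closedBall (0 : ℂ) 1, ‖a y - a x‖ ≤ L * ‖y - x‖ :=
    fun x hx y hy => (convex_closedBall (0 : ℂ) 1).norm_image_sub_le_of_norm_fderiv_le
      (fun z _ => ha.differentiable (by simp) z) hL hx hy
  refine ⟨L, hL0, fun z hz => ?_⟩
  have hz1 := mem_D.1 hz
  obtain ⟨y, hy, hyz⟩ : ∃ y : ℂ, ‖y‖ = 1 ∧ ‖z - y‖ = 1 - ‖z‖ := by
    by_cases h : z = 0
    · exact ⟨1, by simp, by simp [h]⟩
    · have hn : 0 < ‖z‖ := norm_pos_iff.2 h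
      refine ⟨((‖z‖⁻¹ : ℝ) : ℂ) * z, by simp [hn.ne'], ?_⟩
      have : z - ((‖z‖⁻¹ : ℝ) : ℂ) * z = ((1 - ‖z‖⁻¹ : ℝ) : ℂ) * z := by push_cast; ring
      rw [this, norm_mul, Complex.norm_real, Real.norm_eq_abs, abs_of_nonpos]
      · field_simp; ring
      · have : 1 ≤ ‖z‖⁻¹ := (one_le_inv₀ hn).2 hz1.le
        linarith
  have := key y (by simp [hy]) z (ball_subset_closedBall hz)
  rw [h0 y hy, sub_zero, hyz] at this
  refine this.trans (mul_le_mul_of_nonneg_left ?_ hL0)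
  nlinarith [norm_nonneg z]

theorem exists_bound_D {F : Type*} [NormedAddCommGroup F] {a : ℂ → F} (ha : Continuous a) :
    ∃ M : ℝ, 0 ≤ M ∧ ∀ z ∈ D, ‖a z‖ ≤ M := by
  obtain ⟨L, hL⟩ := (isCompact_closedBall (0 : ℂ) 1).exists_bound_of_continuousOn ha.continuousOn
  exact ⟨L, (norm_nonneg _).trans (hL 0 (by simp)), fun z hz => hL z (ball_subset_closedBall hz)⟩

theorem db_real_mul {χ : ℂ → ℝ} {a : ℂ → ℂ} {z : ℂ} (hχ : DifferentiableAt ℝ χ z)
    (ha : DifferentiableAt ℝ a z) :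
    db (fun x => (χ x : ℂ) * a x) z = χ z * db a z + a z * gr χ z :=
  db_mul (differentiableAt_ofReal hχ) ha

/-- Removing the outer cut-off in a derivative term. -/
theorem tendsto_oc_db {Y a : ℂ → ℂ} (hY : IntegrableOn Y D) (ha : ContDiff ℝ 1 a)
    (h0 : ∀ z, ‖z‖ = 1 → a z = 0) :
    Tendsto (fun n : ℕ => ∫ z in D, Y z * db (fun x => (oc n x : ℂ) * a x) z) atTop
      (𝓝 (∫ z in D, Y z * db a z)) := by
  obtain ⟨L, hL0, hL⟩ := exists_bound_of_circle ha h0
  obtain ⟨M, hM0, hM⟩ := exists_bound_D (continuous_db ha)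
  obtain ⟨C, hC0, hC⟩ := exists_gr_oc_bound
  have e : ∀ n z, db (fun x => (oc n x : ℂ) * a x) z = oc n z * db a z + a z * gr (oc n) z :=
    fun n z => db_real_mul ((oc_contDiff n (m := 1)).differentiable (by simp) z)
      (ha.differentiable (by simp) z)
  refine tendsto_integral_of_dominated_convergence (fun z => ‖Y z‖ * (M + L * C))
    (fun n => hY.aestronglyMeasurable.mul (measurable_db _).aestronglyMeasurable)
    (hY.norm.mul_const _) (fun n => ?_) ?_
  · filter_upwards [ae_restrict_mem measurableSet_ball] with z hz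
    rw [norm_mul, e]
    refine mul_le_mul_of_nonneg_left ((norm_add_le _ _).trans (add_le_add ?_ ?_)) (norm_nonneg _)
    · rw [norm_mul, Complex.norm_real, Real.norm_eq_abs, abs_of_nonneg (oc_nonneg n z)]
      have := mul_le_mul (sig_le_one ((n + 1) * (1 - ‖z‖ ^ 2))) (hM z hz) (norm_nonneg _) zero_le_one
      simpa [oc] using this
    · rw [norm_mul]
      calc ‖a z‖ * ‖gr (oc n) z‖ ≤ L * (1 - ‖z‖ ^ 2) * ‖gr (oc n) z‖ :=
            mul_le_mul_of_nonneg_right (hL z hz) (norm_nonneg _)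
        _ = L * ((1 - ‖z‖ ^ 2) * ‖gr (oc n) z‖) := by ring
        _ ≤ L * C := mul_le_mul_of_nonneg_left (hC n z hz) hL0
  · filter_upwards [ae_restrict_mem measurableSet_ball] with z hz
    refine tendsto_const_nhds.congr' ?_
    filter_upwards [eventually_oc hz] with n hn
    rw [e, hn.1, hn.2]; simp

/-- Removing the outer cut-off in a zero order term. -/
theorem tendsto_oc {s : ℂ → ℂ} (hs : IntegrableOn s D) :
    Tendsto (fun n : ℕ => ∫ z in D, (oc n z : ℂ) * s z) atTop (𝓝 (∫ z in D, s z)) := by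
  refine tendsto_integral_of_dominated_convergence (fun z => ‖s z‖)
    (fun n => (continuous_ofReal.comp (oc_contDiff n (m := 0)).continuous).aestronglyMeasurable.mul
      hs.aestronglyMeasurable) hs.norm (fun n => Eventually.of_forall fun z => ?_) ?_
  · rw [norm_mul, Complex.norm_real, Real.norm_eq_abs, abs_of_nonneg (oc_nonneg n z)]
    exact mul_le_of_le_one_left (norm_nonneg _) (sig_le_one _)
  · filter_upwards [ae_restrict_mem measurableSet_ball] with z hz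
    refine tendsto_const_nhds.congr' ?_
    filter_upwards [eventually_oc hz] with n hn
    rw [hn.1]; simp

theorem volume_D_lt_top : volume D < ⊤ := measure_ball_lt_top

instance : IsFiniteMeasure (volume.restrict D) := ⟨by simp⟩

/-- An `L²` function on the disc is integrable. -/
theorem integrableOn_of_sq {Y : ℂ → ℂ} (hm : AEStronglyMeasurable Y (volume.restrict D))
    (h : IntegrableOn (fun z => ‖Y z‖ ^ 2) D) : IntegrableOn Y D :=
  ((memLp_two_iff_integrable_sq_norm hm).2 h).integrable (by norm_num)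

/-- Gradients are weakly curl free (test function vanishing on the circle). -/
theorem curl_zero {V g : ℂ → ℝ} (hV : ContDiffOn ℝ 1 V D)
    (hV2 : IntegrableOn (fun z => ‖gr V z‖ ^ 2) D) (hg : ContDiff ℝ 2 g)
    (h0 : ∀ z, ‖z‖ = 1 → g z = 0) : (∫ z in D, conj (gr V z) * gr g z).im = 0 := by
  have hY : IntegrableOn (fun z => conj (gr V z)) D :=
    conjCLE.toContinuousLinearMap.integrable_comp
      (integrableOn_of_sq (measurable_gr V).aestronglyMeasurable hV2)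
  have h1 := tendsto_oc_db hY (a := fun x => (g x : ℂ)) (contDiff_ofReal (hg.of_le (by norm_num)))
    (fun z hz => by simp [h0 z hz])
  have h2 := (continuous_im.tendsto _).comp h1
  refine tendsto_nhds_unique h2 (tendsto_const_nhds.congr fun n => ?_)
  obtain ⟨R, hR, hs⟩ := oc_supp n
  have := curl_supp hV ((oc_contDiff n (m := 2)).mul hg) hR (fun z hz => by simp [hs z hz])
  simpa [gr] using this.symm

theorem integrableOn_inv_norm (R : ℝ) : IntegrableOn (fun z : ℂ => ‖z‖⁻¹) (ball 0 R) := by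
  refine integrableOn_ball_of_norm_le_rpow (C := 1) (α := 1) (by simp) (by simp)
    (Eventually.of_forall fun z => ?_) measurable_norm.inv.aestronglyMeasurable
  simp [Real.rpow_neg_one]

end Crest.Agent.R101
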