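import Mathlib

/-!
Row 101 (hot spots, S0133): definitions.  Everything is transplanted to the unit disc `D ⊆ ℂ`
through a conformal map `f : D → Ω` with `f 0 = x₀ = 0`; `rho f = ‖f'‖²` is the area density.
`db a = 2 ∂̄ a = a_x + i a_y`; for a real function `V`, `gr V = V_x + i V_y` is its gradient.
-/

set_option autoImplicit false
open Complex MeasureTheory Metric Set
open scoped ComplexConjugate

namespace Crest.Agent.R101

/-- `2 ∂̄ a = a_x + i a_y`. -/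
noncomputable def db (a : ℂ → ℂ) (z : ℂ) : ℂ := fderiv ℝ a z 1 + I * fderiv ℝ a z I

/-- The gradient of a real function as a complex number. -/
noncomputable def gr (V : ℂ → ℝ) : ℂ → ℂ := db (fun x => (V x : ℂ))

/-- The open unit disc. -/
abbrev D : Set ℂ := ball 0 1

/-- Area density of the conformal map. -/
noncomputable def rho (f : ℂ → ℂ) (z : ℂ) : ℝ := ‖deriv f z‖ ^ 2

/-- Geometric data of the conformal map. -/
structure Geo (f : ℂ → ℂ) : Prop where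
  holo : DifferentiableOn ℂ f D
  zero : f 0 = 0
  ne : ∀ z ∈ D, deriv f z ≠ 0
  bdd : ∃ M : ℝ, ∀ z ∈ D, ‖f z‖ ≤ M
  area : IntegrableOn (rho f) D

/-- Admissible real functions (`C¹ ∩ H¹`). -/
structure Adm (f : ℂ → ℂ) (V : ℂ → ℝ) : Prop where
  c1 : ContDiffOn ℝ 1 V D
  l2 : IntegrableOn (fun z => rho f z * V z ^ 2) D
  g2 : IntegrableOn (fun z => ‖gr V z‖ ^ 2) D

/-- The form `∫ ∇V·∇V' - μ ρ V V'`. -/
noncomputable def Q (f : ℂ → ℂ) (μ : ℝ) (V V' : ℂ → ℝ) : ℝ :=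
  ∫ z in D, ((conj (gr V z) * gr V' z).re - μ * rho f z * (V z * V' z))

/-- Neumann Poincaré inequality with constant `μ`. -/
def Poin (f : ℂ → ℂ) (μ : ℝ) : Prop :=
  ∀ V : ℂ → ℝ, Adm f V → ∫ z in D, rho f z * V z = 0 → 0 ≤ Q f μ V V

/-- Weak Neumann eigenfunction equation. -/
def Neu (f : ℂ → ℂ) (μ : ℝ) (U : ℂ → ℝ) : Prop := ∀ h : ℂ → ℝ, Adm f h → Q f μ U h = 0

/-- Weak interior Helmholtz equation (real `C¹` tests supported in a smaller disc). -/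
def Helm (f : ℂ → ℂ) (μ : ℝ) (w : ℂ → ℝ) : Prop :=
  ∀ h : ℂ → ℝ, ContDiffOn ℝ 1 h D → (∃ R : ℝ, R < 1 ∧ ∀ z, R ≤ ‖z‖ → h z = 0) → Q f μ w h = 0

/-- Complex form of the weak Helmholtz equation, for `C²` tests vanishing on the circle. -/
def HelmC (f : ℂ → ℂ) (μ : ℝ) (w : ℂ → ℝ) : Prop :=
  ∀ a : ℂ → ℂ, ContDiff ℝ 2 a → (∀ z, ‖z‖ = 1 → a z = 0) →
    ∫ z in D, conj (gr w z) * db a z = ∫ z in D, ((μ * rho f z * w z : ℝ) : ℂ) * a z

/-- Test functions: `C²`, real on the circle. -/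
def Tst (a : ℂ → ℂ) : Prop := ContDiff ℝ 2 a ∧ ∀ z, ‖z‖ = 1 → (a z).im = 0

/-- Complex form of the weak Neumann equation. -/
def NeuC (f : ℂ → ℂ) (μ : ℝ) (U : ℂ → ℝ) : Prop :=
  ∀ a : ℂ → ℂ, Tst a →
    ∫ z in D, (conj (gr U z) * db a z).re = ∫ z in D, μ * rho f z * U z * (a z).re

/-- Poincaré inequality on the test class. -/
def TstPoin (f : ℂ → ℂ) (μ : ℝ) : Prop :=
  ∀ a : ℂ → ℂ, Tst a → ∫ z in D, rho f z * (a z).re = 0 →
    μ * ∫ z in D, rho f z * ‖a z‖ ^ 2 ≤ ∫ z in D, ‖db a z‖ ^ 2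

/-- The comparison solution `β = (cos kx + cos ky)/2`. -/
noncomputable def beta (k : ℝ) (X : ℂ) : ℝ := (Real.cos (k * X.re) + Real.cos (k * X.im)) / 2

/-- Its gradient. -/
noncomputable def bg (k : ℝ) (X : ℂ) : ℂ :=
  -((k / 2 : ℝ) : ℂ) * ((Real.sin (k * X.re) : ℝ) + I * (Real.sin (k * X.im) : ℝ))

/-- `u₀ β ∘ f`. -/
noncomputable def bt (f : ℂ → ℂ) (k u0 : ℝ) (z : ℂ) : ℝ := u0 * beta k (f z)

/-- `φ_α = α / z + ᾱ z`, real on the circle. -/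
noncomputable def phi (α z : ℂ) : ℂ := α / z + conj α * z

/-- Its derivative. -/
noncomputable def phi' (α z : ℂ) : ℂ := -α / z ^ 2 + conj α

/-- The test vector field `W = φ̄ ∇w + φ ∇(u₀β)`, `w = U - u₀ β`, `u₀ = U 0`. -/
noncomputable def Wf (f : ℂ → ℂ) (k : ℝ) (U : ℂ → ℝ) (α z : ℂ) : ℂ :=
  conj (phi α z) * gr (fun x => U x - bt f k (U 0) x) z + phi α z * gr (bt f k (U 0)) z

/-- Its `div + i curl` (in the coordinates of `Ω`). -/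
noncomputable def Af (f : ℂ → ℂ) (k : ℝ) (U : ℂ → ℝ) (α z : ℂ) : ℂ :=
  -((k ^ 2 : ℝ) : ℂ) * (conj (phi α z) * ((U z - bt f k (U 0) z : ℝ) : ℂ)
      + phi α z * ((bt f k (U 0) z : ℝ) : ℂ))
    + 2 * phi' α z * (((U 0 : ℝ) : ℂ) * bg k (f z)) / deriv f z

/-- Second order vanishing at the origin. -/
def Flat (w : ℂ → ℝ) : Prop :=
  ∃ C r : ℝ, 0 < r ∧ r < 1 ∧ ∀ z : ℂ, ‖z‖ ≤ r → ‖gr w z‖ ≤ C * ‖z‖ ∧ |w z| ≤ C * ‖z‖ ^ 2

end Crest.Agent.R101
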