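import Crest.Agent.R101.Wave

/-!
Row 101: the test vector field `Wf` is square integrable, weakly tangent, with `div + i curl = Af`.
-/

set_option autoImplicit false
open Complex MeasureTheory Metric Set Filter Topology
open scoped ComplexConjugate

namespace Crest.Agent.R101

/-! ### Orders of growth near the origin -/

/-- `g = O(‖z‖ ^ m)` on the punctured closed disc of radius `r`. -/
def Ob (r : ℝ) (m : ℤ) (g : ℂ → ℂ) : Prop :=
  ∃ C : ℝ, 0 ≤ C ∧ ∀ z : ℂ, z ≠ 0 → ‖z‖ ≤ r → ‖g z‖ ≤ C * ‖z‖ ^ m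

namespace Ob

variable {r : ℝ} {m n : ℤ} {g h : ℂ → ℂ}

theorem add (hg : Ob r m g) (hh : Ob r m h) : Ob r m fun z => g z + h z := by
  obtain ⟨C, hC, h1⟩ := hg
  obtain ⟨C', hC', h2⟩ := hh
  refine ⟨C + C', by positivity, fun z hz hr => (norm_add_le _ _).trans ?_⟩
  rw [add_mul]
  exact add_le_add (h1 z hz hr) (h2 z hz hr)

theorem mul {l : ℤ} (hg : Ob r m g) (hh : Ob r n h) (e : m + n = l) :
    Ob r l fun z => g z * h z := by
  obtain ⟨C, hC, h1⟩ := hg
  obtain ⟨C', hC', h2⟩ := hh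
  refine ⟨C * C', by positivity, fun z hz hr => ?_⟩
  rw [norm_mul, ← e, zpow_add₀ (norm_ne_zero_iff.2 hz), mul_mul_mul_comm]
  exact mul_le_mul (h1 z hz hr) (h2 z hz hr) (norm_nonneg _) (by positivity)

theorem mono (hg : Ob r m g) (hr1 : r ≤ 1) (hnm : n ≤ m) : Ob r n g := by
  obtain ⟨C, hC, h1⟩ := hg
  exact ⟨C, hC, fun z hz hr => (h1 z hz hr).trans (mul_le_mul_of_nonneg_left
    (zpow_le_zpow_right_of_le_one₀ (norm_pos_iff.2 hz) (hr.trans hr1) hnm) hC)⟩

theorem of_le (hg : Ob r m g) (hh : ∀ z, z ≠ 0 → ‖z‖ ≤ r → ‖h z‖ ≤ ‖g z‖) : Ob r m h := by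
  obtain ⟨C, hC, h1⟩ := hg
  exact ⟨C, hC, fun z hz hr => (hh z hz hr).trans (h1 z hz hr)⟩

theorem congr (hg : Ob r m g) (hh : ∀ z, z ≠ 0 → ‖z‖ ≤ r → h z = g z) : Ob r m h :=
  hg.of_le fun z hz hr => by rw [hh z hz hr]

theorem cnj (hg : Ob r m g) : Ob r m fun z => conj (g z) :=
  hg.of_le fun z _ _ => by rw [Complex.norm_conj]

theorem const (c : ℂ) : Ob r 0 fun _ => c := ⟨‖c‖, norm_nonneg _, fun z _ _ => by simp⟩

theorem const_mul (c : ℂ) (hg : Ob r m g) : Ob r m fun z => c * g z :=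
  (const c).mul hg (zero_add _)

theorem zpow (m : ℤ) : Ob r m fun z => z ^ m := ⟨1, zero_le_one, fun z _ _ => by simp⟩

theorem of_continuousOn (hr : r < 1) (hg : ContinuousOn g D) : Ob r 0 g := by
  obtain ⟨C, hC⟩ := (isCompact_closedBall (0 : ℂ) r).exists_bound_of_continuousOn
    (hg.mono (closedBall_subset_ball hr))
  exact ⟨|C|, abs_nonneg _, fun z _ hz => by
    simpa using (hC z (mem_closedBall_zero_iff.2 hz)).trans (le_abs_self C)⟩

/-- Integrating a bound on the derivative. -/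
theorem of_deriv {p : ℕ} {g' : ℂ → ℂ} (hr : r < 1) (h0 : g 0 = 0) (hd : ∀ z ∈ D, HasDerivAt g (g' z) z)
    (hb : ∃ C : ℝ, 0 ≤ C ∧ ∀ z : ℂ, ‖z‖ ≤ r → ‖g' z‖ ≤ C * ‖z‖ ^ p) : Ob r (p + 1) g := by
  obtain ⟨C, hC, h1⟩ := hb
  refine ⟨C, hC, fun z hz hzr => ?_⟩
  have h2 := (convex_closedBall (0 : ℂ) ‖z‖).norm_image_sub_le_of_norm_hasDerivWithin_le
    (f := g) (f' := g') (C := C * ‖z‖ ^ p)
    (fun x hx => (hd x (mem_D.2 ((mem_closedBall_zero_iff.1 hx).trans_lt
      (hzr.trans_lt hr)))).hasDerivWithinAt)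
    (fun x hx => (h1 x ((mem_closedBall_zero_iff.1 hx).trans hzr)).trans
      (mul_le_mul_of_nonneg_left (pow_le_pow_left₀ (norm_nonneg _)
        (mem_closedBall_zero_iff.1 hx) p) hC))
    (mem_closedBall_self (norm_nonneg z)) (mem_closedBall_zero_iff.2 le_rfl)
  rw [h0, sub_zero, sub_zero] at h2
  rwa [zpow_add₀ (norm_ne_zero_iff.2 hz), zpow_natCast, zpow_one, ← mul_assoc]

end Ob

variable {f : ℂ → ℂ} {k : ℝ} {U : ℂ → ℝ}

theorem Geo.fld_holo' (hf : Geo f) : DifferentiableOn ℂ (deriv f) D := hf.holo.deriv isOpen_ball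

theorem fld_bound {g : ℂ → ℂ} {r : ℝ} (hr : r < 1) (hg : ContinuousOn g D) :
    ∃ C : ℝ, 0 ≤ C ∧ ∀ z : ℂ, ‖z‖ ≤ r → ‖g z‖ ≤ C := by
  obtain ⟨C, hC⟩ := (isCompact_closedBall (0 : ℂ) r).exists_bound_of_continuousOn
    (hg.mono (closedBall_subset_ball hr))
  exact ⟨|C|, abs_nonneg _, fun z hz => (hC z (mem_closedBall_zero_iff.2 hz)).trans (le_abs_self C)⟩

theorem ob_f (hf : Geo f) {r : ℝ} (hr : r < 1) : Ob r 1 f := by
  obtain ⟨C, hC, h⟩ := fld_bound hr hf.fld_holo'.continuousOn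
  exact Ob.of_deriv (p := 0) hr hf.zero
    (fun z hz => (hf.holo.differentiableAt (isOpen_ball.mem_nhds hz)).hasDerivAt)
    ⟨C, hC, fun z hz => by simpa using h z hz⟩

theorem ob_f2 (hf : Geo f) {r : ℝ} (hr : r < 1) : Ob r 2 fun z => z * deriv f z - f z := by
  obtain ⟨C, hC, h⟩ := fld_bound hr (hf.fld_holo'.deriv isOpen_ball).continuousOn
  refine Ob.of_deriv (p := 1) (g' := fun z => z * deriv (deriv f) z) hr (by simp [hf.zero])
    (fun z hz => ?_) ⟨C, hC, fun z hz => ?_⟩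
  · have h1 := (hf.holo.differentiableAt (isOpen_ball.mem_nhds hz)).hasDerivAt
    have h2 := (hf.fld_holo'.differentiableAt (isOpen_ball.mem_nhds hz)).hasDerivAt
    refine (((hasDerivAt_id' z).fun_mul h2).fun_sub h1).congr_deriv ?_
    ring
  · rw [norm_mul, pow_one, mul_comm]
    exact mul_le_mul_of_nonneg_right (h z hz) (norm_nonneg _)

theorem ob_phi (α : ℂ) {r : ℝ} (hr : r ≤ 1) : Ob r (-1) (phi α) :=
  (((Ob.zpow (-1)).const_mul α).add
    (((Ob.zpow 1).const_mul (conj α)).mono hr (by norm_num))).congr fun z _ _ => by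
      simp [phi, div_eq_mul_inv]

theorem ob_phi' (α : ℂ) {r : ℝ} (hr : r ≤ 1) : Ob r (-2) (phi' α) :=
  (((Ob.zpow (-2)).const_mul (-α)).add
    ((Ob.const (conj α)).mono hr (by norm_num))).congr fun z _ _ => by
      simp [phi', div_eq_mul_inv, zpow_neg, zpow_ofNat]

theorem fld_norm_bg_le_of {X : ℂ} {s : ℝ} (h1 : |Real.sin (k * X.re)| ≤ s) (h2 : |Real.sin (k * X.im)| ≤ s) :
    ‖bg k X‖ ≤ |k| * s := by
  have h3 : ‖((Real.sin (k * X.re) : ℝ) : ℂ) + I * (Real.sin (k * X.im) : ℝ)‖ ≤ s + s := by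
    refine (norm_add_le _ _).trans (add_le_add ?_ ?_)
    · rwa [Complex.norm_real]
    · rwa [norm_mul, norm_I, one_mul, Complex.norm_real]
  rw [bg, norm_mul, norm_neg, Complex.norm_real, Real.norm_eq_abs, abs_div, abs_two]
  have := mul_le_mul_of_nonneg_left h3 (show 0 ≤ |k| / 2 by positivity)
  linarith

theorem fld_norm_bg_le (X : ℂ) : ‖bg k X‖ ≤ |k| := by
  simpa using fld_norm_bg_le_of (k := k) (X := X) (Real.abs_sin_le_one _) (Real.abs_sin_le_one _)

theorem fld_norm_bg_le' (X : ℂ) : ‖bg k X‖ ≤ |k| * (|k| * ‖X‖) := by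
  refine fld_norm_bg_le_of (Real.abs_sin_le_abs.trans ?_) (Real.abs_sin_le_abs.trans ?_) <;>
    rw [abs_mul]
  · exact mul_le_mul_of_nonneg_left (abs_re_le_norm X) (abs_nonneg _)
  · exact mul_le_mul_of_nonneg_left (abs_im_le_norm X) (abs_nonneg _)

theorem fld_abs_sin_sub (x : ℝ) : |Real.sin x - x| ≤ |x| ^ 3 := by
  wlog hx : 0 ≤ x generalizing x
  · have := this (-x) (by linarith)
    rwa [Real.sin_neg, abs_neg, show -Real.sin x - -x = -(Real.sin x - x) by ring, abs_neg] at this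
  rcases hx.eq_or_lt with rfl | hx'
  · simp
  rw [abs_of_nonneg hx, abs_sub_comm, abs_of_nonneg (sub_nonneg.2 (Real.sin_le hx))]
  have := Real.sin_gt_sub_cube hx'
  have : 0 ≤ x ^ 3 := by positivity
  linarith

theorem fld_norm_bg_add_le (X : ℂ) : ‖bg k X + ((k ^ 2 / 2 : ℝ) : ℂ) * X‖ ≤ |k| * (|k| * ‖X‖) ^ 3 := by
  have e : bg k X + ((k ^ 2 / 2 : ℝ) : ℂ) * X = -((k / 2 : ℝ) : ℂ) *
      (((Real.sin (k * X.re) - k * X.re : ℝ) : ℂ) + I * ((Real.sin (k * X.im) - k * X.im : ℝ) : ℂ)) := by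
    rw [bg]
    conv_lhs => rw [← re_add_im X]
    simp only [add_re, add_im, ofReal_re, ofReal_im, mul_re, mul_im, I_re, I_im, mul_zero, mul_one,
      sub_zero, zero_add, add_zero]
    push_cast
    ring
  have h1 : ∀ t : ℝ, |t| ≤ ‖X‖ → |Real.sin (k * t) - k * t| ≤ (|k| * ‖X‖) ^ 3 := fun t ht => by
    refine (fld_abs_sin_sub _).trans (pow_le_pow_left₀ (abs_nonneg _) ?_ 3)
    rw [abs_mul]
    exact mul_le_mul_of_nonneg_left ht (abs_nonneg _)
  have h3 : ‖((Real.sin (k * X.re) - k * X.re : ℝ) : ℂ) +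
      I * ((Real.sin (k * X.im) - k * X.im : ℝ) : ℂ)‖ ≤ (|k| * ‖X‖) ^ 3 + (|k| * ‖X‖) ^ 3 := by
    refine (norm_add_le _ _).trans (add_le_add ?_ ?_)
    · rw [Complex.norm_real]; exact h1 _ (abs_re_le_norm X)
    · rw [norm_mul, norm_I, one_mul, Complex.norm_real]; exact h1 _ (abs_im_le_norm X)
  rw [e, norm_mul, norm_neg, Complex.norm_real, Real.norm_eq_abs, abs_div, abs_two]
  have := mul_le_mul_of_nonneg_left h3 (show 0 ≤ |k| / 2 by positivity)
  linarith

theorem fld_abs_beta_sub_le (X : ℂ) : |beta k X - 1| ≤ (|k| * ‖X‖) ^ 2 := by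
  have h1 : ∀ t : ℝ, |t| ≤ ‖X‖ → 1 - (|k| * ‖X‖) ^ 2 ≤ Real.cos (k * t) := fun t ht => by
    have h2 := Real.one_sub_sq_div_two_le_cos (x := k * t)
    have h3 : (k * t) ^ 2 ≤ (|k| * ‖X‖) ^ 2 := by
      rw [← sq_abs, abs_mul]
      exact pow_le_pow_left₀ (by positivity) (mul_le_mul_of_nonneg_left ht (abs_nonneg _)) 2
    nlinarith [sq_nonneg (k * t)]
  have h2 := h1 _ (abs_re_le_norm X)
  have h3 := h1 _ (abs_im_le_norm X)
  have h4 := Real.cos_le_one (k * X.re)
  have h5 := Real.cos_le_one (k * X.im)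
  rw [beta, abs_le]
  constructor <;> nlinarith [sq_nonneg (|k| * ‖X‖)]

theorem ob_kf (hf : Geo f) {r : ℝ} (hr : r < 1) : Ob r 1 fun z => (k : ℂ) * f z :=
  (ob_f hf hr).const_mul _

theorem ob_bg (hf : Geo f) {r : ℝ} (hr : r < 1) : Ob r 1 fun z => bg k (f z) :=
  ((ob_kf (k := k) hf hr).const_mul k).of_le fun z _ _ => by
    simpa using fld_norm_bg_le' (k := k) (f z)

theorem ob_bg3 (hf : Geo f) {r : ℝ} (hr : r < 1) :
    Ob r 3 fun z => bg k (f z) + ((k ^ 2 / 2 : ℝ) : ℂ) * f z :=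
  ((((ob_kf (k := k) hf hr).mul (ob_kf (k := k) hf hr) rfl).mul (ob_kf (k := k) hf hr)
    rfl).const_mul k).of_le fun z _ _ => (fld_norm_bg_add_le (f z)).trans (le_of_eq (by
      simp only [norm_mul, Complex.norm_real, Real.norm_eq_abs]; ring))

theorem ob_beta (hf : Geo f) {r : ℝ} (hr : r < 1) :
    Ob r 2 fun z => ((beta k (f z) - 1 : ℝ) : ℂ) :=
  ((ob_kf (k := k) hf hr).mul (ob_kf (k := k) hf hr) rfl).of_le fun z _ _ => by
    rw [Complex.norm_real]
    exact (fld_abs_beta_sub_le (f z)).trans (le_of_eq (by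
      simp only [norm_mul, Complex.norm_real, Real.norm_eq_abs]; ring))

theorem Flat.fld_ob {w : ℂ → ℝ} (h : Flat w) :
    ∃ r : ℝ, 0 < r ∧ r < 1 ∧ Ob r 1 (gr w) ∧ Ob r 2 fun z => (w z : ℂ) := by
  obtain ⟨C, r, h0, h1, h⟩ := h
  refine ⟨r, h0, h1, ⟨|C|, abs_nonneg _, fun z _ hz => ?_⟩, ⟨|C|, abs_nonneg _, fun z _ hz => ?_⟩⟩
  · rw [zpow_one]
    exact (h z hz).1.trans (mul_le_mul_of_nonneg_right (le_abs_self C) (norm_nonneg _))
  · rw [Complex.norm_real, zpow_ofNat]
    exact (h z hz).2.trans (mul_le_mul_of_nonneg_right (le_abs_self C) (by positivity))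

theorem Ob.bdd {r : ℝ} {g : ℂ → ℂ} (h : Ob r 0 g) :
    ∃ C : ℝ, 0 ≤ C ∧ ∀ z : ℂ, ‖z‖ ≤ r → ‖g z‖ ≤ C := by
  obtain ⟨C, hC, h⟩ := h
  refine ⟨max C ‖g 0‖, le_max_of_le_left hC, fun z hz => ?_⟩
  by_cases h0 : z = 0
  · rw [h0]; exact le_max_right _ _
  · exact le_max_of_le_left (by simpa using h z h0 hz)

/-- `Wf` is bounded near the origin. -/
theorem Wf_bdd_near (hf : Geo f) (hfl : Flat (fun x => U x - bt f k (U 0) x)) (α : ℂ) :
    ∃ r C : ℝ, 0 < r ∧ r < 1 ∧ 0 ≤ C ∧ ∀ z : ℂ, ‖z‖ ≤ r → ‖Wf f k U α z‖ ≤ C := by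
  obtain ⟨r, h0, h1, hg, -⟩ := hfl.fld_ob
  have hb : Ob r 1 (gr (bt f k (U 0))) :=
    ((Ob.of_continuousOn h1 hf.fld_holo'.continuousOn).cnj.mul
      ((ob_bg (k := k) hf h1).const_mul (U 0)) (zero_add 1)).congr fun z _ hz =>
        gr_bt hf k (U 0) (mem_D.2 (hz.trans_lt h1))
  obtain ⟨C, hC, h⟩ := (((ob_phi α h1.le).cnj.mul hg (by norm_num)).add
    ((ob_phi α h1.le).mul hb (by norm_num))).bdd
  exact ⟨r, C, h0, h1, hC, h⟩

/-- `Af` is bounded near the origin. -/
theorem Af_bdd_near (hf : Geo f) (hfl : Flat (fun x => U x - bt f k (U 0) x)) (α : ℂ) :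
    ∃ r C : ℝ, 0 < r ∧ r < 1 ∧ 0 ≤ C ∧ ∀ z : ℂ, ‖z‖ ≤ r → ‖Af f k U α z‖ ≤ C := by
  obtain ⟨r, h0, h1, -, hw⟩ := hfl.fld_ob
  have hi : Ob r 0 fun z => (deriv f z)⁻¹ :=
    Ob.of_continuousOn h1 (hf.fld_holo'.continuousOn.inv₀ hf.ne)
  have t1 : Ob r 0 fun z => conj (phi α z) * ((U z - bt f k (U 0) z : ℝ) : ℂ) :=
    ((ob_phi α h1.le).cnj.mul hw rfl).mono h1.le (by norm_num)
  have t2 : Ob r 0 fun z => phi α z * ((beta k (f z) - 1 : ℝ) : ℂ) :=
    ((ob_phi α h1.le).mul (ob_beta hf h1) rfl).mono h1.le (by norm_num)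
  have t3 : Ob r 0 fun z => phi' α z * (bg k (f z) + ((k ^ 2 / 2 : ℝ) : ℂ) * f z) * (deriv f z)⁻¹ :=
    (((ob_phi' α h1.le).mul (ob_bg3 hf h1) rfl).mul hi rfl).mono h1.le (by norm_num)
  have t4 : Ob r 0 fun z => α * (z ^ (-2 : ℤ) * (z * deriv f z - f z)) :=
    ((Ob.zpow (-2)).mul (ob_f2 hf h1) rfl).const_mul α
  have t5 : Ob r 0 fun z => conj α * (z * deriv f z + f z) :=
    (Ob.of_continuousOn h1 ((continuousOn_id.mul hf.fld_holo'.continuousOn).add
      hf.holo.continuousOn)).const_mul _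
  have hA : Ob r 0 (Af f k U α) := by
    refine (((t1.const_mul (-((k ^ 2 : ℝ) : ℂ))).add
      (t2.const_mul (-((k ^ 2 : ℝ) : ℂ) * (U 0 : ℝ)))).add ((t3.const_mul (2 * (U 0 : ℝ))).add
      (((t4.add t5).mul hi rfl).const_mul (-((k ^ 2 : ℝ) : ℂ) * (U 0 : ℝ))))).congr
      fun z hz hzr => ?_
    have hne := hf.ne z (mem_D.2 (hzr.trans_lt h1))
    simp only [Af, bt, phi, phi', zpow_neg, zpow_ofNat]
    push_cast
    field_simp
    ring
  obtain ⟨C, hC, h⟩ := hA.bdd
  exact ⟨r, C, h0, h1, hC, h⟩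

theorem fld_norm_phi_le (α : ℂ) {r : ℝ} (hr : 0 < r) {z : ℂ} (h1 : r ≤ ‖z‖) (h2 : z ∈ D) :
    ‖phi α z‖ ≤ ‖α‖ / r + ‖α‖ := by
  refine (norm_add_le _ _).trans (add_le_add ?_ ?_)
  · rw [norm_div]
    exact div_le_div_of_nonneg_left (norm_nonneg _) hr h1
  · rw [norm_mul, Complex.norm_conj]
    exact mul_le_of_le_one_right (norm_nonneg _) (mem_D.1 h2).le

theorem fld_norm_phi'_le (α : ℂ) {r : ℝ} (hr : 0 < r) {z : ℂ} (h1 : r ≤ ‖z‖) :
    ‖phi' α z‖ ≤ ‖α‖ / r ^ 2 + ‖α‖ := by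
  refine (norm_add_le _ _).trans (add_le_add ?_ ?_)
  · rw [norm_div, norm_neg, norm_pow]
    exact div_le_div_of_nonneg_left (norm_nonneg _) (by positivity) (pow_le_pow_left₀ hr.le h1 2)
  · rw [Complex.norm_conj]

theorem fld_measurable_phi (α : ℂ) : Measurable (phi α) :=
  (measurable_const.div measurable_id).add (measurable_const.mul measurable_id)

theorem fld_measurable_phi' (α : ℂ) : Measurable (phi' α) :=
  (measurable_const.div (measurable_id.pow_const 2)).add measurable_const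

theorem fld_measurable_Wf (α : ℂ) : Measurable (Wf f k U α) :=
  ((continuous_conj.measurable.comp (fld_measurable_phi α)).mul (measurable_gr _)).add
    ((fld_measurable_phi α).mul (measurable_gr _))

theorem memLp_Wf (hf : Geo f) (hU : Adm f U) (hfl : Flat (fun x => U x - bt f k (U 0) x))
    (α : ℂ) : MemLp (Wf f k U α) 2 (volume.restrict D) := by
  obtain ⟨r, C, h0, -, hC, h⟩ := Wf_bdd_near hf hfl α
  have hb := adm_bt hf k (U 0)
  have hw := hU.sub hf hb
  rw [memLp_two_iff_integrable_sq_norm (fld_measurable_Wf α).aestronglyMeasurable]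
  set P := ‖α‖ / r + ‖α‖ with hP
  refine Integrable.mono' ((integrable_const (C ^ 2)).add ((hw.g2.add hb.g2).const_mul (2 * P ^ 2)))
    ((fld_measurable_Wf α).norm.pow_const 2).aestronglyMeasurable ?_
  filter_upwards [ae_restrict_mem measurableSet_ball] with z hz
  rw [Real.norm_eq_abs, abs_of_nonneg (by positivity)]
  simp only [Pi.add_apply]
  rcases le_total ‖z‖ r with hzr | hzr
  · exact le_add_of_le_of_nonneg (pow_le_pow_left₀ (norm_nonneg _) (h z hzr) 2) (by positivity)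
  · have h1 := fld_norm_phi_le α h0 hzr hz
    set x := ‖gr (fun x => U x - bt f k (U 0) x) z‖
    set y := ‖gr (bt f k (U 0)) z‖
    have h2 : ‖Wf f k U α z‖ ≤ P * x + P * y := by
      refine (norm_add_le _ _).trans (add_le_add ?_ ?_) <;> rw [norm_mul]
      · rw [Complex.norm_conj]; exact mul_le_mul_of_nonneg_right h1 (norm_nonneg _)
      · exact mul_le_mul_of_nonneg_right h1 (norm_nonneg _)
    have h3 := pow_le_pow_left₀ (norm_nonneg _) h2 2
    nlinarith [sq_nonneg (P * x - P * y), sq_nonneg C]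

theorem fld_continuous_bg (k : ℝ) : Continuous (bg k) := by
  unfold bg; fun_prop

theorem aestronglyMeasurable_Af (hf : Geo f) (hU : Adm f U) (α : ℂ) :
    AEStronglyMeasurable (Af f k U α) (volume.restrict D) := by
  have hb := adm_bt hf k (U 0)
  have m1 : AEMeasurable (fun z => ((U z - bt f k (U 0) z : ℝ) : ℂ)) (volume.restrict D) :=
    (contDiffOn_ofReal (hU.sub hf hb).c1).continuousOn.aemeasurable measurableSet_ball
  have m2 : AEMeasurable (fun z => ((bt f k (U 0) z : ℝ) : ℂ)) (volume.restrict D) :=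
    (contDiffOn_ofReal hb.c1).continuousOn.aemeasurable measurableSet_ball
  have m3 : AEMeasurable (fun z => bg k (f z)) (volume.restrict D) :=
    ((fld_continuous_bg k).comp_continuousOn hf.holo.continuousOn).aemeasurable measurableSet_ball
  refine AEMeasurable.aestronglyMeasurable ?_
  exact ((((continuous_conj.measurable.comp (fld_measurable_phi α)).aemeasurable.mul m1).add
    ((fld_measurable_phi α).aemeasurable.mul m2)).const_mul _).add
    ((((fld_measurable_phi' α).const_mul 2).aemeasurable.mul (m3.const_mul _)).div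
      (measurable_deriv f).aemeasurable)

theorem integrableOn_Af (hf : Geo f) (hU : Adm f U) (hfl : Flat (fun x => U x - bt f k (U 0) x))
    (α : ℂ) : IntegrableOn (fun z => rho f z * ‖Af f k U α z‖ ^ 2) D := by
  obtain ⟨r, C, h0, -, hC, h⟩ := Af_bdd_near hf hfl α
  have hb := adm_bt hf k (U 0)
  have hw := hU.sub hf hb
  set P := k ^ 2 * (‖α‖ / r + ‖α‖) with hP
  set T := 2 * (‖α‖ / r ^ 2 + ‖α‖) * (|U 0| * |k|) with hT
  refine Integrable.mono' ((hf.area.mul_const (C ^ 2)).add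
    (((hw.l2.add hb.l2).const_mul (3 * P ^ 2)).add (integrable_const (3 * T ^ 2))))
    ((measurable_rho f).aestronglyMeasurable.mul
      ((aestronglyMeasurable_Af hf hU α).norm.pow 2)) ?_
  filter_upwards [ae_restrict_mem measurableSet_ball] with z hz
  have hρ := rho_nonneg f z
  rw [Real.norm_eq_abs, abs_of_nonneg (by positivity)]
  simp only [Pi.add_apply]
  rcases le_total ‖z‖ r with hzr | hzr
  · exact le_add_of_le_of_nonneg (mul_le_mul_of_nonneg_left
      (pow_le_pow_left₀ (norm_nonneg _) (h z hzr) 2) hρ) (by positivity)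
  · have h1 := fld_norm_phi_le α h0 hzr hz
    have h1' := fld_norm_phi'_le α h0 hzr
    have hd : 0 < ‖deriv f z‖ := norm_pos_iff.2 (hf.ne z hz)
    set d := ‖deriv f z‖ with hdd
    set x := |U z - bt f k (U 0) z| with hx
    set y := |bt f k (U 0) z| with hy
    have h2 : ‖Af f k U α z‖ ≤ P * x + P * y + T / d := by
      refine (norm_add_le _ _).trans (add_le_add ?_ ?_)
      · rw [norm_mul, norm_neg, Complex.norm_real, Real.norm_eq_abs, abs_of_nonneg (sq_nonneg k), hP,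
          mul_assoc, mul_assoc, ← mul_add]
        refine mul_le_mul_of_nonneg_left ?_ (sq_nonneg k)
        refine (norm_add_le _ _).trans (add_le_add ?_ ?_) <;> rw [norm_mul, Complex.norm_real]
        · rw [Complex.norm_conj]; exact mul_le_mul_of_nonneg_right h1 (abs_nonneg _)
        · exact mul_le_mul_of_nonneg_right h1 (abs_nonneg _)
      · rw [norm_div]
        refine div_le_div_of_nonneg_right ?_ hd.le
        rw [norm_mul, norm_mul, norm_mul, Complex.norm_real, Complex.norm_ofNat]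
        exact mul_le_mul (mul_le_mul_of_nonneg_left h1' zero_le_two)
          (mul_le_mul_of_nonneg_left (fld_norm_bg_le _) (abs_nonneg _)) (by positivity) (by positivity)
    have h3 : d * ‖Af f k U α z‖ ≤ P * (d * x) + P * (d * y) + T := by
      refine (mul_le_mul_of_nonneg_left h2 hd.le).trans (le_of_eq ?_)
      field_simp
    have h4 := pow_le_pow_left₀ (by positivity) h3 2
    have e1 : rho f z * (U z - bt f k (U 0) z) ^ 2 = (d * x) ^ 2 := by
      rw [mul_pow, hx, sq_abs]; rfl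
    have e2 : rho f z * bt f k (U 0) z ^ 2 = (d * y) ^ 2 := by
      rw [mul_pow, hy, sq_abs]; rfl
    have e3 : rho f z * ‖Af f k U α z‖ ^ 2 = (d * ‖Af f k U α z‖) ^ 2 := by
      rw [mul_pow]; rfl
    rw [e1, e2, e3]
    have h5 : 0 ≤ rho f z * C ^ 2 := by positivity
    nlinarith [sq_nonneg (P * (d * x) - P * (d * y)), sq_nonneg (P * (d * x) - T),
      sq_nonneg (P * (d * y) - T)]

/-! ### The weak identity -/

theorem fld_contDiff_mul_of_zero {p a : ℂ → ℂ} {n : WithTop ℕ∞} (hp : ∀ z, z ≠ 0 → ContDiffAt ℝ n p z)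
    (ha : ContDiff ℝ n a) (h0 : ∀ᶠ z in 𝓝 (0 : ℂ), a z = 0) : ContDiff ℝ n fun z => p z * a z := by
  rw [contDiff_iff_contDiffAt]
  intro z
  by_cases hz : z = 0
  · rw [hz]
    refine (contDiffAt_const (c := (0 : ℂ))).congr_of_eventuallyEq ?_
    filter_upwards [h0] with x hx
    rw [hx, mul_zero]
  · exact (hp z hz).mul ha.contDiffAt

theorem fld_contDiffAt_phi (α : ℂ) {n : WithTop ℕ∞} {z : ℂ} (hz : z ≠ 0) : ContDiffAt ℝ n (phi α) z :=
  ((contDiffAt_const.div contDiffAt_id hz).add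
    (contDiffAt_const.mul contDiffAt_id) : ContDiffAt ℂ n (phi α) z).restrict_scalars ℝ

theorem fld_contDiffAt_phi' (α : ℂ) {n : WithTop ℕ∞} {z : ℂ} (hz : z ≠ 0) :
    ContDiffAt ℝ n (phi' α) z :=
  ((contDiffAt_const.div (g := fun y : ℂ => y ^ 2) (contDiffAt_id.pow 2) (pow_ne_zero 2 hz)).add
    contDiffAt_const : ContDiffAt ℂ n (phi' α) z).restrict_scalars ℝ

theorem fld_hasDerivAt_phi (α : ℂ) {z : ℂ} (hz : z ≠ 0) : HasDerivAt (phi α) (phi' α z) z := by
  refine (((hasDerivAt_const z α).fun_div (hasDerivAt_id' z) hz).fun_add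
    ((hasDerivAt_id' z).const_mul (conj α))).congr_deriv ?_
  simp [phi']

theorem fld_conj_phi (α : ℂ) {z : ℂ} (hz : ‖z‖ = 1) : conj (phi α z) = phi α z := by
  rw [phi, div_eq_mul_inv, Complex.inv_eq_conj hz]
  simp [add_comm]

theorem Adm.fld_l1 (hf : Geo f) {V : ℂ → ℝ} (hV : Adm f V) :
    IntegrableOn (fun z => rho f z * V z) D := by
  refine Integrable.mono' (hf.area.add hV.l2) ((measurable_rho f).aestronglyMeasurable.mul
    (hV.c1.continuousOn.aestronglyMeasurable measurableSet_ball)) (Eventually.of_forall fun z => ?_)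
  have hρ := rho_nonneg f z
  rw [norm_mul, Real.norm_eq_abs, Real.norm_eq_abs, abs_of_nonneg hρ]
  simp only [Pi.add_apply]
  have : |V z| ≤ 1 + V z ^ 2 := by nlinarith [sq_abs (V z), sq_nonneg (|V z| - 1), abs_nonneg (V z)]
  nlinarith [mul_le_mul_of_nonneg_left this hρ]

theorem fld_integrableOn_mul {Y g : ℂ → ℂ} (hY : IntegrableOn Y D) (hg : Continuous g) :
    IntegrableOn (fun z => Y z * g z) D := by
  obtain ⟨M, -, hM⟩ := exists_bound_D hg
  refine Integrable.mul_bdd (c := M) hY hg.aestronglyMeasurable ?_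
  filter_upwards [ae_restrict_mem measurableSet_ball] with z hz using hM z hz

theorem fld_re {Y : ℂ → ℂ} (hY : IntegrableOn Y D) : IntegrableOn (fun z => (Y z).re) D :=
  reCLM.integrable_comp hY

theorem fld_integral_re {Y : ℂ → ℂ} (hY : IntegrableOn Y D) :
    ∫ z in D, (Y z).re = (∫ z in D, Y z).re := reCLM.integral_comp_comm hY

theorem fld_ae : ∀ᵐ z ∂(volume.restrict D), z ∈ D ∧ z ≠ 0 :=
  (ae_restrict_mem measurableSet_ball).and ((volume.restrict D).ae_ne 0)

theorem fld_sub3 {p q s : ℂ → ℝ} (hp : IntegrableOn p D) (hq : IntegrableOn q D)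
    (hs : IntegrableOn s D) :
    ∫ z in D, (p z - q z - s z) = (∫ z in D, p z) - (∫ z in D, q z) - ∫ z in D, s z := by
  rw [← integral_sub hp hq]
  exact integral_sub (hp.sub hq) hs

theorem field_identity_zero (hf : Geo f) (hU : Adm f U) (hN : Neu f (k ^ 2) U) (α : ℂ) (a : ℂ → ℂ)
    (ha : Tst a) (h0 : ∀ᶠ z in 𝓝 (0 : ℂ), a z = 0) :
    ∫ z in D, (conj (Wf f k U α z) * db a z).re
      = -∫ z in D, rho f z * (conj (Af f k U α z) * a z).re := by
  have hb := adm_bt hf k (U 0)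
  set b := bt f k (U 0) with hbdef
  have c1 : ContDiff ℝ 2 fun z => phi α z * a z :=
    fld_contDiff_mul_of_zero (fun z hz => fld_contDiffAt_phi α hz) ha.1 h0
  have c2 : ContDiff ℝ 2 fun z => conj (phi α z) * a z :=
    fld_contDiff_mul_of_zero (p := fun z => conj (phi α z))
      (fun z hz => conjCLE.contDiff.contDiffAt.comp z (fld_contDiffAt_phi α hz)) ha.1 h0
  have c3 : ContDiff ℝ 2 fun z => conj (phi' α z) * a z :=
    fld_contDiff_mul_of_zero (p := fun z => conj (phi' α z))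
      (fun z hz => conjCLE.contDiff.contDiffAt.comp z (fld_contDiffAt_phi' α hz)) ha.1 h0
  have c4 : ContDiff ℝ 2 fun z => phi α z * a z - conj (phi α z) * a z := c1.sub c2
  have E1 := hN.neuC hf hU _ ⟨c1, fun z hz => by
    have := conj_eq_iff_im.1 (fld_conj_phi α hz)
    simp [this, ha.2 z hz]⟩
  have E2 := (helm_bt hf k (U 0)).helmC hf hb _ c4 fun z hz => by rw [fld_conj_phi α hz, sub_self]
  have i1 := fld_re (fld_integrableOn_mul hU.integrableOn_conj_gr
    (continuous_db (c1.of_le (by norm_num))))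
  have i2 := fld_integrableOn_mul hb.integrableOn_conj_gr (continuous_db (c4.of_le (by norm_num)))
  have i3 := fld_re (fld_integrableOn_mul hb.integrableOn_conj_gr (c3.continuous.const_mul 2))
  have l1 : ∀ {V : ℂ → ℝ}, Adm f V → IntegrableOn (fun z => ((k ^ 2 * rho f z * V z : ℝ) : ℂ)) D :=
    fun {V} hV => by
      simp only [mul_assoc]
      exact ((hV.fld_l1 hf).const_mul (k ^ 2)).ofReal (𝕜 := ℂ)
  have j1 : IntegrableOn (fun z => k ^ 2 * rho f z * U z * (phi α z * a z).re) D := by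
    have := fld_re (fld_integrableOn_mul (l1 hU) c1.continuous)
    simpa only [re_ofReal_mul] using this
  have j2 := fld_integrableOn_mul (l1 hb) c4.continuous
  have E2' := congrArg Complex.re E2
  rw [← fld_integral_re i2, ← fld_integral_re j2] at E2'
  have L : ∫ z in D, (conj (Wf f k U α z) * db a z).re =
      ∫ z in D, ((conj (gr U z) * db (fun z => phi α z * a z) z).re
        - (conj (gr b z) * db (fun z => phi α z * a z - conj (phi α z) * a z) z).re
        - (conj (gr b z) * (2 * (conj (phi' α z) * a z))).re) := by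
    refine integral_congr_ae ?_
    filter_upwards [fld_ae] with z hz
    have da : DifferentiableAt ℝ a z := ha.1.differentiable (by norm_num) z
    have dp : DifferentiableAt ℝ (phi α) z := (fld_contDiffAt_phi α (n := 1) hz.2).differentiableAt_one
    have dp' : DifferentiableAt ℝ (fun x => conj (phi α x)) z := conjCLE.differentiableAt.comp z dp
    rw [db_sub (dp.fun_mul da) (dp'.fun_mul da), db_mul dp da, db_mul dp' da,
      db_holo (fld_hasDerivAt_phi α hz.2).differentiableAt, db_conj_holo (fld_hasDerivAt_phi α hz.2),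
      ← sub_re, ← sub_re, Wf, gr_sub (diffAt_of_contDiffOn hU.c1 hz.1)
        (diffAt_of_contDiffOn hb.c1 hz.1)]
    congr 1
    simp only [map_add, map_mul, map_sub, conj_conj, ← hbdef]
    ring
  have R : ∫ z in D, rho f z * (conj (Af f k U α z) * a z).re =
      ∫ z in D, -(k ^ 2 * rho f z * U z * (phi α z * a z).re
        - (((k ^ 2 * rho f z * b z : ℝ) : ℂ) * (phi α z * a z - conj (phi α z) * a z)).re
        - (conj (gr b z) * (2 * (conj (phi' α z) * a z))).re) := by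
    refine integral_congr_ae ?_
    filter_upwards [fld_ae] with z hz
    have hne : conj (deriv f z) ≠ 0 := (map_ne_zero _).2 (hf.ne z hz.1)
    have hρ : ((rho f z : ℝ) : ℂ) = deriv f z * conj (deriv f z) := by
      rw [mul_conj', rho]; push_cast; rfl
    rw [← re_ofReal_mul, ← re_ofReal_mul, ← sub_re, ← sub_re, ← neg_re, hbdef,
      gr_bt hf k (U 0) hz.1, Af]
    congr 1
    simp only [map_add, map_mul, map_neg, map_div₀, conj_conj, conj_ofReal, map_ofNat]
    push_cast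
    rw [hρ]
    field_simp
    ring
  rw [L, R, integral_neg, neg_neg, fld_sub3 i1 (fld_re i2) i3, fld_sub3 j1 (fld_re j2) i3, E1, E2']

theorem field_identity (hf : Geo f) (hU : Adm f U) (hN : Neu f (k ^ 2) U)
    (hfl : Flat (fun x => U x - bt f k (U 0) x)) (α : ℂ) (a : ℂ → ℂ) (ha : Tst a) :
    ∫ z in D, (conj (Wf f k U α z) * db a z).re
      = -∫ z in D, rho f z * (conj (Af f k U α z) * a z).re := by
  have hn : ∀ n : ℕ, ∫ z in D, (conj (Wf f k U α z) * db (fun x => (ic n x : ℂ) * a x) z).re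
      = -∫ z in D, rho f z * (conj (Af f k U α z) * ((ic n z : ℂ) * a z)).re := fun n => by
    refine field_identity_zero hf hU hN α _ ⟨(contDiff_ofReal (ic_contDiff n (m := 2))).mul ha.1,
      fun z hz => by simp [ha.2 z hz]⟩ ?_
    have hc : Continuous fun z : ℂ => ((n : ℝ) + 1) * ‖z‖ ^ 2 := by fun_prop
    filter_upwards [hc.continuousAt.eventually_lt continuousAt_const
      (show ((n : ℝ) + 1) * ‖(0 : ℂ)‖ ^ 2 < 1 by simp)] with z hz
    rw [ic_zero hz.le, ofReal_zero, zero_mul]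
  obtain ⟨r, C₀, h0, -, hC₀, hW⟩ := Wf_bdd_near hf hfl α
  obtain ⟨M, hM0, hM⟩ := exists_bound_D (continuous_db (ha.1.of_le (by norm_num)))
  obtain ⟨M', hM0', hM'⟩ := exists_bound_D ha.1.continuous
  obtain ⟨C, hC0, hC⟩ := exists_gr_ic_bound
  have e : ∀ n z, db (fun x => (ic n x : ℂ) * a x) z = ic n z * db a z + a z * gr (ic n) z :=
    fun n z => db_real_mul ((ic_contDiff n (m := 1)).differentiable (by simp) z)
      (ha.1.differentiable (by simp) z)
  have hic : ∀ n z, ‖(ic n z : ℂ)‖ ≤ 1 := fun n z => by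
    rw [Complex.norm_real, Real.norm_eq_abs, abs_of_nonneg (ic_nonneg n z)]; exact ic_le_one n z
  have hWi : IntegrableOn (Wf f k U α) D := (memLp_Wf hf hU hfl α).integrable (by norm_num)
  have T1 : Tendsto (fun n : ℕ =>
      ∫ z in D, (conj (Wf f k U α z) * db (fun x => (ic n x : ℂ) * a x) z).re) atTop
      (𝓝 (∫ z in D, (conj (Wf f k U α z) * db a z).re)) := by
    refine tendsto_integral_of_dominated_convergence
      (fun z => ‖Wf f k U α z‖ * (M + M' * (C / r)) + C₀ * M' * C * ‖z‖⁻¹)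
      (fun n => (measurable_re.comp ((continuous_conj.measurable.comp (fld_measurable_Wf α)).mul
        (measurable_db _))).aestronglyMeasurable)
      ((hWi.norm.mul_const _).add ((integrableOn_inv_norm 1).const_mul _)) (fun n => ?_) ?_
    · filter_upwards [fld_ae] with z hz
      have hz0 : 0 < ‖z‖ := norm_pos_iff.2 hz.2
      have g1 : ‖gr (ic n) z‖ ≤ C / ‖z‖ := by rw [le_div_iff₀ hz0, mul_comm]; exact hC n z
      have g2 : ‖db (fun x => (ic n x : ℂ) * a x) z‖ ≤ M + M' * (C / ‖z‖) := by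
        rw [e]
        refine (norm_add_le _ _).trans (add_le_add ?_ ?_) <;> rw [norm_mul]
        · exact (mul_le_of_le_one_left (norm_nonneg _) (hic n z)).trans (hM z hz.1)
        · exact mul_le_mul (hM' z hz.1) g1 (norm_nonneg _) hM0'
      refine (abs_re_le_norm _).trans ?_
      rw [norm_mul, Complex.norm_conj]
      refine (mul_le_mul_of_nonneg_left g2 (norm_nonneg _)).trans ?_
      rcases le_total ‖z‖ r with hzr | hzr
      · have g3 : ‖Wf f k U α z‖ * (M' * (C / ‖z‖)) ≤ C₀ * (M' * (C / ‖z‖)) :=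
          mul_le_mul_of_nonneg_right (hW z hzr) (by positivity)
        have g4 : 0 ≤ ‖Wf f k U α z‖ * (M' * (C / r)) := by positivity
        rw [div_eq_mul_inv C ‖z‖] at g3 ⊢
        linarith
      · refine le_add_of_le_of_nonneg (mul_le_mul_of_nonneg_left (add_le_add le_rfl
          (mul_le_mul_of_nonneg_left (div_le_div_of_nonneg_left hC0.le h0 hzr) hM0'))
          (norm_nonneg _)) (by positivity)
    · filter_upwards [fld_ae] with z hz
      refine tendsto_const_nhds.congr' ?_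
      filter_upwards [eventually_ic hz.2] with n hn
      rw [e, hn.1, hn.2]; simp
  have hAm := aestronglyMeasurable_Af (k := k) hf hU α
  have T2 : Tendsto (fun n : ℕ =>
      ∫ z in D, rho f z * (conj (Af f k U α z) * ((ic n z : ℂ) * a z)).re) atTop
      (𝓝 (∫ z in D, rho f z * (conj (Af f k U α z) * a z).re)) := by
    refine tendsto_integral_of_dominated_convergence
      (fun z => (rho f z + rho f z * ‖Af f k U α z‖ ^ 2) * M')
      (fun n => (measurable_rho f).aestronglyMeasurable.mul (continuous_re.comp_aestronglyMeasurable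
        ((continuous_conj.comp_aestronglyMeasurable hAm).mul
          ((continuous_ofReal.comp (ic_contDiff n (m := 0)).continuous).mul
            ha.1.continuous).aestronglyMeasurable)))
      ((hf.area.add (integrableOn_Af hf hU hfl α)).mul_const _) (fun n => ?_) ?_
    · filter_upwards [fld_ae] with z hz
      have hρ := rho_nonneg f z
      rw [norm_mul, Real.norm_eq_abs, abs_of_nonneg hρ]
      have g1 : ‖(conj (Af f k U α z) * ((ic n z : ℂ) * a z)).re‖ ≤ (1 + ‖Af f k U α z‖ ^ 2) * M' := by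
        refine (abs_re_le_norm _).trans ?_
        rw [norm_mul, Complex.norm_conj, norm_mul]
        refine mul_le_mul ?_ ((mul_le_of_le_one_left (norm_nonneg _) (hic n z)).trans (hM' z hz.1))
          (by positivity) (by positivity)
        nlinarith [sq_nonneg (‖Af f k U α z‖ - 1), norm_nonneg (Af f k U α z)]
      exact (mul_le_mul_of_nonneg_left g1 hρ).trans (le_of_eq (by ring))
    · filter_upwards [fld_ae] with z hz
      refine tendsto_const_nhds.congr' ?_
      filter_upwards [eventually_ic hz.2] with n hn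
      rw [hn.1]; simp
  exact tendsto_nhds_unique T1 (T2.neg.congr fun n => (hn n).symm)

end Crest.Agent.R101
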