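import Crest.Agent.R101.Cut

/-!
Row 101: the quadratic form `Q`: weak equations.
-/

set_option autoImplicit false
open Complex MeasureTheory Metric Set Filter Topology
open scoped ComplexConjugate

namespace Crest.Agent.R101

variable {f : ℂ → ℂ} {μ : ℝ}

section api
variable {V W V' : ℂ → ℝ}

theorem rho_nonneg (f : ℂ → ℂ) (z : ℂ) : 0 ≤ rho f z := sq_nonneg _

theorem measurable_rho (f : ℂ → ℂ) : Measurable (rho f) :=
  (measurable_deriv f).norm.pow_const 2

theorem Geo.continuousOn_deriv (hf : Geo f) : ContinuousOn (deriv f) D :=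
  (hf.holo.deriv isOpen_ball).continuousOn

theorem Geo.continuousOn_rho (hf : Geo f) : ContinuousOn (rho f) D :=
  hf.continuousOn_deriv.norm.pow 2

theorem Geo.rho_pos (hf : Geo f) {z : ℂ} (hz : z ∈ D) : 0 < rho f z :=
  pow_pos (norm_pos_iff.2 (hf.ne z hz)) 2

theorem Geo.integral_rho_pos (hf : Geo f) : 0 < ∫ z in D, rho f z := by
  rw [setIntegral_pos_iff_support_of_nonneg_ae (Eventually.of_forall (rho_nonneg f)) hf.area]
  refine lt_of_lt_of_le (measure_ball_pos volume (0 : ℂ) one_pos) (measure_mono fun z hz => ?_)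
  exact ⟨(hf.rho_pos hz).ne', hz⟩

theorem Adm.aesm (hV : Adm f V) : AEStronglyMeasurable V (volume.restrict D) :=
  hV.c1.continuousOn.aestronglyMeasurable measurableSet_ball

theorem Adm.diffAt (hV : Adm f V) {z : ℂ} (hz : z ∈ D) : DifferentiableAt ℝ V z :=
  diffAt_of_contDiffOn hV.c1 hz

theorem Adm.integrableOn_mul (hV : Adm f V) (hW : Adm f W) :
    IntegrableOn (fun z => rho f z * (V z * W z)) D := by
  refine Integrable.mono' (hV.l2.add hW.l2)
    ((measurable_rho f).aestronglyMeasurable.mul (hV.aesm.mul hW.aesm))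
    (Eventually.of_forall fun z => ?_)
  rw [Real.norm_eq_abs, abs_mul, abs_of_nonneg (rho_nonneg f z), Pi.add_apply, ← mul_add]
  refine mul_le_mul_of_nonneg_left (abs_le.2 ⟨?_, ?_⟩) (rho_nonneg f z) <;>
    nlinarith [sq_nonneg (V z + W z), sq_nonneg (V z - W z)]

theorem Adm.integrableOn_gr_mul (hV : Adm f V) (hW : Adm f W) :
    IntegrableOn (fun z => conj (gr V z) * gr W z) D := by
  refine Integrable.mono' (hV.g2.add hW.g2)
    ((continuous_conj.measurable.comp (measurable_gr V)).mul
      (measurable_gr W)).aestronglyMeasurable (Eventually.of_forall fun z => ?_)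
  rw [norm_mul, Complex.norm_conj, Pi.add_apply]
  nlinarith [sq_nonneg (‖gr V z‖ - ‖gr W z‖), mul_nonneg (norm_nonneg (gr V z))
    (norm_nonneg (gr W z))]

theorem Adm.integrableOn_gr_re (hV : Adm f V) (hW : Adm f W) :
    IntegrableOn (fun z => (conj (gr V z) * gr W z).re) D := (hV.integrableOn_gr_mul hW).re

theorem Adm.integrableOn_gr_im (hV : Adm f V) (hW : Adm f W) :
    IntegrableOn (fun z => (conj (gr V z) * gr W z).im) D := (hV.integrableOn_gr_mul hW).im

theorem Adm.integrableOn_conj_gr (hV : Adm f V) : IntegrableOn (fun z => conj (gr V z)) D :=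
  conjCLE.toContinuousLinearMap.integrable_comp
    (integrableOn_of_sq (measurable_gr V).aestronglyMeasurable hV.g2)

theorem integrableOn_Q (μ : ℝ) (hV : Adm f V) (hW : Adm f W) :
    IntegrableOn (fun z => (conj (gr V z) * gr W z).re - μ * rho f z * (V z * W z)) D := by
  simp only [mul_assoc]
  exact (hV.integrableOn_gr_re hW).sub ((hV.integrableOn_mul hW).const_mul μ)

theorem Q_eq (μ : ℝ) (hV : Adm f V) (hW : Adm f W) : Q f μ V W =
    (∫ z in D, (conj (gr V z) * gr W z).re) - μ * ∫ z in D, rho f z * (V z * W z) := by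
  simp only [Q, mul_assoc]
  rw [integral_sub (hV.integrableOn_gr_re hW) ((hV.integrableOn_mul hW).const_mul μ),
    integral_const_mul]

theorem Q_symm (f : ℂ → ℂ) (μ : ℝ) (V W : ℂ → ℝ) : Q f μ V W = Q f μ W V := by
  unfold Q
  congr 1
  funext z
  simp only [mul_re, conj_re, conj_im]
  ring

theorem Adm.add (hV : Adm f V) (hW : Adm f W) : Adm f (fun z => V z + W z) := by
  refine ⟨hV.c1.add hW.c1, ?_, ?_⟩
  · refine ((hV.l2.add hW.l2).add ((hV.integrableOn_mul hW).const_mul 2)).congr
      (Eventually.of_forall fun z => ?_)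
    simp only [Pi.add_apply]
    ring
  · refine Integrable.mono' ((hV.g2.add hW.g2).const_mul 2)
      ((measurable_gr _).norm.pow_const 2).aestronglyMeasurable ?_
    filter_upwards [ae_restrict_mem measurableSet_ball] with z hz
    rw [gr_add (hV.diffAt hz) (hW.diffAt hz), Real.norm_eq_abs, abs_of_nonneg (sq_nonneg _),
      Pi.add_apply]
    have := pow_le_pow_left₀ (norm_nonneg _) (norm_add_le (gr V z) (gr W z)) 2
    nlinarith [sq_nonneg (‖gr V z‖ - ‖gr W z‖)]

theorem Adm.const_mul (hV : Adm f V) (c : ℝ) : Adm f (fun z => c * V z) := by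
  refine ⟨contDiffOn_const.mul hV.c1, ?_, ?_⟩
  · refine (hV.l2.const_mul (c ^ 2)).congr (Eventually.of_forall fun z => ?_)
    simp only
    ring
  · refine (hV.g2.const_mul (c ^ 2)).congr ?_
    filter_upwards [ae_restrict_mem measurableSet_ball] with z hz
    rw [gr_const_mul c (hV.diffAt hz), norm_mul, mul_pow, Complex.norm_real, Real.norm_eq_abs,
      sq_abs]

theorem adm_of_contDiff (hf : Geo f) (hV : ContDiff ℝ 1 V) : Adm f V := by
  refine ⟨hV.contDiffOn, ?_, integrableOn_D_of_continuous ((continuous_gr hV).norm.pow 2)⟩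
  obtain ⟨M, -, hM⟩ := exists_bound_D (hV.continuous.pow 2)
  refine hf.area.mul_bdd (c := M) (hV.continuous.pow 2).aestronglyMeasurable ?_
  filter_upwards [ae_restrict_mem measurableSet_ball] with z hz using hM z hz

theorem adm_const (hf : Geo f) (c : ℝ) : Adm f (fun _ => c) := adm_of_contDiff hf contDiff_const

theorem adm_of_supp (hf : Geo f) (hV : ContDiffOn ℝ 1 V D) {R : ℝ} (hR : R < 1)
    (h0 : ∀ z, R ≤ ‖z‖ → V z = 0) : Adm f V := adm_of_contDiff hf (contDiff_of_supp hV hR h0)

theorem Adm.integrableOn_rho_mul (hf : Geo f) (hV : Adm f V) :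
    IntegrableOn (fun z => rho f z * V z) D := by
  simpa using hV.integrableOn_mul (adm_const hf 1)

theorem Q_add_right (μ : ℝ) (hV : Adm f V) (hW : Adm f W) (hV' : Adm f V') :
    Q f μ V (fun z => W z + V' z) = Q f μ V W + Q f μ V V' := by
  unfold Q
  rw [← integral_add (integrableOn_Q μ hV hW) (integrableOn_Q μ hV hV')]
  refine setIntegral_congr_fun measurableSet_ball fun z hz => ?_
  simp only [gr_add (hW.diffAt hz) (hV'.diffAt hz), mul_add, add_re]
  ring

theorem Q_add_left (μ : ℝ) (hV : Adm f V) (hW : Adm f W) (hV' : Adm f V') :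
    Q f μ (fun z => V z + W z) V' = Q f μ V V' + Q f μ W V' := by
  rw [Q_symm, Q_add_right μ hV' hV hW, Q_symm f μ V', Q_symm f μ V']

theorem Q_const_mul_right (μ c : ℝ) (V : ℂ → ℝ) (hW : Adm f W) :
    Q f μ V (fun z => c * W z) = c * Q f μ V W := by
  unfold Q
  rw [← integral_const_mul]
  refine setIntegral_congr_fun measurableSet_ball fun z hz => ?_
  simp only [gr_const_mul c (hW.diffAt hz), mul_left_comm _ (c : ℂ), re_ofReal_mul]
  ring

theorem Q_const_mul_left (μ c : ℝ) (hV : Adm f V) (W : ℂ → ℝ) :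
    Q f μ (fun z => c * V z) W = c * Q f μ V W := by
  rw [Q_symm, Q_const_mul_right μ c W hV, Q_symm]

theorem Q_sub_right (μ : ℝ) (hV : Adm f V) (hW : Adm f W) (hV' : Adm f V') :
    Q f μ V (fun z => W z - V' z) = Q f μ V W - Q f μ V V' := by
  have := Q_add_right μ hV hW (hV'.const_mul (-1))
  rw [Q_const_mul_right μ (-1) V hV'] at this
  simpa [sub_eq_add_neg] using this

theorem Q_sub_left (μ : ℝ) (hV : Adm f V) (hW : Adm f W) (hV' : Adm f V') :
    Q f μ (fun z => V z - W z) V' = Q f μ V V' - Q f μ W V' := by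
  rw [Q_symm, Q_sub_right μ hV' hV hW, Q_symm f μ V', Q_symm f μ V']

theorem Q_const_right (μ c : ℝ) (V : ℂ → ℝ) :
    Q f μ V (fun _ => c) = -(μ * c) * ∫ z in D, rho f z * V z := by
  unfold Q
  rw [← integral_const_mul]
  congr 1
  funext z
  simp only [gr_const, mul_zero, zero_re]
  ring

/-- If `Q(w, g) = 0` and the curl term vanishes, the complex weak equation holds for `g`. -/
theorem integral_gr_of_Q (hV : Adm f V) (hW : Adm f W) (hQ : Q f μ V W = 0)
    (hc : (∫ z in D, conj (gr V z) * gr W z).im = 0) :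
    ∫ z in D, conj (gr V z) * gr W z = ∫ z in D, ((μ * rho f z * V z : ℝ) : ℂ) * (W z : ℂ) := by
  rw [Q_eq μ hV hW, sub_eq_zero, ← integral_const_mul] at hQ
  have h1 := integral_re (𝕜 := ℂ) (hV.integrableOn_gr_mul hW)
  simp only [RCLike.re_to_complex] at h1
  simp only [← ofReal_mul]
  rw [integral_complex_ofReal]
  refine Complex.ext ?_ (by rw [hc, ofReal_im])
  rw [← h1, hQ, ofReal_re]
  simp only [mul_assoc]

end api

theorem Q_eq_zero_of_min (hf : Geo f) (hP : Poin f μ) {U g : ℂ → ℝ} (hU : Adm f U)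
    (hm : ∫ z in D, rho f z * U z = 0) (hQ : Q f μ U U = 0) (hg : Adm f g)
    (hg0 : ∫ z in D, rho f z * g z = 0) : Q f μ U g = 0 := by
  have key : ∀ t : ℝ, 0 ≤ Q f μ g g * (t * t) + 2 * Q f μ U g * t + 0 := by
    intro t
    have A := hg.const_mul t
    have := hP _ (hU.add A) (by
      simp only [mul_add, mul_left_comm _ t]
      rw [integral_add (hU.integrableOn_rho_mul hf) ((hg.integrableOn_rho_mul hf).const_mul t),
        integral_const_mul, hm, hg0, mul_zero, add_zero])
    rw [Q_add_left μ hU A (hU.add A), Q_add_right μ hU hU A, Q_add_right μ A hU A, hQ,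
      Q_const_mul_right μ t U hg, Q_const_mul_left μ t hg, Q_const_mul_left μ t hg,
      Q_const_mul_right μ t g hg, Q_symm f μ g U] at this
    linarith
  have h := discrim_le_zero key
  rw [discrim] at h
  nlinarith [sq_nonneg (Q f μ U g)]

/-- A minimiser satisfies the weak Neumann equation. -/
theorem neu_of_min (hf : Geo f) (hP : Poin f μ) {U : ℂ → ℝ} (hU : Adm f U)
    (hm : ∫ z in D, rho f z * U z = 0) (hQ : Q f μ U U = 0) : Neu f μ U := by
  intro h hh
  have hpos := hf.integral_rho_pos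
  set c : ℝ := -(∫ z in D, rho f z * h z) / ∫ z in D, rho f z with hc
  have h0 : Adm f fun z => h z + c := hh.add (adm_const hf c)
  have hm0 : ∫ z in D, rho f z * (h z + c) = 0 := by
    simp only [mul_add]
    rw [integral_add (hh.integrableOn_rho_mul hf) (hf.area.mul_const c), integral_mul_const, hc]
    field_simp
    ring
  have e : Q f μ U (fun z => h z + c) = Q f μ U h := by
    rw [Q_add_right μ hU hh (adm_const hf c), Q_const_right, hm, mul_zero, add_zero]
  rw [← e]
  exact Q_eq_zero_of_min hf hP hU hm hQ h0 hm0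

theorem Neu.helm (hf : Geo f) {U : ℂ → ℝ} (h : Neu f μ U) : Helm f μ U :=
  fun g hg ⟨_, hR, h0⟩ => h g (adm_of_supp hf hg hR h0)

theorem Adm.sub (hf : Geo f) {V W : ℂ → ℝ} (hV : Adm f V) (hW : Adm f W) :
    Adm f (fun z => V z - W z) := by
  have _ := hf
  simpa [sub_eq_add_neg] using hV.add (hW.const_mul (-1))

theorem Helm.sub (hf : Geo f) {V W : ℂ → ℝ} (hV : Adm f V) (hW : Adm f W)
    (h1 : Helm f μ V) (h2 : Helm f μ W) : Helm f μ (fun z => V z - W z) := by
  rintro g hg ⟨R, hR, h0⟩
  rw [Q_sub_left μ hV hW (adm_of_supp hf hg hR h0), h1 g hg ⟨R, hR, h0⟩, h2 g hg ⟨R, hR, h0⟩,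
    sub_zero]

/-- The complex weak Helmholtz equation for a test function supported in a smaller disc. -/
theorem Helm.helmC_supp (hf : Geo f) {w : ℂ → ℝ} (hw : Adm f w) (h : Helm f μ w) {a : ℂ → ℂ}
    (ha : ContDiff ℝ 2 a) {R : ℝ} (hR : R < 1) (h0 : ∀ z, R ≤ ‖z‖ → a z = 0) :
    ∫ z in D, conj (gr w z) * db a z = ∫ z in D, ((μ * rho f z * w z : ℝ) : ℂ) * a z := by
  have key : ∀ g : ℂ → ℝ, ContDiff ℝ 2 g → (∀ z, R ≤ ‖z‖ → g z = 0) →
      IntegrableOn (fun z => conj (gr w z) * gr g z) D ∧
      IntegrableOn (fun z => ((μ * rho f z * w z : ℝ) : ℂ) * (g z : ℂ)) D ∧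
      ∫ z in D, conj (gr w z) * gr g z =
        ∫ z in D, ((μ * rho f z * w z : ℝ) : ℂ) * (g z : ℂ) := by
    intro g hg hg0
    have hg1 : ContDiff ℝ 1 g := hg.of_le (by norm_num)
    have hA := adm_of_contDiff hf hg1
    refine ⟨hw.integrableOn_gr_mul hA, ?_, integral_gr_of_Q hw hA
      (h g hg1.contDiffOn ⟨R, hR, hg0⟩) (curl_supp hw.c1 hg hR hg0)⟩
    refine (((hw.integrableOn_mul hA).const_mul μ).ofReal (𝕜 := ℂ)).congr
      (Eventually.of_forall fun z => ?_)
    simp [mul_assoc]
  obtain ⟨i1, j1, e1⟩ := key (fun z => (a z).re) (reCLM.contDiff.comp ha)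
    fun z hz => by simp [h0 z hz]
  obtain ⟨i2, j2, e2⟩ := key (fun z => (a z).im) (imCLM.contDiff.comp ha)
    fun z hz => by simp [h0 z hz]
  calc ∫ z in D, conj (gr w z) * db a z
      = ∫ z in D, (conj (gr w z) * gr (fun z => (a z).re) z +
          I * (conj (gr w z) * gr (fun z => (a z).im) z)) := by
        congr 1
        funext z
        rw [db_eq_gr_re_im (ha.differentiable (by norm_num) z)]
        ring
    _ = ∫ z in D, (((μ * rho f z * w z : ℝ) : ℂ) * ((a z).re : ℂ) +
          I * (((μ * rho f z * w z : ℝ) : ℂ) * ((a z).im : ℂ))) := by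
        rw [integral_add i1 (i2.const_mul I), integral_add j1 (j2.const_mul I), integral_const_mul,
          integral_const_mul, e1, e2]
    _ = _ := by
        congr 1
        funext z
        conv_rhs => rw [← re_add_im (a z)]
        ring

theorem Helm.helmC (hf : Geo f) {w : ℂ → ℝ} (hw : Adm f w) (h : Helm f μ w) : HelmC f μ w := by
  intro a ha h0
  have h1 := tendsto_oc_db hw.integrableOn_conj_gr (ha.of_le (by norm_num)) h0
  obtain ⟨M, -, hM⟩ := exists_bound_D ha.continuous
  have hs : IntegrableOn (fun z => ((μ * rho f z * w z : ℝ) : ℂ) * a z) D := by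
    have : IntegrableOn (fun z => ((μ * rho f z * w z : ℝ) : ℂ)) D := by
      simp only [mul_assoc]
      exact ((hw.integrableOn_rho_mul hf).const_mul μ).ofReal
    refine this.mul_bdd (c := M) ha.continuous.aestronglyMeasurable ?_
    filter_upwards [ae_restrict_mem measurableSet_ball] with z hz using hM z hz
  refine tendsto_nhds_unique h1 ((tendsto_oc hs).congr fun n => ?_)
  obtain ⟨R, hR, hn⟩ := oc_supp n
  rw [h.helmC_supp hf hw ((contDiff_ofReal (oc_contDiff n (m := 2))).mul ha) hR
    fun z hz => by simp [hn z hz]]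
  congr 1
  funext z
  ring

theorem Neu.neuC (hf : Geo f) {U : ℂ → ℝ} (hU : Adm f U) (h : Neu f μ U) : NeuC f μ U := by
  rintro a ⟨ha, h0⟩
  have hr : ContDiff ℝ 2 fun z => (a z).re := reCLM.contDiff.comp ha
  have hi : ContDiff ℝ 2 fun z => (a z).im := imCLM.contDiff.comp ha
  have Ar := adm_of_contDiff hf (hr.of_le (by norm_num))
  have Ai := adm_of_contDiff hf (hi.of_le (by norm_num))
  have h1 := h _ Ar
  rw [Q_eq μ hU Ar, sub_eq_zero, ← integral_const_mul] at h1
  have h2 := curl_zero hU.c1 hU.g2 hi h0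
  have h3 := integral_im (𝕜 := ℂ) (hU.integrableOn_gr_mul Ai)
  simp only [RCLike.im_to_complex] at h3
  calc ∫ z in D, (conj (gr U z) * db a z).re
      = ∫ z in D, ((conj (gr U z) * gr (fun z => (a z).re) z).re -
          (conj (gr U z) * gr (fun z => (a z).im) z).im) := by
        congr 1
        funext z
        rw [db_eq_gr_re_im (ha.differentiable (by norm_num) z), mul_add, mul_left_comm, add_re,
          I_mul_re, sub_eq_add_neg]
    _ = _ := by
        rw [integral_sub (hU.integrableOn_gr_re Ar) (hU.integrableOn_gr_im Ai), h3, h2, h1,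
          sub_zero]
        simp only [mul_assoc]

end Crest.Agent.R101
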