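import Crest.Agent.R101.Form

/-!
Row 101: admissible functions pulled back from the plane, and linearity of the form `Q`.
-/

set_option autoImplicit false
open Complex MeasureTheory Metric Set Filter Topology
open scoped ComplexConjugate

namespace Crest.Agent.R101.WaveAux

variable {f : ℂ → ℂ} {μ : ℝ}

theorem hasDerivAt_f (hf : Geo f) {z : ℂ} (hz : z ∈ D) : HasDerivAt f (deriv f z) z :=
  (hf.holo.differentiableAt (isOpen_ball.mem_nhds hz)).hasDerivAt

theorem contDiffOn_f (hf : Geo f) : ContDiffOn ℝ 1 f D :=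
  (hf.holo.contDiffOn isOpen_ball).restrict_scalars ℝ

theorem contDiffOn_deriv (hf : Geo f) : ContDiffOn ℝ 1 (deriv f) D :=
  ((hf.holo.deriv isOpen_ball).contDiffOn isOpen_ball).restrict_scalars ℝ

theorem continuousOn_rho (hf : Geo f) : ContinuousOn (rho f) D :=
  (contDiffOn_deriv hf).continuousOn.norm.pow 2

theorem rho_nonneg (z : ℂ) : 0 ≤ rho f z := sq_nonneg _

theorem mul_conj_deriv (z : ℂ) : deriv f z * conj (deriv f z) = (rho f z : ℂ) := by
  rw [mul_conj', rho]; simp

theorem integral_rho_pos (hf : Geo f) : 0 < ∫ z in D, rho f z := by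
  rw [setIntegral_pos_iff_support_of_nonneg_ae (Eventually.of_forall fun z => rho_nonneg z)
    hf.area, inter_eq_right.2 fun z hz => by simpa [rho] using hf.ne z hz]
  exact measure_ball_pos _ _ one_pos

theorem int_rho_mul (hf : Geo f) {b : ℂ → ℝ} (hb : ContinuousOn b D) {M : ℝ}
    (hM : ∀ z ∈ D, ‖b z‖ ≤ M) : IntegrableOn (fun z => rho f z * b z) D :=
  hf.area.mul_bdd (hb.aestronglyMeasurable measurableSet_ball)
    ((ae_restrict_mem measurableSet_ball).mono hM)

theorem exists_bound_comp (hf : Geo f) {b : ℂ → ℝ} (hb : Continuous b) :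
    ∃ M : ℝ, ∀ z ∈ D, ‖b (f z)‖ ≤ M := by
  obtain ⟨R, hR⟩ := hf.bdd
  obtain ⟨M, hM⟩ := (isCompact_closedBall (0 : ℂ) R).exists_bound_of_continuousOn hb.continuousOn
  exact ⟨M, fun z hz => hM _ (mem_closedBall_zero_iff.2 (hR z hz))⟩

theorem int_rho_comp (hf : Geo f) {b : ℂ → ℝ} (hb : Continuous b) :
    IntegrableOn (fun z => rho f z * b (f z)) D := by
  obtain ⟨M, hM⟩ := exists_bound_comp hf hb
  exact int_rho_mul hf (hb.comp_continuousOn (contDiffOn_f hf).continuousOn) hM

theorem gr_comp (hf : Geo f) {P : ℂ → ℝ} (hP : ContDiff ℝ 1 P) {z : ℂ} (hz : z ∈ D) :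
    gr (fun x => P (f x)) z = conj (deriv f z) * gr P (f z) :=
  gr_comp_holo (hP.differentiable (by norm_num) _) (hasDerivAt_f hf hz)

theorem adm_comp (hf : Geo f) {P : ℂ → ℝ} (hP : ContDiff ℝ 1 P) : Adm f fun x => P (f x) := by
  refine ⟨hP.comp_contDiffOn (contDiffOn_f hf), int_rho_comp hf (hP.continuous.pow 2), ?_⟩
  refine (int_rho_comp hf ((continuous_gr hP).norm.pow 2)).congr_fun (fun z hz => ?_)
    measurableSet_ball
  simp only [gr_comp hf hP hz, norm_mul, Complex.norm_conj, mul_pow, rho, Pi.pow_apply]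

theorem adm_of_contDiff (hf : Geo f) {g : ℂ → ℝ} (hg : ContDiff ℝ 1 g) : Adm f g := by
  obtain ⟨M, -, hM⟩ := exists_bound_D (hg.continuous.pow 2)
  exact ⟨hg.contDiffOn, int_rho_mul hf (hg.continuous.pow 2).continuousOn hM,
    integrableOn_D_of_continuous ((continuous_gr hg).norm.pow 2)⟩

theorem int_gr {V W : ℂ → ℝ} (hV : Adm f V) (hW : Adm f W) :
    IntegrableOn (fun z => conj (gr V z) * gr W z) D := by
  refine (hV.g2.add hW.g2).mono' ((continuous_conj.measurable.comp (measurable_gr V)).mul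
    (measurable_gr W)).aestronglyMeasurable (Eventually.of_forall fun z => ?_)
  rw [norm_mul, Complex.norm_conj, Pi.add_apply]
  nlinarith [sq_nonneg (‖gr V z‖ - ‖gr W z‖), mul_nonneg (norm_nonneg (gr V z)) (norm_nonneg (gr W z))]

theorem int_rho (hf : Geo f) {V W : ℂ → ℝ} (hV : Adm f V) (hW : Adm f W) :
    IntegrableOn (fun z => rho f z * (V z * W z)) D := by
  refine (hV.l2.add hW.l2).mono' (((continuousOn_rho hf).mul
    (hV.c1.continuousOn.mul hW.c1.continuousOn)).aestronglyMeasurable measurableSet_ball)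
    (Eventually.of_forall fun z => ?_)
  rw [norm_mul, Real.norm_of_nonneg (rho_nonneg z), Pi.add_apply, ← mul_add]
  refine mul_le_mul_of_nonneg_left (abs_le.2 ⟨?_, ?_⟩) (rho_nonneg z)
  · nlinarith [sq_nonneg (V z + W z), sq_nonneg (V z), sq_nonneg (W z)]
  · nlinarith [sq_nonneg (V z - W z), sq_nonneg (V z), sq_nonneg (W z)]

theorem int_mean (hf : Geo f) {V : ℂ → ℝ} (hV : Adm f V) :
    IntegrableOn (fun z => rho f z * V z) D := by
  simpa using int_rho hf hV (adm_of_contDiff hf (contDiff_const (c := 1)))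

/-- The integrand of `Q`. -/
noncomputable def qf (f : ℂ → ℂ) (μ : ℝ) (V W : ℂ → ℝ) (z : ℂ) : ℝ :=
  (conj (gr V z) * gr W z).re - μ * rho f z * (V z * W z)

theorem Q_def (V W : ℂ → ℝ) : Q f μ V W = ∫ z in D, qf f μ V W z := rfl

theorem int_qf (hf : Geo f) {V W : ℂ → ℝ} (hV : Adm f V) (hW : Adm f W) :
    IntegrableOn (qf f μ V W) D := by
  refine ((int_gr hV hW).re.sub ((int_rho hf hV hW).const_mul μ)).congr
    (Eventually.of_forall fun z => ?_)
  simp only [qf, Pi.sub_apply, RCLike.re_to_complex, mul_assoc]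

theorem Q_eq (hf : Geo f) {V W : ℂ → ℝ} (hV : Adm f V) (hW : Adm f W) : Q f μ V W =
    (∫ z in D, conj (gr V z) * gr W z).re - μ * ∫ z in D, rho f z * (V z * W z) := by
  have h := integral_re (𝕜 := ℂ) (int_gr hV hW)
  have h' := (int_gr hV hW).re
  simp only [RCLike.re_to_complex] at h h'
  rw [← h, ← integral_const_mul, ← integral_sub h' ((int_rho hf hV hW).const_mul μ)]
  simp only [Q, mul_assoc]

theorem Q_eq_zero (hf : Geo f) {V W : ℂ → ℝ} (hV : Adm f V) (hW : Adm f W)
    (h : ∫ z in D, conj (gr V z) * gr W z = ∫ z in D, ((μ * rho f z * V z : ℝ) : ℂ) * W z) :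
    Q f μ V W = 0 := by
  rw [Q_eq hf hV hW, h]
  simp only [← ofReal_mul]
  rw [integral_complex_ofReal, ofReal_re, ← integral_const_mul]
  simp only [mul_assoc, sub_self]

theorem adm_const_mul {V : ℂ → ℝ} (hV : Adm f V) (t : ℝ) : Adm f fun z => t * V z := by
  refine ⟨contDiffOn_const.mul hV.c1, (hV.l2.const_mul (t ^ 2)).congr
    (Eventually.of_forall fun z => by ring), IntegrableOn.congr_fun (hV.g2.const_mul (t ^ 2))
      (fun z hz => ?_) measurableSet_ball⟩
  simp [gr_const_mul t (diffAt_of_contDiffOn hV.c1 hz), mul_pow]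

theorem Q_sub_mul (hf : Geo f) {V W : ℂ → ℝ} (hV : Adm f V) (hW : Adm f W) (t : ℝ) :
    Q f μ (fun z => V z - t * W z) (fun z => V z - t * W z) =
      Q f μ V V - 2 * t * Q f μ V W + t ^ 2 * Q f μ W W := by
  simp only [Q_def]
  rw [← integral_const_mul, ← integral_const_mul,
    ← integral_sub (int_qf hf hV hV) ((int_qf hf hV hW).const_mul _),
    ← integral_add (by exact (int_qf hf hV hV).sub ((int_qf hf hV hW).const_mul _))
      ((int_qf hf hW hW).const_mul _)]
  refine setIntegral_congr_fun measurableSet_ball fun z hz => ?_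
  have dV := diffAt_of_contDiffOn hV.c1 hz
  have dW := diffAt_of_contDiffOn hW.c1 hz
  simp only [qf, gr_sub dV (dW.const_mul t), gr_const_mul t dW]
  simp
  ring

/-- Solutions of the Helmholtz equation in the plane. -/
theorem helm_comp (hf : Geo f) {P : ℂ → ℝ} (hP : ContDiff ℝ 2 P)
    (h : ∀ X, db (fun x => conj (gr P x)) X = ((-μ * P X : ℝ) : ℂ)) :
    Helm f μ fun x => P (f x) := by
  rintro g hg ⟨R, hR, h0⟩
  have hP1 : ContDiff ℝ 1 P := hP.of_le (by norm_num)
  have hb : ContDiff ℝ 1 fun x => conj (gr P x) :=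
    conjCLE.contDiff.comp (contDiff_db (contDiff_ofReal hP))
  have hc : ContDiffOn ℝ 1 (fun z => conj (gr P (f z))) D := hb.comp_contDiffOn (contDiffOn_f hf)
  have h1 := integral_mul_db ((contDiffOn_deriv hf).mul hc) (contDiffOn_ofReal hg) hR
    fun z hz => by simp [h0 z hz]
  refine Q_eq_zero hf (adm_comp hf hP1) (adm_of_contDiff hf (contDiff_of_supp hg hR h0)) ?_
  rw [setIntegral_congr_fun measurableSet_ball
    (g := fun z => deriv f z * conj (gr P (f z)) * db (fun x => (g x : ℂ)) z)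
    fun z hz => by simp only [gr_comp hf hP1 hz, map_mul, conj_conj]; rfl, h1, ← integral_neg]
  refine setIntegral_congr_fun measurableSet_ball fun z hz => ?_
  rw [db_mul (diffAt_of_contDiffOn (contDiffOn_deriv hf) hz) (diffAt_of_contDiffOn hc hz),
    db_holo ((hf.holo.deriv isOpen_ball).differentiableAt (isOpen_ball.mem_nhds hz)),
    db_comp_holo (a := fun x => conj (gr P x)) (hb.differentiable (by norm_num) _)
      (hasDerivAt_f hf hz), h, ← mul_assoc, mul_conj_deriv]
  push_cast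
  ring

theorem gr_of_re {ψ : ℝ → ℝ} {ψ' : ℝ} {X : ℂ} (h : HasDerivAt ψ ψ' X.re) :
    gr (fun x => ψ x.re) X = ψ' := by
  rw [gr_comp_real (V := fun x : ℂ => x.re) h reCLM.differentiableAt, gr_re, mul_one]

theorem gr_of_im {ψ : ℝ → ℝ} {ψ' : ℝ} {X : ℂ} (h : HasDerivAt ψ ψ' X.im) :
    gr (fun x => ψ x.im) X = ψ' * I := by
  rw [gr_comp_real (V := fun x : ℂ => x.im) h imCLM.differentiableAt, gr_im]

theorem hasDerivAt_cos (k t : ℝ) :
    HasDerivAt (fun t => Real.cos (k * t)) (-k * Real.sin (k * t)) t :=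
  ((hasDerivAt_id' t).const_mul k).cos.congr_deriv (by ring)

theorem hasDerivAt_sin (k t : ℝ) :
    HasDerivAt (fun t => Real.sin (k * t)) (k * Real.cos (k * t)) t :=
  ((hasDerivAt_id' t).const_mul k).sin.congr_deriv (by ring)

theorem contDiff_re {n : WithTop ℕ∞} : ContDiff ℝ n fun x : ℂ => x.re := reCLM.contDiff

theorem contDiff_im {n : WithTop ℕ∞} : ContDiff ℝ n fun x : ℂ => x.im := imCLM.contDiff

theorem helm_cos (hf : Geo f) (k : ℝ) : Helm f (k ^ 2) fun x => Real.cos (k * (f x).re) := by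
  refine helm_comp hf (P := fun X => Real.cos (k * X.re)) (contDiff_const.mul contDiff_re).cos
    fun X => ?_
  simp only [gr_of_re (hasDerivAt_cos k _), conj_ofReal]
  refine (gr_of_re ((hasDerivAt_sin k _).const_mul (-k))).trans ?_
  congr 1
  ring

theorem helm_sin (hf : Geo f) (k : ℝ) : Helm f (k ^ 2) fun x => Real.sin (k * (f x).re) := by
  refine helm_comp hf (P := fun X => Real.sin (k * X.re)) (contDiff_const.mul contDiff_re).sin
    fun X => ?_
  simp only [gr_of_re (hasDerivAt_sin k _), conj_ofReal]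
  refine (gr_of_re ((hasDerivAt_cos k _).const_mul k)).trans ?_
  congr 1
  ring

theorem contDiff_beta (k u0 : ℝ) {n : WithTop ℕ∞} : ContDiff ℝ n fun X => u0 * beta k X :=
  contDiff_const.mul (((contDiff_const.mul contDiff_re).cos.add
    (contDiff_const.mul contDiff_im).cos).div_const 2)

theorem gr_beta (k u0 : ℝ) (X : ℂ) : gr (fun X => u0 * beta k X) X = u0 * bg k X := by
  have e : (fun X => u0 * beta k X) = fun X : ℂ =>
      u0 / 2 * Real.cos (k * X.re) + u0 / 2 * Real.cos (k * X.im) := by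
    funext X; rw [beta]; ring
  have d1 : DifferentiableAt ℝ (fun X : ℂ => u0 / 2 * Real.cos (k * X.re)) X :=
    (contDiff_const.mul (contDiff_const.mul (contDiff_re (n := 1))).cos).differentiable
      (by norm_num) X
  have d2 : DifferentiableAt ℝ (fun X : ℂ => u0 / 2 * Real.cos (k * X.im)) X :=
    (contDiff_const.mul (contDiff_const.mul (contDiff_im (n := 1))).cos).differentiable
      (by norm_num) X
  rw [e, gr_add d1 d2, gr_of_re ((hasDerivAt_cos k _).const_mul (u0 / 2)),
    gr_of_im ((hasDerivAt_cos k _).const_mul (u0 / 2)), bg]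
  simp only [ofReal_mul, ofReal_div, ofReal_neg, ofReal_ofNat]
  ring

theorem db_beta (k u0 : ℝ) (X : ℂ) : db (fun x => conj (gr (fun X => u0 * beta k X) x)) X =
    ((-k ^ 2 * (u0 * beta k X) : ℝ) : ℂ) := by
  have e : (fun x => conj (gr (fun X => u0 * beta k X) x)) = fun x : ℂ =>
      ((-(u0 * k / 2) * Real.sin (k * x.re) : ℝ) : ℂ) +
        I * ((u0 * k / 2 * Real.sin (k * x.im) : ℝ) : ℂ) := by
    funext x
    simp only [gr_beta, bg, map_mul, map_add, map_neg, conj_ofReal, conj_I]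
    simp only [ofReal_mul, ofReal_div, ofReal_neg, ofReal_ofNat]
    ring
  have d1 : DifferentiableAt ℝ (fun X : ℂ => -(u0 * k / 2) * Real.sin (k * X.re)) X :=
    (contDiff_const.mul (contDiff_const.mul (contDiff_re (n := 1))).sin).differentiable
      (by norm_num) X
  have d2 : DifferentiableAt ℝ (fun X : ℂ => u0 * k / 2 * Real.sin (k * X.im)) X :=
    (contDiff_const.mul (contDiff_const.mul (contDiff_im (n := 1))).sin).differentiable
      (by norm_num) X
  rw [e, db_add (differentiableAt_ofReal d1) ((differentiableAt_ofReal d2).const_mul I),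
    db_const_mul I (differentiableAt_ofReal d2)]
  change gr (fun X : ℂ => -(u0 * k / 2) * Real.sin (k * X.re)) X +
    I * gr (fun X : ℂ => u0 * k / 2 * Real.sin (k * X.im)) X = _
  rw [gr_of_re ((hasDerivAt_sin k _).const_mul _), gr_of_im ((hasDerivAt_sin k _).const_mul _),
    beta]
  simp only [ofReal_mul, ofReal_div, ofReal_neg, ofReal_ofNat, ofReal_pow, ofReal_add]
  linear_combination (u0 * k / 2 * (k * (Real.cos (k * X.im) : ℝ)) : ℂ) * I_mul_I

theorem qf_re (hf : Geo f) {ψ χ : ℝ → ℝ} (hψ : ContDiff ℝ 1 ψ) (hχ : ContDiff ℝ 1 χ) {z : ℂ}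
    (hz : z ∈ D) {a b : ℝ} (ha : HasDerivAt ψ a (f z).re) (hb : HasDerivAt χ b (f z).re) :
    qf f μ (fun x => ψ (f x).re) (fun x => χ (f x).re) z =
      rho f z * (a * b - μ * (ψ (f z).re * χ (f z).re)) := by
  rw [qf, gr_comp hf (P := fun X => ψ X.re) (hψ.comp contDiff_re) hz,
    gr_comp hf (P := fun X => χ X.re) (hχ.comp contDiff_re) hz, gr_of_re ha, gr_of_re hb]
  have : conj (conj (deriv f z) * (a : ℂ)) * (conj (deriv f z) * (b : ℂ)) =
      ((rho f z * (a * b) : ℝ) : ℂ) := by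
    rw [map_mul, conj_conj, conj_ofReal, ofReal_mul, ← mul_conj_deriv]
    push_cast
    ring
  rw [this, ofReal_re]
  ring

end Crest.Agent.R101.WaveAux
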