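import Crest.Agent.R101.Form
import Crest.Agent.R101.WaveAux

/-!
Row 101: plane waves, Dirichlet Poincaré inequality (Filonov), Poincaré on the test class.
-/

set_option autoImplicit false
open Complex MeasureTheory Metric Set Filter Topology
open scoped ComplexConjugate

namespace Crest.Agent.R101

open WaveAux

variable {f : ℂ → ℂ} {μ : ℝ}

theorem gr_bt (hf : Geo f) (k u0 : ℝ) {z : ℂ} (hz : z ∈ D) :
    gr (bt f k u0) z = conj (deriv f z) * ((u0 : ℂ) * bg k (f z)) := by
  rw [← gr_beta]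
  exact gr_comp hf (contDiff_beta k u0) hz

theorem adm_bt (hf : Geo f) (k u0 : ℝ) : Adm f (bt f k u0) := by
  exact adm_comp hf (contDiff_beta k u0)

theorem helm_bt (hf : Geo f) (k u0 : ℝ) : Helm f (k ^ 2) (bt f k u0) := by
  exact helm_comp hf (contDiff_beta k u0) (db_beta k u0)

/-- Filonov's plane wave argument: the Dirichlet inequality follows from the Neumann one. -/
theorem dirichlet_poin (hf : Geo f) {k : ℝ} (hk : 0 < k) (hP : Poin f (k ^ 2)) {g : ℂ → ℝ}
    (hg : ContDiff ℝ 2 g) (h0 : ∀ z, ‖z‖ = 1 → g z = 0) : 0 ≤ Q f (k ^ 2) g g := by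
  by_contra hneg
  rw [not_le] at hneg
  have hg' := adm_of_contDiff hf (hg.of_le (by norm_num : (1 : WithTop ℕ∞) ≤ 2))
  have hm : ∫ z in D, rho f z * g z ≠ 0 := fun h => hneg.not_ge (hP g hg' h)
  have key : ∀ V : ℂ → ℝ, Adm f V → Helm f (k ^ 2) V → ∃ t : ℝ,
      0 ≤ Q f (k ^ 2) V V + t ^ 2 * Q f (k ^ 2) g g ∧ (t = 0 → ∫ z in D, rho f z * V z = 0) := by
    intro V hV hH
    refine ⟨(∫ z in D, rho f z * V z) / ∫ z in D, rho f z * g z, ?_,
      fun h => (div_eq_zero_iff.1 h).resolve_right hm⟩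
    have h1 := hP _ (Adm.sub hf hV (adm_const_mul hg'
      ((∫ z in D, rho f z * V z) / ∫ z in D, rho f z * g z))) (by
        simp only [mul_sub, mul_left_comm (rho f _)]
        rw [integral_sub (int_mean hf hV) ((int_mean hf hg').const_mul _), integral_const_mul,
          div_mul_cancel₀ _ hm, sub_self])
    rwa [Q_sub_mul hf hV hg', Q_eq_zero hf hV hg' (Helm.helmC hf hV hH (fun x => (g x : ℂ))
      (contDiff_ofReal hg) fun z hz => by simp [h0 z hz]), mul_zero, sub_zero] at h1
  have cc : ContDiff ℝ 1 fun t : ℝ => Real.cos (k * t) := (contDiff_const.mul contDiff_id).cos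
  have cs : ContDiff ℝ 1 fun t : ℝ => Real.sin (k * t) := (contDiff_const.mul contDiff_id).sin
  have cxc : ContDiff ℝ 1 fun t : ℝ => t * Real.cos (k * t) := contDiff_id.mul cc
  have cxs : ContDiff ℝ 1 fun t : ℝ => t * Real.sin (k * t) := contDiff_id.mul cs
  have ac : Adm f fun x => Real.cos (k * (f x).re) := adm_comp hf (cc.comp contDiff_re)
  have as : Adm f fun x => Real.sin (k * (f x).re) := adm_comp hf (cs.comp contDiff_re)
  have axc : Adm f fun x => (f x).re * Real.cos (k * (f x).re) :=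
    adm_comp hf (cxc.comp contDiff_re)
  have axs : Adm f fun x => (f x).re * Real.sin (k * (f x).re) :=
    adm_comp hf (cxs.comp contDiff_re)
  obtain ⟨t, h1, h2⟩ := key _ ac (helm_cos hf k)
  obtain ⟨t', h1', h2'⟩ := key _ as (helm_sin hf k)
  have h3 : Q f (k ^ 2) (fun x => Real.cos (k * (f x).re)) (fun x => Real.cos (k * (f x).re)) +
      Q f (k ^ 2) (fun x => Real.sin (k * (f x).re)) (fun x => Real.sin (k * (f x).re)) = 0 := by
    rw [Q_def, Q_def, ← integral_add (int_qf hf ac ac) (int_qf hf as as)]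
    refine setIntegral_eq_zero_of_forall_eq_zero fun z hz => ?_
    rw [qf_re hf cc cc hz (hasDerivAt_cos k _) (hasDerivAt_cos k _),
      qf_re hf cs cs hz (hasDerivAt_sin k _) (hasDerivAt_sin k _)]
    ring
  have h4 : t ^ 2 + t' ^ 2 ≤ 0 := by nlinarith
  have ht : t = 0 := by nlinarith [sq_nonneg t, sq_nonneg t']
  have ht' : t' = 0 := by nlinarith [sq_nonneg t, sq_nonneg t']
  rw [ht] at h1
  rw [ht'] at h1'
  have h5 := neu_of_min hf hP ac (h2 ht) (by linarith) _ axs
  have h6 := neu_of_min hf hP as (h2' ht') (by linarith) _ axc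
  have h7 := congrArg₂ (· - ·) h6 h5
  simp only [sub_self] at h7
  rw [Q_def, Q_def, ← integral_sub (int_qf hf as axc) (int_qf hf ac axs),
    setIntegral_congr_fun measurableSet_ball (g := fun z => k * rho f z) fun z hz => by
      simp only
      rw [qf_re hf cs cxc hz (hasDerivAt_sin k _) ((hasDerivAt_id' _).mul (hasDerivAt_cos k _)),
        qf_re hf cc cxs hz (hasDerivAt_cos k _) ((hasDerivAt_id' _).mul (hasDerivAt_sin k _))]
      linear_combination k * rho f z * Real.cos_sq_add_sin_sq (k * (f z).re),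
    integral_const_mul] at h7
  exact (mul_pos hk (integral_rho_pos hf)).ne' h7

theorem tstPoin (hf : Geo f) {k : ℝ} (hk : 0 < k) (hP : Poin f (k ^ 2)) : TstPoin f (k ^ 2) := by
  rintro a ⟨ha, h0⟩ hm
  have c1 : ContDiff ℝ 2 fun z => (a z).re := contDiff_re.comp ha
  have c2 : ContDiff ℝ 2 fun z => (a z).im := contDiff_im.comp ha
  have a1 := adm_of_contDiff hf (c1.of_le (by norm_num : (1 : WithTop ℕ∞) ≤ 2))
  have a2 := adm_of_contDiff hf (c2.of_le (by norm_num : (1 : WithTop ℕ∞) ≤ 2))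
  have h1 := hP _ a1 hm
  have h2 := dirichlet_poin hf hk hP c2 h0
  have h3 := curl_zero a1.c1 a1.g2 c2 h0
  have h4 := integral_im (𝕜 := ℂ) (int_gr a1 a2)
  have i4 := (int_gr a1 a2).im
  simp only [RCLike.im_to_complex] at h4 i4
  obtain ⟨M, -, hM⟩ := exists_bound_D (ha.continuous.norm.pow 2)
  have i5 : IntegrableOn (fun z => rho f z * ‖a z‖ ^ 2) D :=
    int_rho_mul hf (ha.continuous.norm.pow 2).continuousOn hM
  have e : ∀ z, ‖db a z‖ ^ 2 = qf f (k ^ 2) (fun z => (a z).re) (fun z => (a z).re) z +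
      qf f (k ^ 2) (fun z => (a z).im) (fun z => (a z).im) z -
      2 * (conj (gr (fun z => (a z).re) z) * gr (fun z => (a z).im) z).im +
      k ^ 2 * (rho f z * ‖a z‖ ^ 2) := fun z => by
    rw [db_eq_gr_re_im (ha.differentiable (by norm_num) z), Complex.sq_norm, Complex.sq_norm]
    simp [qf, normSq_apply]
    ring
  simp only [e]
  have i1 := int_qf (μ := k ^ 2) hf a1 a1
  have i2 := int_qf (μ := k ^ 2) hf a2 a2
  rw [integral_add (by exact (i1.add i2).sub (i4.const_mul 2)) (i5.const_mul _),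
    integral_sub (by exact i1.add i2) (i4.const_mul 2), integral_add i1 i2, integral_const_mul,
    integral_const_mul, h4, h3, ← Q_def, ← Q_def]
  linarith

end Crest.Agent.R101
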