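import Crest.Agent.R101.SignC
import Crest.Agent.R101.Wave

/-!
Row 101: the contribution of the comparison solution `u₀ β ∘ f` to the trace.
-/

set_option autoImplicit false
open Complex MeasureTheory Metric Set Filter Topology Asymptotics
open scoped ComplexConjugate

namespace Crest.Agent.R101

theorem th2_small (n : ℕ) {t : ℝ} (h : t < 1 / (n + 4)) : thi2 n t = 0 ∧ tho2 n t = 0 := by
  have h4 := n4 n
  have h1 : ((n : ℝ) + 4) * t < 1 := by rwa [lt_div_iff₀ (by linarith), mul_comm] at h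
  have h2 : t ≤ 1 / 4 := h.le.trans (one_div_le_one_div_of_le (by norm_num) h4)
  refine ⟨?_, ?_⟩
  · rw [thi2, deriv2_sig_zero (Or.inl h1), mul_zero]
  · rw [tho2, deriv2_sig_zero (Or.inr (by nlinarith)), mul_zero]

theorem th2_large (n : ℕ) {t : ℝ} (h : 1 - 1 / (2 * (n + 4)) ≤ t) :
    thi2 n t = 0 ∧ tho2 n t = 0 := by
  have h4 := n4 n
  have e : ((n : ℝ) + 4) * (1 / (2 * (n + 4))) = 1 / 2 := by field_simp
  have h1 : ((n : ℝ) + 4) * (1 - t) < 1 := by nlinarith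
  have h3 : 1 / (2 * ((n : ℝ) + 4)) ≤ 1 / 8 := one_div_le_one_div_of_le (by norm_num) (by linarith)
  refine ⟨?_, ?_⟩
  · rw [thi2, deriv2_sig_zero (Or.inr (by nlinarith)), mul_zero]
  · rw [tho2, deriv2_sig_zero (Or.inl h1), mul_zero]

theorem deriv2_sig_continuous : Continuous (deriv (deriv sig)) :=
  (deriv_sig_contDiff (n := 1)).continuous_deriv (by simp)

theorem thi2_continuous (n : ℕ) : Continuous (thi2 n) :=
  continuous_const.mul (deriv2_sig_continuous.comp (continuous_const.mul continuous_id))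

theorem tho2_continuous (n : ℕ) : Continuous (tho2 n) :=
  continuous_const.mul (deriv2_sig_continuous.comp
    (continuous_const.mul (continuous_const.sub continuous_id)))

theorem hasDerivAt_mul_sing {g g' h h' : ℝ → ℝ} {δ : ℝ} (hδ : 0 < δ)
    (hg : ∀ t, HasDerivAt g (g' t) t) (h0 : ∀ t < δ, g t = 0 ∧ g' t = 0)
    (hh : ∀ t, t ≠ 0 → HasDerivAt h (h' t) t) (t : ℝ) :
    HasDerivAt (fun t => g t * h t) (g' t * h t + g t * h' t) t := by
  by_cases ht : t = 0
  · have : (fun t => g t * h t) =ᶠ[𝓝 t] fun _ => 0 := by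
      filter_upwards [Iio_mem_nhds (show t < δ by rw [ht]; exact hδ)] with x hx
      simp [(h0 x hx).1]
    have h1 := h0 t (by rw [ht]; exact hδ)
    rw [h1.1, h1.2, zero_mul, zero_mul, add_zero]
    exact (hasDerivAt_const t (0 : ℝ)).congr_of_eventuallyEq this
  · exact (hg t).fun_mul (hh t ht)

theorem continuous_mul_sing {g h : ℝ → ℝ} {δ : ℝ} (hδ : 0 < δ) (hg : Continuous g)
    (h0 : ∀ t < δ, g t = 0) (hh : ∀ t, t ≠ 0 → ContinuousAt h t) :
    Continuous (fun t => g t * h t) :=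
  (contDiff_mul_sing (m := 0) hδ (contDiff_zero.2 hg) h0 fun t ht => by
    refine contDiffAt_zero.2 ⟨{0}ᶜ, isOpen_compl_singleton.mem_nhds ht, fun x hx => ?_⟩
    exact (hh x hx).continuousWithinAt).continuous

theorem integrableOn_rad {G : ℂ → ℝ} (hG : ContinuousOn G D) {l : ℝ → ℝ} (hl : Continuous l)
    {b : ℝ} (hb : b < 1) (h0 : ∀ t, b ≤ t → l t = 0) :
    IntegrableOn (fun z : ℂ => G z * l (‖z‖ ^ 2)) D := by
  obtain ⟨R, hR, hRb⟩ := exists_radius hb
  exact integrableOn_of_supp (hG.mul (hl.comp (continuous_norm.pow 2)).continuousOn) hR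
    fun z hz => by simp [h0 _ (hRb z hz.le)]

theorem continuousOn_rd {V : ℂ → ℝ} (hV : ContDiffOn ℝ 1 V D) : ContinuousOn (rd V) D :=
  hV.continuousOn.mul (continuous_re.comp_continuousOn
    ((continuous_conj.comp_continuousOn (continuousOn_gr isOpen_ball hV)).mul
      (Continuous.continuousOn (by fun_prop))))

theorem rd_mul (V : ℂ → ℝ) (c : ℝ) (z : ℂ) :
    V z * (conj (gr V z) * (2 * (c : ℂ) * z)).re = rd V z * c := by
  simp [rd]; ring

theorem contDiff_one_of_hasDerivAt {l l' : ℝ → ℝ} (hl : ∀ t, HasDerivAt l (l' t) t)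
    (hl' : Continuous l') : ContDiff ℝ 1 l := by
  rw [contDiff_one_iff_deriv]
  refine ⟨fun t => (hl t).differentiableAt, ?_⟩
  rw [show deriv l = l' from funext fun t => (hl t).deriv]; exact hl'

theorem abs_beta_le (k : ℝ) (X : ℂ) : |beta k X| ≤ 1 := by
  have a1 := Real.abs_cos_le_one (k * X.re)
  have a2 := Real.abs_cos_le_one (k * X.im)
  rw [abs_le] at *
  simp only [beta]; constructor <;> linarith

theorem normSq_bg (k : ℝ) (X : ℂ) : ‖bg k X‖ ^ 2 = -(k ^ 2 / 2) * (beta k X ^ 2 - 1)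
    - k ^ 2 / 8 * (Real.cos (k * X.re) - Real.cos (k * X.im)) ^ 2 := by
  have s1 := Real.sin_sq_add_cos_sq (k * X.re)
  have s2 := Real.sin_sq_add_cos_sq (k * X.im)
  simp only [bg, beta]
  generalize Real.sin (k * X.re) = a at *
  generalize Real.sin (k * X.im) = b at *
  rw [Complex.sq_norm, normSq_apply]
  simp
  linear_combination (k ^ 2 / 4) * s1 + (k ^ 2 / 4) * s2

theorem beta_bound (k : ℝ) {X : ℂ} (h : |k| * ‖X‖ ≤ 1) :
    |beta k X - 1 + k ^ 2 * ‖X‖ ^ 2 / 4| ≤ (|k| * ‖X‖) ^ 4 := by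
  have a1 : |k * X.re| ≤ |k| * ‖X‖ := by
    rw [abs_mul]; exact mul_le_mul_of_nonneg_left (abs_re_le_norm X) (abs_nonneg _)
  have a2 : |k * X.im| ≤ |k| * ‖X‖ := by
    rw [abs_mul]; exact mul_le_mul_of_nonneg_left (abs_im_le_norm X) (abs_nonneg _)
  have b1 := Real.cos_bound (a1.trans h)
  have b2 := Real.cos_bound (a2.trans h)
  have c1 := pow_le_pow_left₀ (abs_nonneg _) a1 4
  have c2 := pow_le_pow_left₀ (abs_nonneg _) a2 4
  have e : ‖X‖ ^ 2 = X.re ^ 2 + X.im ^ 2 := by rw [Complex.sq_norm, normSq_apply]; ring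
  have p : 0 ≤ (|k| * ‖X‖) ^ 4 := by positivity
  rw [abs_le] at b1 b2 ⊢
  simp only [beta, e]
  constructor <;> nlinarith

theorem differentiable_beta (k : ℝ) : Differentiable ℝ (beta k) := by
  have hr : Differentiable ℝ (fun x : ℂ => x.re) := reCLM.differentiable
  have hi : Differentiable ℝ (fun x : ℂ => x.im) := imCLM.differentiable
  unfold beta
  fun_prop

/-- `(β² - 1) ν` is Lipschitz at the origin. -/
theorem gamnu_near {f : ℂ → ℂ} (hf : Geo f) (k : ℝ) : ∃ c0 C r : ℝ, 0 < r ∧ 0 ≤ C ∧ ∀ z : ℂ,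
    z ≠ 0 → ‖z‖ < r → |(beta k (f z) ^ 2 - 1) * nu (‖z‖ ^ 2) - c0| ≤ C * ‖z‖ := by
  have h0 : D ∈ 𝓝 (0 : ℂ) := ball_mem_nhds _ one_pos
  set g := dslope f 0 with hg
  have hgd : DifferentiableAt ℂ g 0 :=
    ((Complex.differentiableOn_dslope h0).2 hf.holo).differentiableAt h0
  have hfg : ∀ z, f z = z * g z := fun z => by
    have := sub_smul_dslope f 0 z
    simp only [sub_zero, smul_eq_mul, hf.zero] at this
    exact this.symm
  have hfd : DifferentiableAt ℝ f 0 := (hf.holo.differentiableAt h0).restrictScalars ℝ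
  set P : ℂ → ℝ := fun z => (beta k (f z) + 1) * (1 - ‖z‖ ^ 2) ^ 2 / 2 with hP
  have hPd : DifferentiableAt ℝ P 0 := by
    have d1 : DifferentiableAt ℝ (fun z => beta k (f z)) 0 := (differentiable_beta k _).comp 0 hfd
    have d2 : DifferentiableAt ℝ (fun z : ℂ => ‖z‖ ^ 2) 0 :=
      (contDiff_normSq (n := 1)).differentiable (by simp) 0
    have d3 : DifferentiableAt ℝ (fun z => (beta k (f z) + 1) * (1 - ‖z‖ ^ 2) ^ 2) 0 :=
      (d1.add_const 1).fun_mul ((d2.const_sub 1).fun_pow 2)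
    simpa only [hP, div_eq_mul_inv] using d3.mul_const (2 : ℝ)⁻¹
  set H : ℂ → ℝ := fun z => -(k ^ 2 / 4) * ‖g z‖ ^ 2 * P z with hH
  have hHd : DifferentiableAt ℝ H 0 :=
    (((hgd.restrictScalars ℝ).norm_sq ℝ).const_mul _).mul hPd
  obtain ⟨C1, hC1, h1⟩ := hHd.isBigO_sub.exists_pos
  have h2 : ∀ᶠ z in 𝓝 (0 : ℂ), ‖g z‖ < ‖g 0‖ + 1 :=
    hgd.continuousAt.norm.eventually_lt continuousAt_const (by linarith)
  have h3 : ∀ᶠ z in 𝓝 (0 : ℂ), |k| * ‖f z‖ < 1 :=
    (continuousAt_const.mul hfd.continuousAt.norm).eventually_lt continuousAt_const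
      (by simp [hf.zero])
  obtain ⟨r, hr, hz⟩ := Metric.eventually_nhds_iff.1 (h1.bound.and (h2.and (h3.and h0)))
  refine ⟨H 0, C1 + (|k| * (‖g 0‖ + 1)) ^ 4, r, hr, by positivity, fun z hz0 hzr => ?_⟩
  obtain ⟨a1, a2, a3, a4⟩ := hz (show dist z 0 < r by simpa using hzr)
  have hz1 : ‖z‖ < 1 := mem_D.1 a4
  have hn : 0 < ‖z‖ := norm_pos_iff.2 hz0
  have ht : 0 < ‖z‖ ^ 2 := by positivity
  have b1 := beta_bound k a3.le
  have e1 : ‖f z‖ = ‖z‖ * ‖g z‖ := by rw [hfg z, norm_mul]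
  have e : (beta k (f z) ^ 2 - 1) * nu (‖z‖ ^ 2) - H 0 = (H z - H 0)
      + (beta k (f z) - 1 + k ^ 2 * ‖f z‖ ^ 2 / 4) * (‖z‖ ^ 2)⁻¹ * P z := by
    simp only [nu_eq ht.ne', e1]
    rw [show H z = -(k ^ 2 / 4) * ‖g z‖ ^ 2 * ((beta k (f z) + 1) * (1 - ‖z‖ ^ 2) ^ 2 / 2) from rfl,
      show P z = (beta k (f z) + 1) * (1 - ‖z‖ ^ 2) ^ 2 / 2 from rfl]
    field_simp
    ring
  have hPb : |P z| ≤ 1 := by
    have := abs_le.1 (abs_beta_le k (f z))
    have t1 := normSq_lt_one a4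
    have t2 : (1 - ‖z‖ ^ 2) ^ 2 ≤ 1 := by nlinarith
    have t3 : 0 ≤ (1 - ‖z‖ ^ 2) ^ 2 := sq_nonneg _
    rw [abs_le]; simp only [hP]; constructor <;> nlinarith
  rw [e, add_mul C1]
  refine (abs_add_le _ _).trans (add_le_add (by simpa using a1) ?_)
  rw [abs_mul, abs_mul, abs_of_pos (inv_pos.2 ht)]
  calc _ ≤ (|k| * ‖f z‖) ^ 4 * (‖z‖ ^ 2)⁻¹ * 1 := by gcongr
    _ = (|k| * ‖g z‖) ^ 4 * ‖z‖ * ‖z‖ := by rw [e1]; field_simp
    _ ≤ (|k| * (‖g 0‖ + 1)) ^ 4 * ‖z‖ * 1 := by gcongr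
    _ = _ := mul_one _

/-- The error terms coming from the cut-off tend to zero. -/
theorem err_tendsto {f : ℂ → ℂ} (hf : Geo f) (k : ℝ) :
    Tendsto (fun n : ℕ => ∫ z in D, (beta k (f z) ^ 2 - 1) * ((‖z‖ ^ 2 * (thi2 n (‖z‖ ^ 2)
      + tho2 n (‖z‖ ^ 2)) + (thi1 n (‖z‖ ^ 2) + tho1 n (‖z‖ ^ 2))) * nu (‖z‖ ^ 2))) atTop (𝓝 0) := by
  obtain ⟨c0, C, r, hr, hC0, hC⟩ := gamnu_near hf k
  obtain ⟨K, hK0, hK⟩ := exists_thi_bound
  have hγ : ContinuousOn (fun z => beta k (f z) ^ 2 - 1) D :=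
    (((differentiable_beta k).continuous.comp_continuousOn hf.holo.continuousOn).pow 2).sub
      continuousOn_const
  have ci1 := fun n => (thi1_contDiff n (m := 0)).continuous
  have co1 := fun n => (tho1_contDiff n (m := 0)).continuous
  have ci2 := thi2_continuous
  have co2 := tho2_continuous
  set lE : ℕ → ℝ → ℝ := fun n t =>
    (t * (thi2 n t + tho2 n t) + (thi1 n t + tho1 n t)) * nu t with hlE
  have cE : ∀ n, Continuous (lE n) := fun n =>
    continuous_mul_sing (δ := 1 / (n + 4)) (by positivity)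
      ((continuous_id.mul ((ci2 n).add (co2 n))).add ((ci1 n).add (co1 n)))
      (fun t ht => by simp [th_small n ht, th2_small n ht])
      fun t ht => (nu_hasDerivAt ht).continuousAt
  have iE : ∀ n, IntegrableOn (fun z => (beta k (f z) ^ 2 - 1) * lE n (‖z‖ ^ 2)) D := fun n =>
    integrableOn_rad hγ (cE n) (large_lt_one n)
      fun t ht => by simp [hlE, th_large n ht, th2_large n ht]
  have iI : ∀ n, IntegrableOn (fun z : ℂ => ‖z‖ ^ 2 * thi2 n (‖z‖ ^ 2) + thi1 n (‖z‖ ^ 2)) D :=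
    fun n => integrableOn_D_of_continuous (by have := ci1 n; have := ci2 n; fun_prop)
  have zI : ∀ n, ∫ z in D, (‖z‖ ^ 2 * thi2 n (‖z‖ ^ 2) + thi1 n (‖z‖ ^ 2)) = 0 := fun n => by
    have h := rad (E := fun _ => 1) contDiffOn_const (thi1_contDiff n (m := 1)) (large_lt_one n)
      fun t ht => (th_large n ht).2.1
    simp only [gr_const, map_zero, zero_mul, zero_re, integral_zero, one_mul,
      (thi1_hasDerivAt n _).deriv, integral_const_mul] at h
    linarith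
  have e : ∀ n, ∫ z in D, (beta k (f z) ^ 2 - 1) * lE n (‖z‖ ^ 2)
      = ∫ z in D, ((beta k (f z) ^ 2 - 1) * lE n (‖z‖ ^ 2)
        - c0 * (‖z‖ ^ 2 * thi2 n (‖z‖ ^ 2) + thi1 n (‖z‖ ^ 2))) := fun n => by
    rw [integral_sub (iE n) ((iI n).const_mul c0), integral_const_mul, zI, mul_zero, sub_zero]
  change Tendsto (fun n : ℕ => ∫ z in D, (beta k (f z) ^ 2 - 1) * lE n (‖z‖ ^ 2)) atTop (𝓝 0)
  simp only [e]
  have : (0 : ℝ) = ∫ z in D, (0 : ℝ) := by simp
  rw [this]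
  refine tendsto_integral_filter_of_dominated_convergence (fun z => 2 * C * K * ‖z‖⁻¹ + 2 * K)
    (Eventually.of_forall fun n => ((iE n).sub ((iI n).const_mul c0)).aestronglyMeasurable) ?_
    (((integrableOn_inv_norm 1).const_mul _).add (integrable_const _)) ?_
  · filter_upwards [eventually_two_lt' (show 0 < r ^ 2 by positivity)] with n hn
    filter_upwards [ae_ne_zero_D] with z ⟨hz, hz0⟩
    have hzn : 0 < ‖z‖ := norm_pos_iff.2 hz0
    have ht : 0 < ‖z‖ ^ 2 := by positivity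
    have ht1 := normSq_lt_one hz
    have e1 : (beta k (f z) ^ 2 - 1) * lE n (‖z‖ ^ 2)
        - c0 * (‖z‖ ^ 2 * thi2 n (‖z‖ ^ 2) + thi1 n (‖z‖ ^ 2))
        = ((beta k (f z) ^ 2 - 1) * nu (‖z‖ ^ 2) - c0)
            * (‖z‖ ^ 2 * thi2 n (‖z‖ ^ 2) + thi1 n (‖z‖ ^ 2))
          + (beta k (f z) ^ 2 - 1) * (nu (‖z‖ ^ 2)
            * (‖z‖ ^ 2 * tho2 n (‖z‖ ^ 2) + tho1 n (‖z‖ ^ 2))) := by
      simp only [hlE]; ring
    rw [e1, Real.norm_eq_abs]
    refine (abs_add_le _ _).trans (add_le_add ?_ ?_)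
    · rcases lt_or_ge ‖z‖ r with h | h
      · obtain ⟨b0, b1, b2⟩ := hK n _ ht.le
        have b3 : |‖z‖ ^ 2 * thi2 n (‖z‖ ^ 2) + thi1 n (‖z‖ ^ 2)| ≤ 2 * K * (‖z‖ ^ 2)⁻¹ := by
          rw [le_mul_inv_iff₀ ht]
          have := abs_add_le (‖z‖ ^ 2 * thi2 n (‖z‖ ^ 2)) (thi1 n (‖z‖ ^ 2))
          rw [abs_mul, abs_of_pos ht, abs_of_nonneg b0] at this
          nlinarith [mul_le_mul_of_nonneg_right this ht.le]
        rw [abs_mul]
        calc _ ≤ C * ‖z‖ * (2 * K * (‖z‖ ^ 2)⁻¹) :=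
              mul_le_mul (hC z hz0 h) b3 (abs_nonneg _) (by positivity)
          _ = _ := by field_simp
      · have : 2 < ((n : ℝ) + 4) * ‖z‖ ^ 2 :=
          hn.trans_le (mul_le_mul_of_nonneg_left (by gcongr) (by linarith [n4 n]))
        simp only [thi1, thi2, deriv_sig_zero (Or.inr this), deriv2_sig_zero (Or.inr this)]
        simp; positivity
    · generalize ‖z‖ ^ 2 = t at ht ht1
      have g1 : |beta k (f z) ^ 2 - 1| ≤ 1 := by
        have := abs_le.1 (abs_beta_le k (f z))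
        rw [abs_le]; constructor <;> nlinarith
      have g2 : |nu t * (t * tho2 n t + tho1 n t)| ≤ 2 * K := by
        rcases lt_or_ge t (1 / 2) with h | h
        · have : 2 < ((n : ℝ) + 4) * (1 - t) := by nlinarith [n4 n]
          simp only [tho1, tho2, deriv_sig_zero (Or.inr this), deriv2_sig_zero (Or.inr this)]
          simp; positivity
        · obtain ⟨b0, b1, b2⟩ := hK n (1 - t) (by linarith)
          have e2 : tho2 n t = thi2 n (1 - t) := rfl
          have e3 : tho1 n t = -thi1 n (1 - t) := by simp only [tho1, thi1]; ring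
          have hν : nu t ≤ (1 - t) ^ 2 := by
            rw [nu_eq ht.ne']; exact div_le_self (sq_nonneg _) (by linarith)
          have b3 := abs_sub (t * thi2 n (1 - t)) (thi1 n (1 - t))
          rw [abs_mul, abs_of_pos ht, abs_of_nonneg b0] at b3
          rw [abs_mul, abs_of_nonneg (nu_nonneg ht), e2, e3, ← sub_eq_add_neg]
          refine (mul_le_mul hν b3 (abs_nonneg _) (sq_nonneg _)).trans ?_
          have p1 : 0 ≤ (1 - t) ^ 2 * |thi2 n (1 - t)| := by positivity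
          have p2 : 0 ≤ (1 - t) * thi1 n (1 - t) := mul_nonneg (by linarith) b0
          nlinarith
      rw [abs_mul]
      calc _ ≤ 1 * (2 * K) := mul_le_mul g1 g2 (abs_nonneg _) zero_le_one
        _ = _ := one_mul _
  · filter_upwards [ae_ne_zero_D] with z ⟨hz, hz0⟩
    refine tendsto_const_nhds.congr' ?_
    filter_upwards [eventually_th (show 0 < ‖z‖ ^ 2 by positivity) (normSq_lt_one hz)] with n hn
    simp [hlE, hn]

/-- The part of the trace density coming from `u₀ β`. -/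
noncomputable def tb (f : ℂ → ℂ) (k u0 : ℝ) (z : ℂ) : ℝ :=
  -k ^ 2 * (nu (‖z‖ ^ 2) * qd f (k ^ 2) (bt f k u0) z)
    + 4 * (‖z‖ ^ 2 * nu2 (‖z‖ ^ 2) + nu1 (‖z‖ ^ 2)) * ‖(u0 : ℂ) * bg k (f z)‖ ^ 2
    - 2 * k ^ 2 * (rd (bt f k u0) z * nu1 (‖z‖ ^ 2))

/-- `(cos kx - cos ky)²`. -/
noncomputable def cc (f : ℂ → ℂ) (k : ℝ) (z : ℂ) : ℝ :=
  (Real.cos (k * (f z).re) - Real.cos (k * (f z).im)) ^ 2

theorem continuousOn_cc {f : ℂ → ℂ} (hf : Geo f) (k : ℝ) : ContinuousOn (cc f k) D :=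
  Continuous.comp_continuousOn (g := fun X : ℂ => (Real.cos (k * X.re) - Real.cos (k * X.im)) ^ 2)
    (by fun_prop) hf.holo.continuousOn

theorem beta_step {f : ℂ → ℂ} (hf : Geo f) (k u0 : ℝ) {m n : ℕ} (hmn : m ≤ n) :
    ∫ z in D, th n (‖z‖ ^ 2) * tb f k u0 z ≤
      -(2 * k ^ 2 * u0 ^ 2) * (∫ z in D, (beta k (f z) ^ 2 - 1) * ((‖z‖ ^ 2 * (thi2 n (‖z‖ ^ 2)
        + tho2 n (‖z‖ ^ 2)) + (thi1 n (‖z‖ ^ 2) + tho1 n (‖z‖ ^ 2))) * nu (‖z‖ ^ 2)))
      - k ^ 2 * u0 ^ 2 / 4 * ∫ z in D, th m (‖z‖ ^ 2) * cc f k z := by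
  have hb := adm_bt hf k u0
  have hδ : (0 : ℝ) < 1 / (n + 4) := by positivity
  have hl := large_lt_one n
  have hβ : ContinuousOn (fun z => beta k (f z)) D :=
    (differentiable_beta k).continuous.comp_continuousOn hf.holo.continuousOn
  have hB : ContinuousOn (fun z => ‖(u0 : ℂ) * bg k (f z)‖ ^ 2) D :=
    Continuous.comp_continuousOn (g := fun X : ℂ => ‖(u0 : ℂ) * bg k X‖ ^ 2)
      (by unfold bg; fun_prop) hf.holo.continuousOn
  have c0 := (th_contDiff n (m := 0)).continuous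
  have ci1 := (thi1_contDiff n (m := 0)).continuous
  have co1 := (tho1_contDiff n (m := 0)).continuous
  have ci2 := thi2_continuous n
  have co2 := tho2_continuous n
  have cn : ∀ t, t ≠ 0 → ContinuousAt nu t := fun t ht => (nu_hasDerivAt ht).continuousAt
  have cn1 : ∀ t, t ≠ 0 → ContinuousAt nu1 t := fun t ht => (nu1_hasDerivAt ht).continuousAt
  have cn2 : ∀ t, t ≠ 0 → ContinuousAt nu2 t := fun t ht =>
    (continuousAt_id.pow 3).inv₀ (pow_ne_zero 3 ht)
  have cG : Continuous fun t => th n t * nu t :=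
    continuous_mul_sing hδ c0 (fun t ht => (th_small n ht).1) cn
  have cW : Continuous fun t => th n t * nu1 t :=
    continuous_mul_sing hδ c0 (fun t ht => (th_small n ht).1) cn1
  have cW2 : Continuous fun t => th n t * nu2 t :=
    continuous_mul_sing hδ c0 (fun t ht => (th_small n ht).1) cn2
  have cA : Continuous fun t => (thi1 n t + tho1 n t) * nu t :=
    continuous_mul_sing hδ (ci1.add co1) (fun t ht => by simp [th_small n ht]) cn
  have cA2 : Continuous fun t => (thi2 n t + tho2 n t) * nu t :=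
    continuous_mul_sing hδ (ci2.add co2) (fun t ht => by simp [th2_small n ht]) cn
  have dG := hasDerivAt_mul_sing hδ (th_hasDerivAt n) (fun t ht => by simp [th_small n ht])
    fun t ht => nu_hasDerivAt ht
  have dW := hasDerivAt_mul_sing hδ (th_hasDerivAt n) (fun t ht => by simp [th_small n ht])
    fun t ht => nu1_hasDerivAt ht
  have dA := hasDerivAt_mul_sing hδ
    (fun t => (thi1_hasDerivAt n t).fun_add (tho1_hasDerivAt n t))
    (fun t ht => by simp [th_small n ht, th2_small n ht]) fun t ht => nu_hasDerivAt ht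
  have dL : ∀ t, HasDerivAt (fun t => (thi1 n t + tho1 n t) * nu t - th n t * nu1 t)
      ((thi2 n t + tho2 n t) * nu t - th n t * nu2 t) t := fun t =>
    ((dA t).fun_sub (dW t)).congr_deriv (by ring)
  have h1 := helm_radial hf hb.c1 (helm_bt hf k u0) dG (cA.add cW) hl
    (fun t ht => by simp [th_large n ht]) (fun t ht => by simp [th_large n ht])
  have h2 := rad_sq hb.c1 (u0 ^ 2) (contDiff_one_of_hasDerivAt dL (cA2.sub cW2)) hl
    (fun t ht => by simp [th_large n ht])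
  simp only [rd_mul, (dL _).deriv] at h1 h2
  have i1 : IntegrableOn (fun z : ℂ => qd f (k ^ 2) (bt f k u0) z
      * (th n (‖z‖ ^ 2) * nu (‖z‖ ^ 2))) D :=
    integrableOn_rad (continuousOn_qd hf _ hb.c1) cG hl fun t ht => by simp [th_large n ht]
  have i2 : IntegrableOn (fun z : ℂ => rd (bt f k u0) z * (th n (‖z‖ ^ 2) * nu1 (‖z‖ ^ 2))) D :=
    integrableOn_rad (continuousOn_rd hb.c1) cW hl fun t ht => by simp [th_large n ht]
  have i3 : IntegrableOn (fun z : ℂ => rd (bt f k u0) z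
      * ((thi1 n (‖z‖ ^ 2) + tho1 n (‖z‖ ^ 2)) * nu (‖z‖ ^ 2))) D :=
    integrableOn_rad (continuousOn_rd hb.c1) cA hl fun t ht => by simp [th_large n ht]
  have i4 : IntegrableOn (fun z : ℂ => ‖(u0 : ℂ) * bg k (f z)‖ ^ 2
      * (4 * (‖z‖ ^ 2 * (th n (‖z‖ ^ 2) * nu2 (‖z‖ ^ 2)) + th n (‖z‖ ^ 2) * nu1 (‖z‖ ^ 2)))) D :=
    integrableOn_rad (l := fun t => 4 * (t * (th n t * nu2 t) + th n t * nu1 t)) hB
      (continuous_const.mul ((continuous_id.mul cW2).add cW)) hl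
      fun t ht => by simp [th_large n ht]
  have i5 : IntegrableOn (fun z : ℂ => (bt f k u0 z ^ 2 - u0 ^ 2) * (2 * (‖z‖ ^ 2 *
      ((thi2 n (‖z‖ ^ 2) + tho2 n (‖z‖ ^ 2)) * nu (‖z‖ ^ 2) - th n (‖z‖ ^ 2) * nu2 (‖z‖ ^ 2))
      + ((thi1 n (‖z‖ ^ 2) + tho1 n (‖z‖ ^ 2)) * nu (‖z‖ ^ 2)
        - th n (‖z‖ ^ 2) * nu1 (‖z‖ ^ 2))))) D :=
    integrableOn_rad (l := fun t => 2 * (t * ((thi2 n t + tho2 n t) * nu t - th n t * nu2 t)
      + ((thi1 n t + tho1 n t) * nu t - th n t * nu1 t)))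
      ((hb.c1.continuousOn.pow 2).sub continuousOn_const)
      (continuous_const.mul ((continuous_id.mul (cA2.sub cW2)).add (cA.sub cW))) hl
      fun t ht => by simp [th_large n ht, th2_large n ht]
  have i6 : IntegrableOn (fun z : ℂ => (beta k (f z) ^ 2 - 1) * ((‖z‖ ^ 2 * (thi2 n (‖z‖ ^ 2)
      + tho2 n (‖z‖ ^ 2)) + (thi1 n (‖z‖ ^ 2) + tho1 n (‖z‖ ^ 2))) * nu (‖z‖ ^ 2))) D :=
    integrableOn_rad (l := fun t => (t * (thi2 n t + tho2 n t) + (thi1 n t + tho1 n t)) * nu t)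
      ((hβ.pow 2).sub continuousOn_const)
      (((continuous_id.mul cA2).add cA).congr fun t => by simp; ring) hl
      fun t ht => by simp [th_large n ht, th2_large n ht]
  have i7 := integrableOn_th_mul (continuousOn_cc hf k) m
  have e1 : ∫ z in D, th n (‖z‖ ^ 2) * tb f k u0 z
      = ∫ z in D, (-k ^ 2 * (qd f (k ^ 2) (bt f k u0) z * (th n (‖z‖ ^ 2) * nu (‖z‖ ^ 2)))
        + ‖(u0 : ℂ) * bg k (f z)‖ ^ 2 * (4 * (‖z‖ ^ 2 * (th n (‖z‖ ^ 2) * nu2 (‖z‖ ^ 2))
          + th n (‖z‖ ^ 2) * nu1 (‖z‖ ^ 2)))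
        - 2 * k ^ 2 * (rd (bt f k u0) z * (th n (‖z‖ ^ 2) * nu1 (‖z‖ ^ 2)))) := by
    congr 1; funext z; simp only [tb]; ring
  rw [integral_sub ((i1.const_mul _).fun_add i4) (i2.const_mul _), integral_add (i1.const_mul _) i4,
    integral_const_mul, integral_const_mul] at e1
  simp only [mul_add (rd _ _), mul_sub (rd _ _), mul_comm (th n _ * nu _)] at h1 h2
  rw [integral_add i3 i2] at h1
  rw [integral_sub i3 i2] at h2
  have h3 := integral_mono_ae ((i5.const_mul (-k ^ 2)).add i4)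
    ((i6.const_mul (-(2 * k ^ 2 * u0 ^ 2))).sub (i7.const_mul (k ^ 2 * u0 ^ 2 / 4))) (by
      filter_upwards [ae_ne_zero_D] with z ⟨hz, hz0⟩
      have ht : 0 < ‖z‖ ^ 2 := by positivity
      have ht1 := normSq_lt_one hz
      simp only [Pi.add_apply, Pi.sub_apply]
      generalize ‖z‖ ^ 2 = t at ht ht1
      rw [norm_mul, mul_pow, normSq_bg, Complex.norm_real, Real.norm_eq_abs, sq_abs]
      have a1 : th m t ≤ th n t := th_mono hmn ht.le ht1.le
      have a2 : 2 * th m t ≤ 4 * (t * (th n t * nu2 t) + th n t * nu1 t) := by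
        have l := nu_lap ht.ne'
        have : 0 ≤ (t ^ 2)⁻¹ := by positivity
        nlinarith [th_nonneg n t]
      have a3 := mul_le_mul_of_nonneg_left a2
        (show 0 ≤ k ^ 2 * u0 ^ 2 / 8 * cc f k z by unfold cc; positivity)
      simp only [bt, cc] at a3 ⊢
      nlinarith)
  simp only [Pi.add_apply, Pi.sub_apply] at h3
  rw [integral_add (i5.const_mul _) i4, integral_sub (i6.const_mul _) (i7.const_mul _),
    integral_const_mul, integral_const_mul, integral_const_mul] at h3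
  rw [e1, h1]
  linear_combination h3 + k ^ 2 * h2

theorem beta_part {f : ℂ → ℂ} (hf : Geo f) (k u0 : ℝ) (hint : IntegrableOn (tb f k u0) D) (m : ℕ) :
    ∫ z in D, tb f k u0 z ≤ -(k ^ 2 * u0 ^ 2 / 4 * ∫ z in D, th m (‖z‖ ^ 2) * cc f k z) := by
  have hL : Tendsto (fun n : ℕ => ∫ z in D, th n (‖z‖ ^ 2) * tb f k u0 z) atTop
      (𝓝 (∫ z in D, tb f k u0 z)) := by
    refine tendsto_integral_of_dominated_convergence _ (fun n => ?_) hint.norm
      (fun n => Eventually.of_forall fun z => ?_) ?_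
    · exact ((th_contDiff n (m := 0)).continuous.comp
        (continuous_norm.pow 2)).aestronglyMeasurable.mul hint.aestronglyMeasurable
    · rw [norm_mul, Real.norm_of_nonneg (th_nonneg _ _)]
      exact mul_le_of_le_one_left (norm_nonneg _) (th_le_one _ _)
    · filter_upwards [ae_ne_zero_D] with z ⟨hz, hz0⟩
      refine tendsto_const_nhds.congr' ?_
      filter_upwards [eventually_th (show 0 < ‖z‖ ^ 2 by positivity) (normSq_lt_one hz)] with n hn
      rw [hn.1, one_mul]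
  have hR := ((err_tendsto hf k).const_mul (-(2 * k ^ 2 * u0 ^ 2))).sub_const
    (k ^ 2 * u0 ^ 2 / 4 * ∫ z in D, th m (‖z‖ ^ 2) * cc f k z)
  rw [mul_zero, zero_sub] at hR
  refine le_of_tendsto_of_tendsto hL hR ?_
  filter_upwards [eventually_ge_atTop m] with n hn using beta_step hf k u0 hn

end Crest.Agent.R101
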