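import Crest.Agent.R101.Field
import Crest.Agent.R101.SignB

/-!
Row 101: the trace of the Hodge form on the two test fields is negative.
-/

set_option autoImplicit false
open Complex MeasureTheory Metric Set Filter Topology
open scoped ComplexConjugate

namespace Crest.Agent.R101

variable {f : ℂ → ℂ} {k : ℝ} {U : ℂ → ℝ}

theorem trace_pointwise (hf : Geo f) (hU : Adm f U) {z : ℂ} (hz : z ∈ D) (hz0 : z ≠ 0) :
    rho f z * ‖Af f k U (1 / 2) z‖ ^ 2 + rho f z * ‖Af f k U (I / 2) z‖ ^ 2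
      - k ^ 2 * ‖Wf f k U (1 / 2) z‖ ^ 2 - k ^ 2 * ‖Wf f k U (I / 2) z‖ ^ 2
    = -k ^ 2 * qd f (k ^ 2) U z
      - k ^ 2 * (nu (‖z‖ ^ 2) * qd f (k ^ 2) (fun x => U x - bt f k (U 0) x) z)
      + tb f k (U 0) z := by
  have hb := adm_bt hf k (U 0)
  have h := trace_alg (z := z) (p := deriv f z) (B := (U 0 : ℂ) * bg k (f z))
    (g := gr (fun x => U x - bt f k (U 0) x) z) (w := U z - bt f k (U 0) z) (b := bt f k (U 0) z)
    (μ := k ^ 2) hz0 (hf.ne z hz)
  have e : gr U z = gr (fun x => U x - bt f k (U 0) x) z + gr (bt f k (U 0)) z := by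
    rw [gr_sub (hU.diffAt hz) (hb.diffAt hz)]; ring
  simp only [rho, Af, Wf, qd, tb, rd, e, gr_bt hf k (U 0) hz]
  rw [h, sub_add_cancel]

theorem exists_pos_point (hf : Geo f) (hk : 0 < k) (hnz : ∃ z ∈ D, U z ≠ 0) :
    ∃ z ∈ D, z ≠ 0 ∧ 0 < (U z - bt f k (U 0) z) ^ 2 + U 0 ^ 2 / 4 * cc f k z := by
  by_cases h0 : U 0 = 0
  · obtain ⟨z, hz, h⟩ := hnz
    refine ⟨z, hz, fun hz0 => h (hz0 ▸ h0), ?_⟩
    simp only [bt, h0]
    simp; positivity
  · have hD : D ∈ 𝓝 (0 : ℂ) := ball_mem_nhds _ one_pos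
    have hs : HasStrictDerivAt f (deriv f 0) 0 :=
      ((hf.holo.analyticAt hD).contDiffAt (n := 1)).hasStrictDerivAt (by simp)
    have hm := hs.map_nhds_eq (hf.ne 0 (mem_of_mem_nhds hD))
    have him : f '' D ∈ 𝓝 (0 : ℂ) := by
      have := image_mem_map (m := f) hD
      rwa [hm, hf.zero] at this
    obtain ⟨ε, hε, hball⟩ := Metric.mem_nhds_iff.1 him
    set s : ℝ := min (ε / 2) (1 / k) with hs'
    have s0 : 0 < s := lt_min (by linarith) (by positivity)
    have s1 : s < ε := (min_le_left _ _).trans_lt (by linarith)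
    have s2 : k * s ≤ 1 := by
      have := min_le_right (ε / 2) (1 / k)
      rwa [le_div_iff₀ hk, mul_comm] at this
    obtain ⟨z, hz, hfz⟩ := hball (show (s : ℂ) ∈ ball (0 : ℂ) ε by simpa [abs_of_pos s0] using s1)
    refine ⟨z, hz, fun hz0 => ?_, ?_⟩
    · rw [hz0, hf.zero] at hfz
      exact s0.ne (by exact_mod_cast hfz)
    · have hc : Real.cos (k * s) ≠ 1 := by
        rw [Ne, Real.cos_eq_one_iff_of_lt_of_lt]
        · positivity
        · nlinarith [Real.pi_pos, mul_pos hk s0]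
        · linarith [Real.pi_gt_three]
      have : 0 < cc f k z := by
        simp only [cc, hfz, ofReal_re, ofReal_im, mul_zero, Real.cos_zero]
        exact sq_pos_iff.2 (sub_ne_zero.2 hc)
      positivity

theorem trace_neg (hf : Geo f) (hk : 0 < k) (hU : Adm f U) (hN : Neu f (k ^ 2) U)
    (hfl : Flat (fun x => U x - bt f k (U 0) x)) (hnz : ∃ z ∈ D, U z ≠ 0) :
    (∫ z in D, rho f z * ‖Af f k U (1 / 2) z‖ ^ 2) + (∫ z in D, rho f z * ‖Af f k U (I / 2) z‖ ^ 2)
      < k ^ 2 * (∫ z in D, ‖Wf f k U (1 / 2) z‖ ^ 2)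
        + k ^ 2 * ∫ z in D, ‖Wf f k U (I / 2) z‖ ^ 2 := by
  have hb := adm_bt hf k (U 0)
  have hw := hU.sub hf hb
  have hH := (hN.helm hf).sub hf hU hb (helm_bt hf k (U 0))
  have iA := integrableOn_Af hf hU hfl
  have iW : ∀ α, IntegrableOn (fun z => ‖Wf f k U α z‖ ^ 2) D := fun α =>
    (memLp_two_iff_integrable_sq_norm (memLp_Wf hf hU hfl α).1).1 (memLp_Wf hf hU hfl α)
  have eq : qd f (k ^ 2) U = fun z =>
      (conj (gr U z) * gr U z).re - k ^ 2 * rho f z * (U z * U z) := by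
    funext z; rw [qd, re_conj_mul_self, sq (U z)]
  have iU : IntegrableOn (qd f (k ^ 2) U) D := by rw [eq]; exact integrableOn_Q _ hU hU
  have zU : ∫ z in D, qd f (k ^ 2) U z = 0 := by rw [eq]; exact hN U hU
  have iw := integrableOn_nu_qd hf (k ^ 2) hw hfl
  have iT := (((iA (1 / 2)).fun_add (iA (I / 2))).fun_sub
    ((iW (1 / 2)).const_mul (k ^ 2))).fun_sub ((iW (I / 2)).const_mul (k ^ 2))
  have iB : IntegrableOn (tb f k (U 0)) D := by
    refine ((iT.add (iU.const_mul (k ^ 2))).add (iw.const_mul (k ^ 2))).congr ?_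
    filter_upwards [ae_ne_zero_D] with z ⟨hz, hz0⟩
    simp only [Pi.add_apply]
    rw [trace_pointwise hf hU hz hz0]; ring
  have key := integral_congr_ae (μ := volume.restrict D)
    (ae_ne_zero_D.mono fun z hz => trace_pointwise (k := k) hf hU hz.1 hz.2)
  rw [integral_sub (((iA (1 / 2)).fun_add (iA (I / 2))).fun_sub ((iW (1 / 2)).const_mul (k ^ 2)))
      ((iW (I / 2)).const_mul (k ^ 2)),
    integral_sub ((iA (1 / 2)).fun_add (iA (I / 2))) ((iW (1 / 2)).const_mul (k ^ 2)),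
    integral_add (iA (1 / 2)) (iA (I / 2)),
    integral_add ((iU.const_mul _).sub' (iw.const_mul _)) iB,
    integral_sub (iU.const_mul _) (iw.const_mul _), integral_const_mul, integral_const_mul,
    integral_const_mul, integral_const_mul, zU] at key
  obtain ⟨z0, hz0, hz00, hpos⟩ := exists_pos_point hf hk hnz
  obtain ⟨m, hm⟩ := (eventually_th (show 0 < ‖z0‖ ^ 2 by positivity) (normSq_lt_one hz0)).exists
  have h1 := w_part hf hw hH hfl m
  have h2 := beta_part hf k (U 0) iB m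
  have cG : ContinuousOn (fun z => (U z - bt f k (U 0) z) ^ 2 + U 0 ^ 2 / 4 * cc f k z) D :=
    (hw.c1.continuousOn.pow 2).add (continuousOn_const.mul (continuousOn_cc hf k))
  have h3 : 0 < ∫ z in D, th m (‖z‖ ^ 2)
      * ((U z - bt f k (U 0) z) ^ 2 + U 0 ^ 2 / 4 * cc f k z) := by
    rw [setIntegral_pos_iff_support_of_nonneg_ae (Eventually.of_forall fun z =>
      mul_nonneg (th_nonneg _ _) (by unfold cc; positivity)) (integrableOn_th_mul cG m)]
    have c2 := ((th_contDiff m (m := 0)).continuous.comp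
      (continuous_norm.pow 2)).continuousOn.mul cG
    have ho := c2.isOpen_inter_preimage isOpen_ball (isOpen_Ioi (a := (0 : ℝ)))
    refine (ho.measure_pos volume ⟨z0, hz0, ?_⟩).trans_le (measure_mono fun z hz => ⟨?_, hz.1⟩)
    · simpa [hm.1] using hpos
    · exact ne_of_gt hz.2
  have i1 : IntegrableOn (fun z => th m (‖z‖ ^ 2) * (U z - bt f k (U 0) z) ^ 2) D :=
    integrableOn_th_mul (G := fun z => (U z - bt f k (U 0) z) ^ 2) (hw.c1.continuousOn.pow 2) m
  have i2 := integrableOn_th_mul (continuousOn_cc hf k) m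
  simp only [mul_add, mul_left_comm (th m _) (U 0 ^ 2 / 4)] at h3
  rw [integral_add i1 (i2.const_mul _), integral_const_mul] at h3
  have hk2 : 0 < k ^ 2 := by positivity
  nlinarith [mul_pos hk2 h3, mul_le_mul_of_nonneg_left h1 hk2.le]

end Crest.Agent.R101
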