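import Crest.Agent.R101.Form

/-!
Row 101: the radial weight `ν(t) = (1-t)²/(2t)`, two-sided cut-offs, and the positivity of
`∫ ν (‖∇w‖² - μ ρ w²)`.
-/

set_option autoImplicit false
open Complex MeasureTheory Metric Set Filter Topology
open scoped ComplexConjugate

namespace Crest.Agent.R101

noncomputable def nu (t : ℝ) : ℝ := (t + t⁻¹) / 2 - 1
noncomputable def nu1 (t : ℝ) : ℝ := (1 - (t ^ 2)⁻¹) / 2
noncomputable def nu2 (t : ℝ) : ℝ := (t ^ 3)⁻¹

theorem nu_hasDerivAt {t : ℝ} (ht : t ≠ 0) : HasDerivAt nu (nu1 t) t := by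
  have := (((hasDerivAt_id' t).fun_add (hasDerivAt_inv ht)).div_const 2).sub_const 1
  exact this.congr_deriv (by simp only [nu1]; ring)

theorem nu1_hasDerivAt {t : ℝ} (ht : t ≠ 0) : HasDerivAt nu1 (nu2 t) t := by
  have h := (((hasDerivAt_pow 2 t).fun_inv (pow_ne_zero 2 ht)).const_sub 1).div_const 2
  exact h.congr_deriv (by simp [nu2]; field_simp)

theorem nu_contDiffAt {t : ℝ} (ht : t ≠ 0) {n : WithTop ℕ∞} : ContDiffAt ℝ n nu t :=
  ((contDiffAt_id.add (contDiffAt_id.inv ht)).div_const 2).sub contDiffAt_const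

theorem nu1_contDiffAt {t : ℝ} (ht : t ≠ 0) {n : WithTop ℕ∞} : ContDiffAt ℝ n nu1 t :=
  (contDiffAt_const.sub ((contDiffAt_id.pow 2).inv (pow_ne_zero 2 ht))).div_const 2

theorem nu_eq {t : ℝ} (ht : t ≠ 0) : nu t = (1 - t) ^ 2 / (2 * t) := by
  simp only [nu]; field_simp; ring

theorem nu_nonneg {t : ℝ} (ht : 0 < t) : 0 ≤ nu t := by rw [nu_eq ht.ne']; positivity

theorem nu_le {t : ℝ} (ht : 0 < t) (h1 : t ≤ 1) : nu t ≤ (2 * t)⁻¹ := by
  rw [nu_eq ht.ne', div_eq_mul_inv]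
  exact mul_le_of_le_one_left (by positivity) (by nlinarith)

theorem nu1_nonpos {t : ℝ} (ht : 0 < t) (h1 : t ≤ 1) : nu1 t ≤ 0 := by
  have : 1 ≤ (t ^ 2)⁻¹ := (one_le_inv₀ (by positivity)).2 (by nlinarith)
  simp only [nu1]; linarith

theorem nu1_ge (t : ℝ) : -(2 * t ^ 2)⁻¹ ≤ nu1 t := by
  simp only [nu1, mul_inv]; linarith

theorem nu_lap {t : ℝ} (ht : t ≠ 0) : 4 * (t * nu2 t + nu1 t) = 2 + 2 * (t ^ 2)⁻¹ := by
  simp only [nu1, nu2]; field_simp; ring

theorem measurable_nu : Measurable nu := by unfold nu; fun_prop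

/-- Two-sided cut-off in the variable `t = ‖z‖²`. -/
noncomputable def th (n : ℕ) (t : ℝ) : ℝ := sig ((n + 4) * t) + sig ((n + 4) * (1 - t)) - 1
noncomputable def thi1 (n : ℕ) (t : ℝ) : ℝ := (n + 4) * deriv sig ((n + 4) * t)
noncomputable def tho1 (n : ℕ) (t : ℝ) : ℝ := -(n + 4) * deriv sig ((n + 4) * (1 - t))
noncomputable def thi2 (n : ℕ) (t : ℝ) : ℝ := (n + 4) ^ 2 * deriv (deriv sig) ((n + 4) * t)
noncomputable def tho2 (n : ℕ) (t : ℝ) : ℝ := (n + 4) ^ 2 * deriv (deriv sig) ((n + 4) * (1 - t))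

theorem lin1 (n : ℕ) (t : ℝ) : HasDerivAt (fun t : ℝ => ((n : ℝ) + 4) * t) (n + 4) t := by
  simpa using (hasDerivAt_id t).const_mul ((n : ℝ) + 4)

theorem lin2 (n : ℕ) (t : ℝ) : HasDerivAt (fun t : ℝ => ((n : ℝ) + 4) * (1 - t)) (-(n + 4)) t := by
  simpa using ((hasDerivAt_id t).const_sub 1).const_mul ((n : ℝ) + 4)

theorem th_hasDerivAt (n : ℕ) (t : ℝ) : HasDerivAt (th n) (thi1 n t + tho1 n t) t := by
  have h := (((sig_hasDerivAt _).comp t (lin1 n t)).fun_add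
    ((sig_hasDerivAt _).comp t (lin2 n t))).sub_const 1
  exact h.congr_deriv (by simp only [thi1, tho1]; ring)

theorem thi1_hasDerivAt (n : ℕ) (t : ℝ) : HasDerivAt (thi1 n) (thi2 n t) t := by
  have h := ((deriv_sig_hasDerivAt _).comp t (lin1 n t)).const_mul ((n : ℝ) + 4)
  exact h.congr_deriv (by simp only [thi2]; ring)

theorem tho1_hasDerivAt (n : ℕ) (t : ℝ) : HasDerivAt (tho1 n) (tho2 n t) t := by
  have h := ((deriv_sig_hasDerivAt _).comp t (lin2 n t)).const_mul (-((n : ℝ) + 4))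
  exact h.congr_deriv (by simp only [tho2]; ring)

theorem th_contDiff (n : ℕ) {m : ℕ∞} : ContDiff ℝ m (th n) :=
  ((sig_contDiff.comp (contDiff_const.mul contDiff_id)).add
    (sig_contDiff.comp (contDiff_const.mul (contDiff_const.sub contDiff_id)))).sub contDiff_const

theorem thi1_contDiff (n : ℕ) {m : ℕ∞} : ContDiff ℝ m (thi1 n) :=
  contDiff_const.mul (deriv_sig_contDiff.comp (contDiff_const.mul contDiff_id))

theorem tho1_contDiff (n : ℕ) {m : ℕ∞} : ContDiff ℝ m (tho1 n) :=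
  contDiff_const.mul (deriv_sig_contDiff.comp
    (contDiff_const.mul (contDiff_const.sub contDiff_id)))

theorem n4 (n : ℕ) : (4 : ℝ) ≤ n + 4 := by have : (0 : ℝ) ≤ n := n.cast_nonneg; linarith

theorem th_of_le_half (n : ℕ) {t : ℝ} (h : t ≤ 1 / 2) : th n t = sig ((n + 4) * t) := by
  have := n4 n
  rw [th, sig_one (s := (n + 4) * (1 - t)) (by nlinarith)]; ring

theorem th_of_half_le (n : ℕ) {t : ℝ} (h : 1 / 2 ≤ t) : th n t = sig ((n + 4) * (1 - t)) := by
  have := n4 n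
  rw [th, sig_one (s := (n + 4) * t) (by nlinarith)]; ring

theorem th_nonneg (n : ℕ) (t : ℝ) : 0 ≤ th n t := by
  rcases le_total t (1 / 2) with h | h
  · rw [th_of_le_half n h]; exact sig_nonneg _
  · rw [th_of_half_le n h]; exact sig_nonneg _

theorem th_le_one (n : ℕ) (t : ℝ) : th n t ≤ 1 := by
  have := sig_le_one ((n + 4) * t); have := sig_le_one ((n + 4) * (1 - t))
  simp only [th]; linarith

theorem th_mono {m n : ℕ} (h : m ≤ n) {t : ℝ} (h0 : 0 ≤ t) (h1 : t ≤ 1) : th m t ≤ th n t := by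
  have hc : (m : ℝ) ≤ n := by exact_mod_cast h
  have a1 := sig_mono (show ((m : ℝ) + 4) * t ≤ (n + 4) * t by nlinarith)
  have a2 := sig_mono (show ((m : ℝ) + 4) * (1 - t) ≤ (n + 4) * (1 - t) by nlinarith)
  simp only [th]; linarith

theorem th_small (n : ℕ) {t : ℝ} (h : t < 1 / (n + 4)) :
    th n t = 0 ∧ thi1 n t = 0 ∧ tho1 n t = 0 := by
  have h4 := n4 n
  have h1 : ((n : ℝ) + 4) * t < 1 := by rwa [lt_div_iff₀ (by linarith), mul_comm] at h
  have h2 : t ≤ 1 / 4 := h.le.trans (one_div_le_one_div_of_le (by norm_num) h4)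
  refine ⟨by rw [th_of_le_half n (by linarith), sig_zero h1.le], ?_, ?_⟩
  · rw [thi1, deriv_sig_zero (Or.inl h1), mul_zero]
  · rw [tho1, deriv_sig_zero (Or.inr (by nlinarith)), mul_zero]

theorem th_large (n : ℕ) {t : ℝ} (h : 1 - 1 / (2 * (n + 4)) ≤ t) :
    th n t = 0 ∧ thi1 n t = 0 ∧ tho1 n t = 0 := by
  have h4 := n4 n
  have e : ((n : ℝ) + 4) * (1 / (2 * (n + 4))) = 1 / 2 := by field_simp
  have h1 : ((n : ℝ) + 4) * (1 - t) < 1 := by nlinarith
  have h3 : 1 / (2 * ((n : ℝ) + 4)) ≤ 1 / 8 := one_div_le_one_div_of_le (by norm_num) (by linarith)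
  refine ⟨by rw [th_of_half_le n (by linarith), sig_zero h1.le], ?_, ?_⟩
  · rw [thi1, deriv_sig_zero (Or.inr (by nlinarith)), mul_zero]
  · rw [tho1, deriv_sig_zero (Or.inl h1), mul_zero]

theorem large_lt_one (n : ℕ) : 1 - 1 / (2 * ((n : ℝ) + 4)) < 1 := by
  have : 0 < 1 / (2 * ((n : ℝ) + 4)) := by positivity
  linarith

theorem eventually_two_lt' {t : ℝ} (ht : 0 < t) : ∀ᶠ n : ℕ in atTop, 2 < ((n : ℝ) + 4) * t := by
  filter_upwards [eventually_two_lt ht] with n hn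
  nlinarith

theorem eventually_th {t : ℝ} (h0 : 0 < t) (h1 : t < 1) : ∀ᶠ n : ℕ in atTop,
    th n t = 1 ∧ thi1 n t = 0 ∧ tho1 n t = 0 ∧ thi2 n t = 0 ∧ tho2 n t = 0 := by
  filter_upwards [eventually_two_lt' h0, eventually_two_lt' (sub_pos.2 h1)] with n a b
  refine ⟨by rw [th, sig_one a.le, sig_one b.le]; ring, ?_, ?_, ?_, ?_⟩
  · rw [thi1, deriv_sig_zero (Or.inr a), mul_zero]
  · rw [tho1, deriv_sig_zero (Or.inr b), mul_zero]
  · rw [thi2, deriv2_sig_zero (Or.inr a), mul_zero]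
  · rw [tho2, deriv2_sig_zero (Or.inr b), mul_zero]

/-- A product with a factor vanishing near `(-∞, 0]` is smooth. -/
theorem contDiff_mul_sing {g h : ℝ → ℝ} {m : WithTop ℕ∞} {δ : ℝ} (hδ : 0 < δ) (hg : ContDiff ℝ m g)
    (h0 : ∀ t < δ, g t = 0) (hh : ∀ t, t ≠ 0 → ContDiffAt ℝ m h t) :
    ContDiff ℝ m (fun t => g t * h t) := by
  rw [contDiff_iff_contDiffAt]
  intro t
  by_cases ht : t = 0
  · have : (fun t => g t * h t) =ᶠ[𝓝 t] fun _ => 0 := by
      filter_upwards [Iio_mem_nhds (show t < δ by rw [ht]; exact hδ)] with x hx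
      simp [h0 x hx]
    exact contDiffAt_const.congr_of_eventuallyEq this
  · exact hg.contDiffAt.mul (hh t ht)

theorem exists_radius {b : ℝ} (hb : b < 1) : ∃ R : ℝ, R < 1 ∧ ∀ z : ℂ, R ≤ ‖z‖ → b ≤ ‖z‖ ^ 2 := by
  refine ⟨Real.sqrt (max b 0), ?_, fun z hz => (le_max_left _ _).trans (Real.sqrt_le_iff.1 hz).2⟩
  rw [Real.sqrt_lt' one_pos]; simpa using hb

theorem ae_ne_zero_D : ∀ᵐ z ∂(volume.restrict D), z ∈ D ∧ z ≠ 0 := by
  filter_upwards [ae_restrict_mem measurableSet_ball,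
    ae_restrict_of_ae (Measure.ae_ne volume (0 : ℂ))] with z h1 h2 using ⟨h1, h2⟩

theorem normSq_lt_one {z : ℂ} (hz : z ∈ D) : ‖z‖ ^ 2 < 1 := by
  linarith [one_sub_normSq_pos hz]

/-- The energy density. -/
noncomputable def qd (f : ℂ → ℂ) (μ : ℝ) (V : ℂ → ℝ) (z : ℂ) : ℝ :=
  ‖gr V z‖ ^ 2 - μ * rho f z * V z ^ 2

theorem continuousOn_qd {f : ℂ → ℂ} (hf : Geo f) (μ : ℝ) {V : ℂ → ℝ} (hV : ContDiffOn ℝ 1 V D) :
    ContinuousOn (qd f μ V) D :=
  ((continuousOn_gr isOpen_ball hV).norm.pow 2).sub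
    ((continuousOn_const.mul hf.continuousOn_rho).mul (hV.continuousOn.pow 2))

theorem re_conj_mul_self (x : ℂ) : (conj x * x).re = ‖x‖ ^ 2 := by
  rw [conj_mul']; norm_cast

/-- Testing the Helmholtz equation with `Γ(‖z‖²) w`. -/
theorem helm_radial {f : ℂ → ℂ} {μ : ℝ} (hf : Geo f) {w : ℂ → ℝ} (hw : ContDiffOn ℝ 1 w D)
    (hH : Helm f μ w) {Γ l : ℝ → ℝ} (hΓ : ∀ t, HasDerivAt Γ (l t) t) (hl : Continuous l) {b : ℝ}
    (hb : b < 1) (h0 : ∀ t, b ≤ t → Γ t = 0) (h1 : ∀ t, b ≤ t → l t = 0) :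
    ∫ z in D, Γ (‖z‖ ^ 2) * qd f μ w z
      = -∫ z in D, w z * (conj (gr w z) * (2 * (l (‖z‖ ^ 2) : ℝ) * z)).re := by
  obtain ⟨R, hR, hRb⟩ := exists_radius hb
  have hΓ1 : ContDiff ℝ 1 Γ := by
    rw [contDiff_one_iff_deriv]
    refine ⟨fun t => (hΓ t).differentiableAt, ?_⟩
    rw [show deriv Γ = l from funext fun t => (hΓ t).deriv]; exact hl
  have hG : ContDiff ℝ 1 (fun z : ℂ => Γ (‖z‖ ^ 2)) := hΓ1.comp contDiff_normSq
  have h := hH (fun z => Γ (‖z‖ ^ 2) * w z) (hG.contDiffOn.mul hw)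
    ⟨R, hR, fun z hz => by simp [h0 _ (hRb z hz)]⟩
  have i1 : IntegrableOn (fun z : ℂ => Γ (‖z‖ ^ 2) * qd f μ w z) D :=
    integrableOn_of_supp (hG.continuous.continuousOn.mul (continuousOn_qd hf μ hw)) hR
      fun z hz => by simp [h0 _ (hRb z hz.le)]
  have i2 : IntegrableOn
      (fun z : ℂ => w z * (conj (gr w z) * (2 * (l (‖z‖ ^ 2) : ℝ) * z)).re) D := by
    refine integrableOn_of_supp (hw.continuousOn.mul (continuous_re.comp_continuousOn
      ((continuous_conj.comp_continuousOn (continuousOn_gr isOpen_ball hw)).mul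
        (Continuous.continuousOn (by fun_prop))))) hR fun z hz => by simp [h1 _ (hRb z hz.le)]
  rw [Q, setIntegral_congr_fun measurableSet_ball (g := fun z => Γ (‖z‖ ^ 2) * qd f μ w z
      + w z * (conj (gr w z) * (2 * (l (‖z‖ ^ 2) : ℝ) * z)).re), integral_add i1 i2] at h
  · linarith
  · intro z hz
    have e := gr_mul (a := fun z : ℂ => Γ (‖z‖ ^ 2)) (b := w)
      (hG.differentiable (by simp) z) (diffAt_of_contDiffOn hw hz)
    beta_reduce at e ⊢
    rw [e, gr_radial (hΓ _), qd, ← re_conj_mul_self (gr w z)]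
    generalize Γ (‖z‖ ^ 2) = a
    generalize l (‖z‖ ^ 2) = c
    simp; ring

/-- Integration by parts for `V² - c` against a radial vector field. -/
theorem rad_sq {V : ℂ → ℝ} (hV : ContDiffOn ℝ 1 V D) (c : ℝ) {l : ℝ → ℝ} (hl : ContDiff ℝ 1 l)
    {b : ℝ} (hb : b < 1) (h0 : ∀ t, b ≤ t → l t = 0) :
    ∫ z in D, V z * (conj (gr V z) * (2 * (l (‖z‖ ^ 2) : ℝ) * z)).re
      = -∫ z in D, (V z ^ 2 - c) * (2 * (‖z‖ ^ 2 * deriv l (‖z‖ ^ 2) + l (‖z‖ ^ 2))) := by
  have h := rad (E := fun z => (1 / 2) * (V z * V z - c))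
    (contDiffOn_const.mul ((hV.mul hV).sub contDiffOn_const)) hl hb h0
  rw [setIntegral_congr_fun measurableSet_ball
    (g := fun z => V z * (conj (gr V z) * (2 * (l (‖z‖ ^ 2) : ℝ) * z)).re)] at h
  · rw [h]; congr 2; funext z; ring
  · intro z hz
    have d := diffAt_of_contDiffOn hV hz
    simp only
    rw [gr_const_mul _ ((d.fun_mul d).sub_const c), gr_sub (d.fun_mul d) (differentiableAt_const c),
      gr_mul d d]
    simp; ring

noncomputable def lw (n : ℕ) (t : ℝ) : ℝ := th n t * nu1 t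
noncomputable def Gam (n : ℕ) (t : ℝ) : ℝ := ∫ x in (1 : ℝ)..t, lw n x

theorem lw_contDiff (n : ℕ) : ContDiff ℝ 1 (lw n) :=
  contDiff_mul_sing (δ := 1 / (n + 4)) (by positivity) (th_contDiff n (m := 1))
    (fun t ht => (th_small n ht).1) fun t ht => nu1_contDiffAt ht

theorem lw_neg_cont (n : ℕ) : Continuous (fun x => th n x * -nu1 x) :=
  (lw_contDiff n).continuous.neg.congr fun x => by simp [lw]

theorem Gam_hasDerivAt (n : ℕ) (t : ℝ) : HasDerivAt (Gam n) (lw n t) t :=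
  ((lw_contDiff n).continuous.integral_hasStrictDerivAt 1 t).hasDerivAt

theorem Gam_large (n : ℕ) {t : ℝ} (h : 1 - 1 / (2 * (n + 4)) ≤ t) : Gam n t = 0 := by
  rw [Gam, intervalIntegral.integral_congr (g := fun _ => 0)]
  · simp
  · intro x hx
    have : 1 - 1 / (2 * ((n : ℝ) + 4)) ≤ x := by
      rcases le_total 1 t with h1 | h1
      · rw [uIcc_of_le h1] at hx; linarith [hx.1, large_lt_one n]
      · rw [uIcc_of_ge h1] at hx; linarith [hx.1]
    simp [lw, (th_large n this).1]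

theorem nu1_intervalIntegrable {t : ℝ} (h0 : 0 < t) (h1 : t ≤ 1) :
    IntervalIntegrable nu1 volume t 1 := by
  refine ContinuousOn.intervalIntegrable fun x hx => ?_
  rw [uIcc_of_le h1] at hx
  exact (nu1_contDiffAt (n := 0) (by linarith [hx.1] : x ≠ 0)).continuousAt.continuousWithinAt

theorem nu_eq_integral {t : ℝ} (h0 : 0 < t) (h1 : t ≤ 1) : nu t = ∫ x in t..1, -nu1 x := by
  rw [intervalIntegral.integral_neg, intervalIntegral.integral_eq_sub_of_hasDerivAt (f := nu)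
    (fun x hx => nu_hasDerivAt (by rw [uIcc_of_le h1] at hx; linarith [hx.1]))
    (nu1_intervalIntegrable h0 h1)]
  simp [nu]

theorem Gam_eq (n : ℕ) (t : ℝ) : Gam n t = ∫ x in t..1, th n x * -nu1 x := by
  rw [Gam, intervalIntegral.integral_symm, ← intervalIntegral.integral_neg]
  simp [lw]

theorem Gam_bounds (n : ℕ) {t : ℝ} (h0 : 0 < t) (h1 : t ≤ 1) : 0 ≤ Gam n t ∧ Gam n t ≤ nu t := by
  rw [Gam_eq, nu_eq_integral h0 h1]
  constructor
  · refine intervalIntegral.integral_nonneg h1 fun x hx => mul_nonneg (th_nonneg _ _) ?_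
    linarith [nu1_nonpos (h0.trans_le hx.1) hx.2]
  · refine intervalIntegral.integral_mono_on h1 ?_ (nu1_intervalIntegrable h0 h1).neg
      fun x hx => mul_le_of_le_one_left ?_ (th_le_one _ _)
    · exact (lw_neg_cont n).intervalIntegrable t 1
    · linarith [nu1_nonpos (h0.trans_le hx.1) hx.2]

theorem Gam_tendsto {t : ℝ} (h0 : 0 < t) (h1 : t ≤ 1) :
    Tendsto (fun n => Gam n t) atTop (𝓝 (nu t)) := by
  simp only [Gam_eq, nu_eq_integral h0 h1]
  refine intervalIntegral.tendsto_integral_filter_of_dominated_convergence (fun x => |nu1 x|)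
    (Eventually.of_forall fun n => ?_) (Eventually.of_forall fun n =>
      Eventually.of_forall fun x _ => ?_) (nu1_intervalIntegrable h0 h1).abs ?_
  · exact (lw_neg_cont n).aestronglyMeasurable
  · rw [norm_mul, Real.norm_eq_abs, Real.norm_eq_abs, abs_neg, abs_of_nonneg (th_nonneg _ _)]
    exact mul_le_of_le_one_left (abs_nonneg _) (th_le_one _ _)
  · filter_upwards [Measure.ae_ne volume (1 : ℝ)] with x hx hx'
    rw [uIoc_of_le h1] at hx'
    refine tendsto_const_nhds.congr' ?_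
    filter_upwards [eventually_th (h0.trans hx'.1) (lt_of_le_of_ne hx'.2 hx)] with n hn
    rw [hn.1, one_mul]

theorem integrableOn_nu_qd {f : ℂ → ℂ} (hf : Geo f) (μ : ℝ) {w : ℂ → ℝ} (hw : Adm f w)
    (hfl : Flat w) : IntegrableOn (fun z : ℂ => nu (‖z‖ ^ 2) * qd f μ w z) D := by
  obtain ⟨C, r, hr0, hr1, hC⟩ := hfl
  have hm : AEStronglyMeasurable (fun z : ℂ => nu (‖z‖ ^ 2) * qd f μ w z) (volume.restrict D) :=
    (measurable_nu.comp (measurable_norm.pow_const 2)).aestronglyMeasurable.mul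
      ((continuousOn_qd hf μ hw.c1).aestronglyMeasurable measurableSet_ball)
  refine Integrable.mono' (g := fun z => C ^ 2 + |μ| * C ^ 2 * rho f z
    + (r ^ 2)⁻¹ * (‖gr w z‖ ^ 2 + |μ| * (rho f z * w z ^ 2)))
    (((integrable_const _).add (hf.area.const_mul _)).add
      ((hw.g2.add (hw.l2.const_mul _)).const_mul _)) hm ?_
  filter_upwards [ae_ne_zero_D] with z ⟨hz, hz0⟩
  have ht : 0 < ‖z‖ ^ 2 := by positivity
  have ht1 := normSq_lt_one hz
  have hρ := rho_nonneg f z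
  have hq : |qd f μ w z| ≤ ‖gr w z‖ ^ 2 + |μ| * (rho f z * w z ^ 2) := by
    refine (abs_sub _ _).trans ?_
    rw [abs_of_nonneg (by positivity), mul_assoc, abs_mul,
      abs_of_nonneg (a := rho f z * w z ^ 2) (by positivity)]
  have hn : nu (‖z‖ ^ 2) ≤ (‖z‖ ^ 2)⁻¹ :=
    (nu_le ht ht1.le).trans (inv_anti₀ ht (by linarith))
  rw [norm_mul, Real.norm_eq_abs, Real.norm_eq_abs, abs_of_nonneg (nu_nonneg ht)]
  refine (mul_le_mul hn hq (abs_nonneg _) (by positivity)).trans ?_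
  rcases le_total ‖z‖ r with h | h
  · obtain ⟨a1, a2⟩ := hC z h
    have b1 : ‖gr w z‖ ^ 2 ≤ C ^ 2 * ‖z‖ ^ 2 := by
      rw [← mul_pow]; exact pow_le_pow_left₀ (norm_nonneg _) a1 2
    have b2 : w z ^ 2 ≤ C ^ 2 * ‖z‖ ^ 2 := by
      have : w z ^ 2 ≤ (C * ‖z‖ ^ 2) ^ 2 := by
        rw [← sq_abs]; exact pow_le_pow_left₀ (abs_nonneg _) a2 2
      nlinarith [sq_nonneg C, mul_nonneg (sq_nonneg C) ht.le]
    have b3 : (‖z‖ ^ 2)⁻¹ * (‖gr w z‖ ^ 2 + |μ| * (rho f z * w z ^ 2))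
        ≤ (‖z‖ ^ 2)⁻¹ * (C ^ 2 * ‖z‖ ^ 2 + |μ| * (rho f z * (C ^ 2 * ‖z‖ ^ 2))) := by gcongr
    have b4 : (‖z‖ ^ 2)⁻¹ * (C ^ 2 * ‖z‖ ^ 2 + |μ| * (rho f z * (C ^ 2 * ‖z‖ ^ 2)))
        = C ^ 2 + |μ| * C ^ 2 * rho f z := by field_simp
    have b5 : 0 ≤ (r ^ 2)⁻¹ * (‖gr w z‖ ^ 2 + |μ| * (rho f z * w z ^ 2)) := by positivity
    linarith
  · have b1 : (‖z‖ ^ 2)⁻¹ ≤ (r ^ 2)⁻¹ := inv_anti₀ (by positivity) (by gcongr)
    have b2 := mul_le_mul_of_nonneg_right b1
      (show 0 ≤ ‖gr w z‖ ^ 2 + |μ| * (rho f z * w z ^ 2) by positivity)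
    have b3 : 0 ≤ C ^ 2 + |μ| * C ^ 2 * rho f z := by positivity
    linarith

theorem integrableOn_th_mul {G : ℂ → ℝ} (hG : ContinuousOn G D) (m : ℕ) :
    IntegrableOn (fun z : ℂ => th m (‖z‖ ^ 2) * G z) D := by
  obtain ⟨R, hR, hRb⟩ := exists_radius (large_lt_one m)
  exact integrableOn_of_supp (((th_contDiff m (m := 0)).continuous.comp
    (continuous_norm.pow 2)).continuousOn.mul hG) hR
    fun z hz => by simp [(th_large m (hRb z hz.le)).1]

theorem exists_thi_bound : ∃ C : ℝ, 0 < C ∧ ∀ (n : ℕ) (t : ℝ), 0 ≤ t →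
    0 ≤ thi1 n t ∧ t * thi1 n t ≤ C ∧ t ^ 2 * |thi2 n t| ≤ C := by
  obtain ⟨C, hC, h⟩ := exists_sig_bound
  refine ⟨4 * C, by positivity, fun n t ht => ?_⟩
  have h4 := n4 n
  have hp := deriv_sig_nonneg ((n + 4) * t)
  refine ⟨mul_nonneg (by linarith) hp, ?_⟩
  by_cases h2 : 2 < ((n : ℝ) + 4) * t
  · rw [thi1, thi2, deriv_sig_zero (Or.inr h2), deriv2_sig_zero (Or.inr h2)]
    simp; positivity
  · have a := h ((n + 4) * t)
    have a1 := (le_abs_self _).trans a.1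
    have hs : 0 ≤ ((n : ℝ) + 4) * t := by positivity
    push Not at h2
    constructor
    · rw [thi1, ← mul_assoc, mul_comm t]; nlinarith
    · rw [thi2, abs_mul, abs_of_nonneg (by positivity : (0 : ℝ) ≤ (n + 4) ^ 2), ← mul_assoc,
        ← mul_pow, mul_comm t]
      have : (((n : ℝ) + 4) * t) ^ 2 ≤ 4 := by nlinarith
      exact mul_le_mul this a.2 (abs_nonneg _) (by norm_num)

/-- Positivity of the `w` part. -/
theorem w_part {f : ℂ → ℂ} {μ : ℝ} (hf : Geo f) {w : ℂ → ℝ} (hw : Adm f w) (hH : Helm f μ w)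
    (hfl : Flat w) (m : ℕ) :
    ∫ z in D, th m (‖z‖ ^ 2) * w z ^ 2 ≤ ∫ z in D, nu (‖z‖ ^ 2) * qd f μ w z := by
  have hint := integrableOn_nu_qd hf μ hw hfl
  obtain ⟨C, r, hr0, hr1, hC⟩ := hfl
  obtain ⟨K, hK0, hK⟩ := exists_thi_bound
  have hqm := (continuousOn_qd hf μ hw.c1).aestronglyMeasurable (μ := volume) measurableSet_ball
  have hwm := hw.c1.continuousOn.aestronglyMeasurable (μ := volume) measurableSet_ball
  -- left hand sides
  have hL : Tendsto (fun n : ℕ => ∫ z in D, Gam n (‖z‖ ^ 2) * qd f μ w z) atTop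
      (𝓝 (∫ z in D, nu (‖z‖ ^ 2) * qd f μ w z)) := by
    refine tendsto_integral_of_dominated_convergence _ (fun n => ?_) hint.norm (fun n => ?_) ?_
    · have : Continuous (Gam n) :=
        continuous_iff_continuousAt.2 fun t => (Gam_hasDerivAt n t).continuousAt
      exact (this.comp (continuous_norm.pow 2)).aestronglyMeasurable.mul hqm
    · filter_upwards [ae_ne_zero_D] with z ⟨hz, hz0⟩
      have ht : 0 < ‖z‖ ^ 2 := by positivity
      have b := Gam_bounds n ht (normSq_lt_one hz).le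
      rw [norm_mul, norm_mul, Real.norm_of_nonneg b.1, Real.norm_of_nonneg (nu_nonneg ht)]
      exact mul_le_mul_of_nonneg_right b.2 (norm_nonneg _)
    · filter_upwards [ae_ne_zero_D] with z ⟨hz, hz0⟩
      exact (Gam_tendsto (by positivity) (normSq_lt_one hz).le).mul_const _
  -- error terms
  set e : ℕ → ℂ → ℝ := fun n z => w z ^ 2 * (thi1 n (‖z‖ ^ 2) * (‖z‖ ^ 2)⁻¹) with he
  have hem : ∀ n, AEStronglyMeasurable (e n) (volume.restrict D) := fun n =>
    (hwm.pow 2).mul ((((thi1_contDiff n (m := 0)).continuous.measurable.comp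
      (measurable_norm.pow_const 2)).mul (measurable_norm.pow_const 2).inv).aestronglyMeasurable)
  have heb : ∀ᶠ n : ℕ in atTop, ∀ z : ℂ, ‖e n z‖ ≤ C ^ 2 * K := by
    filter_upwards [eventually_two_lt' (show 0 < r ^ 2 by positivity)] with n hn z
    by_cases hz0 : z = 0
    · simp [he, hz0]; positivity
    have ht : 0 < ‖z‖ ^ 2 := by positivity
    rcases le_total ‖z‖ r with h | h
    · have b := hK n _ ht.le
      have a2 := (hC z h).2
      have b2 : w z ^ 2 ≤ (C * ‖z‖ ^ 2) ^ 2 := by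
        rw [← sq_abs]; exact pow_le_pow_left₀ (abs_nonneg _) a2 2
      have b0 := b.1
      rw [Real.norm_of_nonneg (by simp only [he]; positivity)]
      calc e n z ≤ (C * ‖z‖ ^ 2) ^ 2 * (thi1 n (‖z‖ ^ 2) * (‖z‖ ^ 2)⁻¹) := by
            simp only [he]; gcongr
        _ = C ^ 2 * (‖z‖ ^ 2 * thi1 n (‖z‖ ^ 2)) := by field_simp
        _ ≤ C ^ 2 * K := mul_le_mul_of_nonneg_left b.2.1 (sq_nonneg _)
    · have : 2 < ((n : ℝ) + 4) * ‖z‖ ^ 2 :=
        hn.trans_le (mul_le_mul_of_nonneg_left (by gcongr) (by linarith [n4 n]))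
      simp only [he, thi1, deriv_sig_zero (Or.inr this)]
      simp; positivity
  have hE : Tendsto (fun n : ℕ => ∫ z in D, e n z) atTop (𝓝 0) := by
    have : (0 : ℝ) = ∫ z in D, (0 : ℝ) := by simp
    rw [this]
    refine tendsto_integral_filter_of_dominated_convergence (fun _ => C ^ 2 * K)
      (Eventually.of_forall hem) (heb.mono fun n hn => Eventually.of_forall hn)
      (integrable_const _) ?_
    filter_upwards [ae_ne_zero_D] with z ⟨hz, hz0⟩
    refine tendsto_const_nhds.congr' ?_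
    filter_upwards [eventually_th (show 0 < ‖z‖ ^ 2 by positivity) (normSq_lt_one hz)] with n hn
    simp [he, hn.2.1]
  have hR := (tendsto_const_nhds (x := ∫ z in D, th m (‖z‖ ^ 2) * w z ^ 2)).sub hE
  rw [sub_zero] at hR
  refine le_of_tendsto_of_tendsto hR hL ?_
  filter_upwards [heb, eventually_ge_atTop m] with n hn hmn
  have l0 : ∀ t, 1 - 1 / (2 * ((n : ℝ) + 4)) ≤ t → lw n t = 0 := fun t ht => by
    simp [lw, (th_large n ht).1]
  rw [helm_radial hf hw.c1 hH (Gam_hasDerivAt n) (lw_contDiff n).continuous (large_lt_one n)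
    (fun t ht => Gam_large n ht) l0, rad_sq hw.c1 0 (lw_contDiff n) (large_lt_one n) l0, neg_neg]
  have ie : IntegrableOn (e n) D :=
    (integrable_const (C ^ 2 * K)).mono' (hem n) (Eventually.of_forall hn)
  have i1 : IntegrableOn (fun z => th m (‖z‖ ^ 2) * w z ^ 2) D :=
    integrableOn_th_mul (G := fun z => w z ^ 2) (hw.c1.continuousOn.pow 2) m
  rw [← integral_sub i1 ie]
  refine integral_mono_ae (i1.sub ie) ?_ ?_
  · obtain ⟨b', hb1, hb2⟩ := exists_between (large_lt_one n)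
    obtain ⟨R, hR, hRb⟩ := exists_radius hb2
    have c1 := (lw_contDiff n).continuous
    have c2 := (lw_contDiff n).continuous_deriv le_rfl
    refine integrableOn_of_supp (((hw.c1.continuousOn.pow 2).sub continuousOn_const).mul
      (Continuous.continuousOn (by fun_prop))) hR fun z hz => ?_
    have hb := hRb z hz.le
    have : deriv (lw n) (‖z‖ ^ 2) = 0 := by
      have : lw n =ᶠ[𝓝 (‖z‖ ^ 2)] fun _ => 0 := by
        filter_upwards [Ioi_mem_nhds (hb1.trans_le hb)] with x hx using l0 x (le_of_lt hx)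
      rw [this.deriv_eq]; simp
    simp [this, l0 _ (hb1.le.trans hb)]
  · filter_upwards [ae_ne_zero_D] with z ⟨hz, hz0⟩
    have ht : 0 < ‖z‖ ^ 2 := by positivity
    have ht1 := normSq_lt_one hz
    set t := ‖z‖ ^ 2 with htdef
    have hd : deriv (lw n) t = (thi1 n t + tho1 n t) * nu1 t + th n t * nu2 t :=
      ((th_hasDerivAt n t).mul (nu1_hasDerivAt ht.ne')).deriv
    simp only [he, ← htdef, hd, lw, sub_zero]
    have a1 : th m t ≤ th n t := th_mono hmn ht.le ht1.le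
    have a2 : 0 ≤ tho1 n t * nu1 t :=
      mul_nonneg_of_nonpos_of_nonpos (mul_nonpos_of_nonpos_of_nonneg (by linarith [n4 n])
        (deriv_sig_nonneg _)) (nu1_nonpos ht ht1.le)
    have a3 : -(thi1 n t * t⁻¹) ≤ 2 * (t * (thi1 n t * nu1 t)) := by
      have b := mul_le_mul_of_nonneg_left (nu1_ge t) (mul_nonneg ht.le (hK n t ht.le).1)
      have : t * thi1 n t * -(2 * t ^ 2)⁻¹ = -(thi1 n t * t⁻¹) / 2 := by field_simp
      nlinarith
    have a4 : th n t ≤ 2 * (th n t * (t * nu2 t + nu1 t)) := by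
      have l := nu_lap ht.ne'
      have : 0 ≤ (t ^ 2)⁻¹ := by positivity
      nlinarith [th_nonneg n t]
    have a5 : th m t - thi1 n t * t⁻¹ ≤
        2 * (t * ((thi1 n t + tho1 n t) * nu1 t + th n t * nu2 t) + th n t * nu1 t) := by
      nlinarith [mul_nonneg ht.le a2]
    nlinarith [mul_le_mul_of_nonneg_left a5 (sq_nonneg (w z))]

end Crest.Agent.R101
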