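import Crest.Agent.R101.SignA

/-!
Row 101: the pointwise algebraic identity for the trace over the two test fields.
-/

set_option autoImplicit false
open Complex MeasureTheory Metric Set Filter Topology
open scoped ComplexConjugate

namespace Crest.Agent.R101

theorem ofReal_normSq' (x : ℂ) : ((‖x‖ ^ 2 : ℝ) : ℂ) = x * conj x := by
  rw [mul_conj']; push_cast; rfl

theorem phi_id1 {z : ℂ} (hz : z ≠ 0) : phi (1 / 2) z ^ 2 + phi (I / 2) z ^ 2 = 1 := by
  simp only [phi, map_div₀, map_one, conj_I, map_ofNat]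
  field_simp
  linear_combination ((1 - z ^ 2) ^ 2) * I_sq

theorem phi_id2 {z : ℂ} (hz : z ≠ 0) :
    phi (1 / 2) z * phi' (1 / 2) z + phi (I / 2) z * phi' (I / 2) z = 0 := by
  simp only [phi, phi', map_div₀, map_one, conj_I, map_ofNat]
  field_simp
  linear_combination (z ^ 4 - 1) * I_sq

theorem phi_id3 {z : ℂ} (hz : z ≠ 0) :
    phi (1 / 2) z * conj (phi (1 / 2) z) + phi (I / 2) z * conj (phi (I / 2) z)
      = (nu (‖z‖ ^ 2) : ℝ) + 1 := by
  have hc : conj z ≠ 0 := by simpa using hz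
  simp only [nu, ofReal_sub, ofReal_div, ofReal_add, ofReal_inv, ofReal_normSq']
  simp only [phi, map_div₀, map_one, conj_I, map_ofNat, map_add, map_mul, map_neg, ofReal_ofNat,
    ofReal_one]
  generalize conj z = y at hc
  field_simp
  linear_combination (-(1 - z ^ 2) * (1 - y ^ 2)) * I_sq

theorem phi_id4 {z : ℂ} (hz : z ≠ 0) :
    conj (phi (1 / 2) z) * phi' (1 / 2) z + conj (phi (I / 2) z) * phi' (I / 2) z
      = (nu1 (‖z‖ ^ 2) : ℝ) * conj z := by
  have hc : conj z ≠ 0 := by simpa using hz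
  have ht := ofReal_normSq' z
  generalize ‖z‖ ^ 2 = t at ht
  simp only [nu1, ofReal_sub, ofReal_div, ofReal_inv, ofReal_pow _ 2, ht]
  simp only [phi, phi', map_div₀, map_one, conj_I, map_ofNat, map_add, map_mul, map_neg,
    ofReal_ofNat, ofReal_one]
  generalize conj z = y at hc
  field_simp
  linear_combination ((1 + z ^ 2) * (1 - y ^ 2)) * I_sq

theorem phi_id5 {z : ℂ} (hz : z ≠ 0) :
    phi' (1 / 2) z * conj (phi' (1 / 2) z) + phi' (I / 2) z * conj (phi' (I / 2) z)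
      = (‖z‖ ^ 2 * nu2 (‖z‖ ^ 2) + nu1 (‖z‖ ^ 2) : ℝ) := by
  have hc : conj z ≠ 0 := by simpa using hz
  have ht := ofReal_normSq' z
  generalize ‖z‖ ^ 2 = t at ht
  simp only [nu1, nu2, ofReal_sub, ofReal_div, ofReal_add, ofReal_mul, ofReal_inv, ofReal_pow _ 2,
    ofReal_pow _ 3, ht]
  simp only [phi', map_div₀, map_one, conj_I, map_ofNat, map_add, map_neg,
    ofReal_ofNat, ofReal_one, map_pow]
  generalize conj z = y at hc
  field_simp
  linear_combination (-(1 + z ^ 2) * (1 + y ^ 2)) * I_sq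

/-- `V ⟨∇V, 2 z⟩`. -/
noncomputable def rd (V : ℂ → ℝ) (z : ℂ) : ℝ := V z * (conj (gr V z) * (2 * z)).re

theorem trace_alg {z p B g : ℂ} {w b μ : ℝ} (hz : z ≠ 0) (hp : p ≠ 0) :
    ‖p‖ ^ 2 * ‖-(μ : ℂ) * (conj (phi (1 / 2) z) * w + phi (1 / 2) z * b)
        + 2 * phi' (1 / 2) z * B / p‖ ^ 2
      + ‖p‖ ^ 2 * ‖-(μ : ℂ) * (conj (phi (I / 2) z) * w + phi (I / 2) z * b)
        + 2 * phi' (I / 2) z * B / p‖ ^ 2
      - μ * ‖conj (phi (1 / 2) z) * g + phi (1 / 2) z * (conj p * B)‖ ^ 2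
      - μ * ‖conj (phi (I / 2) z) * g + phi (I / 2) z * (conj p * B)‖ ^ 2
    = -μ * (‖g + conj p * B‖ ^ 2 - μ * ‖p‖ ^ 2 * (w + b) ^ 2)
      - μ * (nu (‖z‖ ^ 2) * (‖g‖ ^ 2 - μ * ‖p‖ ^ 2 * w ^ 2))
      + (-μ * (nu (‖z‖ ^ 2) * (‖conj p * B‖ ^ 2 - μ * ‖p‖ ^ 2 * b ^ 2))
        + 4 * (‖z‖ ^ 2 * nu2 (‖z‖ ^ 2) + nu1 (‖z‖ ^ 2)) * ‖B‖ ^ 2
        - 2 * μ * (b * (conj (conj p * B) * (2 * z)).re * nu1 (‖z‖ ^ 2))) := by
  have h1 := phi_id1 hz
  have h2 := phi_id2 hz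
  have h3 := phi_id3 hz
  have h4 := phi_id4 hz
  have h5 := phi_id5 hz
  have h1c := congrArg conj h1
  have h2c := congrArg conj h2
  have h4c := congrArg conj h4
  simp only [map_add, map_mul, map_pow, map_one, map_zero, conj_conj, conj_ofReal] at h1c h2c h4c
  have hpc : conj p ≠ 0 := by simpa using hp
  generalize ‖z‖ ^ 2 * nu2 (‖z‖ ^ 2) + nu1 (‖z‖ ^ 2) = L at h5 ⊢
  generalize nu1 (‖z‖ ^ 2) = n1 at h4 h4c ⊢
  generalize nu (‖z‖ ^ 2) = n at h3 ⊢
  generalize phi (1 / 2) z = a1 at *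
  generalize phi (I / 2) z = a2 at *
  generalize phi' (1 / 2) z = c1 at *
  generalize phi' (I / 2) z = c2 at *
  apply Complex.ofReal_injective
  simp only [ofReal_add, ofReal_sub, ofReal_mul, ofReal_neg, ofReal_normSq', re_eq_add_conj,
    ofReal_pow (w + b) 2, ofReal_pow w 2, ofReal_pow b 2, ofReal_ofNat]
  simp only [map_add, map_mul, map_neg, map_div₀, conj_conj, conj_ofReal, map_ofNat]
  generalize conj p = q at *
  generalize conj a1 = a1' at *
  generalize conj a2 = a2' at *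
  generalize conj c1 = c1' at *
  generalize conj c2 = c2' at *
  generalize conj B = B' at *
  generalize conj g = g' at *
  generalize conj z = z' at *
  have e1 : p * q * ((-(μ : ℂ) * (a1' * w + a1 * b) + 2 * c1 * B / p) *
      (-(μ : ℂ) * (a1 * w + a1' * b) + 2 * c1' * B' / q))
      = (-(μ : ℂ) * p * (a1' * w + a1 * b) + 2 * c1 * B) *
        (-(μ : ℂ) * q * (a1 * w + a1' * b) + 2 * c1' * B') := by field_simp
  have e2 : p * q * ((-(μ : ℂ) * (a2' * w + a2 * b) + 2 * c2 * B / p) *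
      (-(μ : ℂ) * (a2 * w + a2' * b) + 2 * c2' * B' / q))
      = (-(μ : ℂ) * p * (a2' * w + a2 * b) + 2 * c2 * B) *
        (-(μ : ℂ) * q * (a2 * w + a2' * b) + 2 * c2' * B') := by field_simp
  rw [e1, e2]
  linear_combination (μ ^ 2 * p * q * (w ^ 2 + b ^ 2)) * h3 + μ ^ 2 * p * q * w * b * (h1 + h1c)
    - 2 * μ * p * B' * (w * h2c + b * h4c) - 2 * μ * q * B * (w * h2 + b * h4) + 4 * B * B' * h5
    - μ * ((g * g' + q * B * (p * B')) * h3 + g * (p * B') * h1c + q * B * g' * h1)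

end Crest.Agent.R101
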