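import Crest.Agent.R101.Core
import Crest.Agent.Lib.Complex.RiemannMapping

/-!
Row 101: transplanting the problem from a simply connected domain to the disc.
-/

set_option autoImplicit false
open Complex MeasureTheory Metric Set Filter Topology
open scoped ComplexConjugate

namespace Crest.Agent.R101

open Crest.Agent.Lib.Complex

theorem norm_gr_eq (V : ℂ → ℝ) (z : ℂ) : ‖gr V z‖ = ‖fderiv ℝ V z‖ := by
  by_cases h : DifferentiableAt ℝ V z
  · refine le_antisymm ?_ (norm_fderiv_le_gr h)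
    have h1 := (fderiv ℝ V z).le_opNorm (gr V z)
    rw [fderiv_apply_eq h, conj_mul', ← ofReal_pow, ofReal_re,
      Real.norm_of_nonneg (sq_nonneg _), sq] at h1
    rcases (norm_nonneg (gr V z)).eq_or_lt with e | e
    · rw [← e]
      exact norm_nonneg _
    · exact le_of_mul_le_mul_right h1 e
  · have h' : ¬ DifferentiableAt ℝ (fun x => (V x : ℂ)) z := fun h' =>
      h (reCLM.differentiableAt.comp z h')
    simp [gr, db, fderiv_zero_of_not_differentiableAt h, fderiv_zero_of_not_differentiableAt h']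

theorem det_mul (c : ℂ) :
    |((ContinuousLinearMap.toSpanSingleton ℂ c).restrictScalars ℝ).det| = ‖c‖ ^ 2 := by
  rw [ContinuousLinearMap.det, ← LinearMap.det_toMatrix basisOneI, Matrix.det_fin_two]
  simp only [LinearMap.toMatrix_apply]
  rw [Complex.sq_norm, normSq_apply, ← abs_of_nonneg (add_nonneg (mul_self_nonneg c.re)
    (mul_self_nonneg c.im))]
  simp

theorem integral_pos_of_continuousOn {Ω : Set ℂ} (hΩ : IsOpen Ω) {G : ℂ → ℝ}
    (hG : ContinuousOn G Ω) (h0 : ∀ x, 0 ≤ G x) (hi : IntegrableOn G Ω) {x : ℂ} (hx : x ∈ Ω)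
    (hx' : G x ≠ 0) : 0 < ∫ y in Ω, G y := by
  rw [setIntegral_pos_iff_support_of_nonneg_ae (Eventually.of_forall h0) hi, inter_comm]
  exact (hG.isOpen_inter_preimage hΩ isOpen_compl_singleton).measure_pos _ ⟨x, hx, hx'⟩

theorem Adm.Q_self {f : ℂ → ℂ} {V : ℂ → ℝ} (h : Adm f V) (μ : ℝ) :
    Q f μ V V = (∫ z in D, ‖gr V z‖ ^ 2) - μ * ∫ z in D, rho f z * V z ^ 2 := by
  rw [← integral_const_mul, ← integral_sub h.g2 (h.l2.const_mul μ), Q]
  congr 1
  ext z
  rw [conj_mul', ← ofReal_pow, ofReal_re]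
  ring

theorem main_C {Ω : Set ℂ} (hopen : IsOpen Ω) (hbdd : Bornology.IsBounded Ω)
    (hsc : IsSimplyConnected Ω) {u : ℂ → ℝ} (hu : ContDiffOn ℝ 1 u Ω)
    (huL2 : IntegrableOn (fun x => u x ^ 2) Ω) (hg2 : IntegrableOn (fun x => ‖gr u x‖ ^ 2) Ω)
    (hmean : ∫ x in Ω, u x = 0) (hnz : ∃ x ∈ Ω, u x ≠ 0)
    (hmin : ∀ v : ℂ → ℝ, ContDiffOn ℝ 1 v Ω → IntegrableOn (fun x => v x ^ 2) Ω →
      IntegrableOn (fun x => ‖gr v x‖ ^ 2) Ω → ∫ x in Ω, v x = 0 →
      (∫ x in Ω, ‖gr u x‖ ^ 2) * (∫ x in Ω, v x ^ 2) ≤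
        (∫ x in Ω, ‖gr v x‖ ^ 2) * (∫ x in Ω, u x ^ 2)) {x₀ : ℂ} (hx₀ : x₀ ∈ Ω) :
    gr u x₀ ≠ 0 := by
  obtain ⟨g, hg, hbij, hg0⟩ := exists_riemannMap_of_isBounded hopen hsc hbdd hx₀
  set F := Function.invFunOn g Ω with hFdef
  have hinv : InvOn F g Ω D := hbij.invOn_invFunOn
  have hF : BijOn F D Ω := hbij.symm hinv.symm
  have hF0 : F 0 = x₀ := by rw [← hg0]; exact hinv.1 hx₀
  have hd : ∀ z ∈ D, HasDerivAt F (deriv g (F z))⁻¹ z := fun z hz => by
    have := hasDerivAt_invFunOn hopen hg hbij.injOn (hF.mapsTo hz)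
    rwa [hinv.2 hz] at this
  let f : ℂ → ℂ := fun z => F z - x₀
  have hdf : ∀ z ∈ D, deriv f z = (deriv g (F z))⁻¹ := fun z hz => ((hd z hz).sub_const x₀).deriv
  have hd' : ∀ z ∈ D, HasDerivAt F (deriv f z) z := fun z hz => hdf z hz ▸ hd z hz
  have hfd : ∀ z ∈ D, HasFDerivWithinAt F
      ((ContinuousLinearMap.toSpanSingleton ℂ (deriv f z)).restrictScalars ℝ) D z := fun z hz =>
    ((hd' z hz).hasFDerivAt.restrictScalars ℝ).hasFDerivWithinAt
  have cv : ∀ G : ℂ → ℝ, ∫ x in Ω, G x = ∫ z in D, rho f z * G (F z) := fun G => by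
    rw [← hF.image_eq, integral_image_eq_integral_abs_det_fderiv_smul volume measurableSet_ball
      hfd hF.injOn]
    simp only [det_mul, smul_eq_mul, rho]
  have ci : ∀ G : ℂ → ℝ, IntegrableOn G Ω ↔ IntegrableOn (fun z => rho f z * G (F z)) D :=
    fun G => by
      rw [← hF.image_eq, integrableOn_image_iff_integrableOn_abs_det_fderiv_smul volume
        measurableSet_ball hfd hF.injOn]
      simp only [det_mul, smul_eq_mul, rho]
  have hFh : DifferentiableOn ℂ F D := fun z hz => (hd z hz).differentiableAt.differentiableWithinAt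
  have hvol : volume Ω ≠ ⊤ := hbdd.measure_lt_top.ne
  have hf : Geo f := by
    refine ⟨hFh.sub_const _, by simp [f, hF0], fun z hz => ?_, ?_, ?_⟩
    · rw [hdf z hz]
      exact inv_ne_zero (deriv_ne_zero_of_injOn hopen hg hbij.injOn (hF.mapsTo hz))
    · obtain ⟨M, hM⟩ := hbdd.exists_norm_le
      exact ⟨M + M, fun z hz => (norm_sub_le _ _).trans
        (add_le_add (hM _ (hF.mapsTo hz)) (hM _ hx₀))⟩
    · simpa using (ci fun _ => 1).1 (integrableOn_const hvol)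
  have hgr : ∀ v : ℂ → ℝ, ContDiffOn ℝ 1 v Ω → ∀ z ∈ D,
      rho f z * ‖gr v (F z)‖ ^ 2 = ‖gr (fun z => v (F z)) z‖ ^ 2 := fun v hv z hz => by
    rw [gr_comp_holo (hv.contDiffAt (hopen.mem_nhds (hF.mapsTo hz))).differentiableAt_one
      (hd' z hz), norm_mul, Complex.norm_conj, mul_pow, rho]
  have cg : ∀ v : ℂ → ℝ, ContDiffOn ℝ 1 v Ω →
      ∫ x in Ω, ‖gr v x‖ ^ 2 = ∫ z in D, ‖gr (fun z => v (F z)) z‖ ^ 2 := fun v hv => by
    rw [cv]
    exact setIntegral_congr_fun measurableSet_ball (hgr v hv)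
  have cg' : ∀ v : ℂ → ℝ, ContDiffOn ℝ 1 v Ω → (IntegrableOn (fun x => ‖gr v x‖ ^ 2) Ω ↔
      IntegrableOn (fun z => ‖gr (fun z => v (F z)) z‖ ^ 2) D) := fun v hv => by
    rw [ci]
    exact integrableOn_congr_fun (hgr v hv) measurableSet_ball
  have hU : Adm f fun z => u (F z) :=
    ⟨hu.comp ((hFh.contDiffOn isOpen_ball).restrict_scalars ℝ) hF.mapsTo, (ci _).1 huL2,
      (cg' u hu).1 hg2⟩
  obtain ⟨x, hx, hx'⟩ := hnz
  have hB : 0 < ∫ x in Ω, u x ^ 2 := integral_pos_of_continuousOn hopen (hu.continuousOn.pow 2)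
    (fun _ => sq_nonneg _) huL2 hx (pow_ne_zero 2 hx')
  have hA : 0 < ∫ x in Ω, ‖gr u x‖ ^ 2 := by
    by_cases h : ∃ y ∈ Ω, gr u y ≠ 0
    · obtain ⟨y, hy, hy'⟩ := h
      exact integral_pos_of_continuousOn hopen ((continuousOn_gr hopen hu).norm.pow 2)
        (fun _ => sq_nonneg _) hg2 hy (pow_ne_zero 2 (norm_ne_zero_iff.2 hy'))
    · push Not at h
      obtain ⟨c, hc⟩ := hopen.exists_is_const_of_fderiv_eq_zero
        hsc.isPathConnected.isConnected.isPreconnected (hu.differentiableOn one_ne_zero)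
        fun y hy => norm_eq_zero.1 (by rw [← norm_gr_eq, h y hy, norm_zero])
      rw [setIntegral_congr_fun hopen.measurableSet (g := fun _ => c) hc, setIntegral_const,
        smul_eq_mul, mul_eq_zero] at hmean
      rcases hmean with e | e
      · exact absurd e (ENNReal.toReal_pos (hopen.measure_pos _ ⟨x, hx⟩).ne' hvol).ne'
      · exact absurd ((hc x hx).trans e) hx'
  have hk := Real.sq_sqrt (div_pos hA hB).le
  have := core (k := √((∫ x in Ω, ‖gr u x‖ ^ 2) / ∫ x in Ω, u x ^ 2)) hf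
    (Real.sqrt_pos.2 (div_pos hA hB)) ?_ hU ((cv u).symm.trans hmean) ?_
    ⟨g x, hbij.mapsTo hx, by rwa [hinv.1 hx]⟩
  · rw [gr_comp_holo (hu.contDiffAt (hopen.mem_nhds (hF.mapsTo (mem_ball_self one_pos)))
      ).differentiableAt_one (hd' 0 (mem_ball_self one_pos)), hF0] at this
    exact right_ne_zero_of_mul this
  · intro V hV hm
    have hv : ContDiffOn ℝ 1 (fun x => V (g x)) Ω :=
      hV.c1.comp ((hg.contDiffOn hopen).restrict_scalars ℝ) hbij.mapsTo
    have e1 : ∀ z ∈ D, V (g (F z)) = V z := fun z hz => by rw [hinv.2 hz]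
    have e2 : ∀ z ∈ D, gr (fun z => V (g (F z))) z = gr V z := fun z hz =>
      gr_congr (eventually_of_mem (isOpen_ball.mem_nhds hz) e1)
    have := hmin _ hv
      ((ci _).2 (hV.l2.congr_fun (fun z hz => by simp only [e1 z hz]) measurableSet_ball))
      ((cg' _ hv).2 (hV.g2.congr_fun (fun z hz => by simp only [e2 z hz]) measurableSet_ball))
      ((cv _).trans ((setIntegral_congr_fun measurableSet_ball
        fun z hz => by simp only [e1 z hz]).trans hm))
    rw [cg _ hv, cv fun x => V (g x) ^ 2,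
      setIntegral_congr_fun (f := fun z => rho f z * V (g (F z)) ^ 2)
        (g := fun z => rho f z * V z ^ 2) measurableSet_ball fun z hz => by simp only [e1 z hz],
      setIntegral_congr_fun (f := fun z => ‖gr (fun z => V (g (F z))) z‖ ^ 2)
        (g := fun z => ‖gr V z‖ ^ 2) measurableSet_ball fun z hz => by simp only [e2 z hz]] at this
    rw [hV.Q_self, hk, sub_nonneg, div_mul_eq_mul_div, div_le_iff₀ hB]
    exact this
  · rw [hU.Q_self, hk, ← cg u hu, ← cv fun x => u x ^ 2, div_mul_cancel₀ _ hB.ne', sub_self]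

/-- The identification of `ℂ` with the Euclidean plane. -/
noncomputable def eC : ℂ ≃ₗᵢ[ℝ] EuclideanSpace ℝ (Fin 2) := Complex.orthonormalBasisOneI.repr

open scoped Gradient in
theorem norm_gr_comp (v : EuclideanSpace ℝ (Fin 2) → ℝ) (z : ℂ) :
    ‖gr (fun z => v (eC z)) z‖ = ‖∇ v (eC z)‖ := by
  rw [norm_gr_eq, gradient, LinearIsometryEquiv.norm_map]
  exact (congrArg norm (eC.toContinuousLinearEquiv.comp_right_fderiv (f := v) (x := z))).trans
    (ContinuousLinearMap.opNorm_comp_linearIsometryEquiv _ eC)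

theorem integral_eC (Ω : Set (EuclideanSpace ℝ (Fin 2))) (G : EuclideanSpace ℝ (Fin 2) → ℝ) :
    ∫ z in eC ⁻¹' Ω, G (eC z) = ∫ x in Ω, G x :=
  eC.measurePreserving.setIntegral_preimage_emb eC.toHomeomorph.measurableEmbedding G Ω

theorem integrableOn_eC (Ω : Set (EuclideanSpace ℝ (Fin 2))) (G : EuclideanSpace ℝ (Fin 2) → ℝ) :
    IntegrableOn (fun z => G (eC z)) (eC ⁻¹' Ω) ↔ IntegrableOn G Ω :=
  eC.measurePreserving.integrableOn_comp_preimage eC.toHomeomorph.measurableEmbedding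

open scoped Gradient in
theorem main_E (Ω : Set (EuclideanSpace ℝ (Fin 2))) (hopen : IsOpen Ω)
    (hbdd : Bornology.IsBounded Ω) (hsc : IsSimplyConnected Ω)
    (u : EuclideanSpace ℝ (Fin 2) → ℝ) (hu : ContDiffOn ℝ 1 u Ω)
    (huL2 : IntegrableOn (fun x => u x ^ 2) Ω) (hgradL2 : IntegrableOn (fun x => ‖∇ u x‖ ^ 2) Ω)
    (hmean : ∫ x in Ω, u x = 0) (hnz : ∃ x ∈ Ω, u x ≠ 0)
    (hmin : ∀ v : EuclideanSpace ℝ (Fin 2) → ℝ, ContDiffOn ℝ 1 v Ω →
      IntegrableOn (fun x => v x ^ 2) Ω → IntegrableOn (fun x => ‖∇ v x‖ ^ 2) Ω →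
      ∫ x in Ω, v x = 0 →
      (∫ x in Ω, ‖∇ u x‖ ^ 2) * (∫ x in Ω, v x ^ 2) ≤
        (∫ x in Ω, ‖∇ v x‖ ^ 2) * (∫ x in Ω, u x ^ 2)) :
    ∀ x ∈ Ω, ∇ u x ≠ 0 := by
  intro x hx
  have key := main_C (Ω := eC ⁻¹' Ω) (u := fun z => u (eC z)) (hopen.preimage eC.continuous)
    (eC.antilipschitz.isBounded_preimage hbdd) (eC.toHomeomorph.isSimplyConnected_preimage.2 hsc)
    (hu.comp eC.contDiff.contDiffOn fun _ h => h) ((integrableOn_eC Ω fun x => u x ^ 2).2 huL2)
    (by simpa only [norm_gr_comp] using (integrableOn_eC Ω fun x => ‖∇ u x‖ ^ 2).2 hgradL2)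
    ((integral_eC Ω u).trans hmean)
    (by
      obtain ⟨y, hy, hy'⟩ := hnz
      exact ⟨eC.symm y, by simpa using hy, by simpa using hy'⟩) ?_
    (x₀ := eC.symm x) (by simpa using hx)
  · rwa [← norm_ne_zero_iff, norm_gr_comp, eC.apply_symm_apply, norm_ne_zero_iff] at key
  · intro V
    obtain ⟨v, rfl⟩ : ∃ v : EuclideanSpace ℝ (Fin 2) → ℝ, V = fun z => v (eC z) :=
      ⟨fun x => V (eC.symm x), by simp⟩
    intro h1 h2 h3 h4
    simp only [norm_gr_comp] at h3 ⊢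
    rw [integral_eC Ω fun x => ‖∇ u x‖ ^ 2, integral_eC Ω fun x => ‖∇ v x‖ ^ 2,
      integral_eC Ω fun x => u x ^ 2, integral_eC Ω fun x => v x ^ 2]
    refine hmin v ?_ ((integrableOn_eC Ω fun x => v x ^ 2).1 h2)
      ((integrableOn_eC Ω fun x => ‖∇ v x‖ ^ 2).1 h3) ((integral_eC Ω v).symm.trans h4)
    have := h1.comp eC.symm.contDiff.contDiffOn (s := Ω) fun y hy => by simpa using hy
    simpa [Function.comp_def] using this

end Crest.Agent.R101
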